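import Mathlib

/-!
# Row 117, Part F, chunk HAT: partition of unity on `[0,1]`
-/

set_option autoImplicit false

namespace Crest.Agent.JS

/-- clamp to `[0,1]` -/
noncomputable def clampR (x : ℝ) : ℝ := max 0 (min 1 x)

theorem clampR_continuous : Continuous clampR := by unfold clampR; fun_prop

/-- hat functions, `i = 0, ..., N`: `hatR N i t = clamp (N t - i + 1) - clamp (N t - i)` -/
noncomputable def hatR (N i : ℕ) (t : ℝ) : ℝ := clampR (N * t - i + 1) - clampR (N * t - i)

theorem hatR_continuous (N i : ℕ) : Continuous (hatR N i) := by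
  unfold hatR clampR; fun_prop

theorem clampR_mono : Monotone clampR := by
  intro x y h
  unfold clampR
  exact max_le_max le_rfl (min_le_min le_rfl h)

theorem clampR_of_one_le {x : ℝ} (h : 1 ≤ x) : clampR x = 1 := by
  unfold clampR; rw [min_eq_left h]; simp

theorem clampR_of_nonpos {x : ℝ} (h : x ≤ 0) : clampR x = 0 := by
  unfold clampR; rw [min_eq_right (by linarith)]; exact max_eq_left h

theorem hatR_nonneg (N i : ℕ) (t : ℝ) : 0 ≤ hatR N i t := by
  unfold hatR
  have := clampR_mono (show (N * t - i : ℝ) ≤ N * t - i + 1 by linarith)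
  linarith

/-- telescoping sum -/
theorem hatR_sum (N : ℕ) (t : ℝ) (h0 : 0 ≤ t) (h1 : t ≤ 1) :
    ∑ i ∈ Finset.range (N + 1), hatR N i t = 1 := by
  have key : ∀ M : ℕ, ∑ i ∈ Finset.range M, hatR N i t
      = clampR (N * t + 1) - clampR (N * t - M + 1) := by
    intro M
    induction M with
    | zero => simp
    | succ M ih =>
      rw [Finset.sum_range_succ, ih]
      unfold hatR
      have : (N * t - ((M + 1 : ℕ) : ℝ) + 1 : ℝ) = N * t - M := by push_cast; ring
      rw [this]; ring
  rw [key]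
  have hN : (0 : ℝ) ≤ N * t := mul_nonneg (Nat.cast_nonneg _) h0
  have hN1 : (N : ℝ) * t ≤ N := by
    have := mul_le_mul_of_nonneg_left h1 (Nat.cast_nonneg (α := ℝ) N)
    linarith
  rw [clampR_of_one_le (by linarith), clampR_of_nonpos (by push_cast; linarith)]
  ring

theorem hatR_supp {N i : ℕ} {t : ℝ} (h : hatR N i t ≠ 0) : |N * t - i| < 1 := by
  by_contra hc
  rw [not_lt, le_abs'] at hc
  apply h
  unfold hatR
  rcases hc with hc | hc
  · rw [clampR_of_nonpos (by linarith), clampR_of_nonpos (by linarith)]; ring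
  · rw [clampR_of_one_le (by linarith), clampR_of_one_le (by linarith)]; ring

theorem hatR_zero {N i : ℕ} (h : i ≠ 0) : hatR N i 0 = 0 := by
  by_contra hc
  have h1 := hatR_supp hc
  have h2 : (1 : ℝ) ≤ i := by exact_mod_cast Nat.one_le_iff_ne_zero.mpr h
  rw [mul_zero, zero_sub, abs_neg, abs_of_nonneg (Nat.cast_nonneg i)] at h1
  linarith

theorem hatR_one {N i : ℕ} (h : i ≤ N) (h' : i ≠ N) : hatR N i 1 = 0 := by
  by_contra hc
  have h1 := hatR_supp hc
  have h2 : i + 1 ≤ N := by omega
  have h3 : (i : ℝ) + 1 ≤ N := by exact_mod_cast h2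
  rw [mul_one, abs_of_nonneg (by linarith)] at h1
  linarith

/-- Interpolation on the square: `‖W (s,t) - ∑ hat_i(s) hat_j(t) W(i/N, j/N)‖ ≤ η` for some
`N ≥ 1`.  Proof: `W` is uniformly continuous (compact square); take `N` with
`‖W z - W z'‖ ≤ η` for `dist z z' ≤ 1/N`; convex combination. -/
theorem hat_interp {E : Type*} [NormedAddCommGroup E] [NormedSpace ℝ E]
    (W : C(unitInterval × unitInterval, E)) (η : ℝ) (hη : 0 < η) :
    ∃ N : ℕ, 0 < N ∧ ∀ s t : unitInterval,
      ‖W (s, t) - ∑ i ∈ Finset.range (N + 1), ∑ j ∈ Finset.range (N + 1),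
        (hatR N i s * hatR N j t) •
          W (Set.projIcc (0 : ℝ) 1 zero_le_one ((i : ℝ) / N),
            Set.projIcc (0 : ℝ) 1 zero_le_one ((j : ℝ) / N))‖ ≤ η := by
  have huc : UniformContinuous W :=
    CompactSpace.uniformContinuous_of_continuous W.continuous
  rw [Metric.uniformContinuous_iff] at huc
  obtain ⟨δ, hδ, hW⟩ := huc η hη
  obtain ⟨N, hN⟩ := exists_nat_gt (1 / δ)
  have hNpos : 0 < (N : ℝ) := lt_trans (by positivity) hN
  have hN0 : 0 < N := by exact_mod_cast hNpos
  refine ⟨N, hN0, fun s t => ?_⟩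
  have hNδ : 1 / (N : ℝ) < δ := by
    rw [div_lt_iff₀ hNpos]
    rw [div_lt_iff₀ hδ] at hN
    linarith
  -- closeness of the grid point
  have hclose : ∀ (u : unitInterval) (i : ℕ), i ∈ Finset.range (N + 1) → hatR N i u ≠ 0 →
      dist u (Set.projIcc (0 : ℝ) 1 zero_le_one ((i : ℝ) / N)) < δ := by
    intro u i hi hne
    have hsupp := hatR_supp hne
    have hiN : (i : ℝ) ≤ N := by
      have := Finset.mem_range.mp hi
      exact_mod_cast Nat.lt_succ_iff.mp this
    have hmem : ((i : ℝ) / N) ∈ Set.Icc (0 : ℝ) 1 :=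
      ⟨by positivity, by rw [div_le_one hNpos]; exact hiN⟩
    rw [Set.projIcc_of_mem _ hmem, Subtype.dist_eq, Real.dist_eq]
    show |(u : ℝ) - (i : ℝ) / N| < δ
    have : (u : ℝ) - (i : ℝ) / N = (N * (u : ℝ) - i) / N := by field_simp
    rw [this, abs_div, abs_of_pos hNpos]
    calc |(N * (u : ℝ) - i)| / N < 1 / N := by
          exact div_lt_div_of_pos_right hsupp hNpos
      _ < δ := hNδ
  set g : ℕ → ℕ → E := fun i j => W (Set.projIcc (0 : ℝ) 1 zero_le_one ((i : ℝ) / N),
            Set.projIcc (0 : ℝ) 1 zero_le_one ((j : ℝ) / N)) with hg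
  have hs := hatR_sum N s s.2.1 s.2.2
  have ht := hatR_sum N t t.2.1 t.2.2
  have hone : W (s, t) = ∑ i ∈ Finset.range (N + 1), ∑ j ∈ Finset.range (N + 1),
      (hatR N i s * hatR N j t) • W (s, t) := by
    have : ∑ i ∈ Finset.range (N + 1), ∑ j ∈ Finset.range (N + 1),
        (hatR N i s * hatR N j t) = 1 := by
      rw [← Finset.sum_mul_sum, hs, ht, one_mul]
    simp_rw [← Finset.sum_smul]
    rw [this, one_smul]
  rw [hone, ← Finset.sum_sub_distrib]
  simp_rw [← Finset.sum_sub_distrib, ← smul_sub]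
  calc ‖∑ i ∈ Finset.range (N + 1), ∑ j ∈ Finset.range (N + 1),
          (hatR N i s * hatR N j t) • (W (s, t) - g i j)‖
      ≤ ∑ i ∈ Finset.range (N + 1), ∑ j ∈ Finset.range (N + 1),
          ‖(hatR N i s * hatR N j t) • (W (s, t) - g i j)‖ := by
        refine (norm_sum_le _ _).trans (Finset.sum_le_sum fun i _ => norm_sum_le _ _)
    _ ≤ ∑ i ∈ Finset.range (N + 1), ∑ j ∈ Finset.range (N + 1),
          (hatR N i s * hatR N j t) * η := by
        refine Finset.sum_le_sum fun i hi => Finset.sum_le_sum fun j hj => ?_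
        have hnn : 0 ≤ hatR N i s * hatR N j t :=
          mul_nonneg (hatR_nonneg _ _ _) (hatR_nonneg _ _ _)
        rw [norm_smul, Real.norm_of_nonneg hnn]
        by_cases hz : hatR N i s * hatR N j t = 0
        · rw [hz]; simp
        · refine mul_le_mul_of_nonneg_left ?_ hnn
          have h1 := hclose s i hi (left_ne_zero_of_mul hz)
          have h2 := hclose t j hj (right_ne_zero_of_mul hz)
          have h3 := hW (a := (s, t)) (b := (Set.projIcc (0 : ℝ) 1 zero_le_one ((i : ℝ) / N),
            Set.projIcc (0 : ℝ) 1 zero_le_one ((j : ℝ) / N)))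
            (by rw [Prod.dist_eq]; exact max_lt h1 h2)
          rw [dist_eq_norm] at h3
          exact h3.le
    _ = η := by
        simp_rw [← Finset.sum_mul]
        rw [← Finset.sum_mul_sum, hs, ht]; ring

end Crest.Agent.JS
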