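import Crest.Agent.JS.F.Legs
import Crest.Agent.JS.F.Hat
import Crest.Agent.JS.Iface

/-!
# Row 117, Part F, chunks SLICE, APPROX: functions on the square with the right boundary
behaviour are approximated by `kronSum`s
-/

set_option autoImplicit false

namespace Crest.Agent.JS

open Crest.AnalysisR.CStar
open scoped Kronecker Matrix.Norms.L2Operator

/-- projection of `M_P ⊗ M_Q` onto `M_P ⊗ 1` -/
noncomputable def avQ (P Q : ℕ) (Y : MPQ P Q) : MPQ P Q :=
  lftM P Q Y ⊗ₖ (1 : Matrix (Fin Q) (Fin Q) ℂ)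

/-- projection of `M_P ⊗ M_Q` onto `1 ⊗ M_Q` -/
noncomputable def avP (P Q : ℕ) (Y : MPQ P Q) : MPQ P Q :=
  (1 : Matrix (Fin P) (Fin P) ℂ) ⊗ₖ rgtM P Q Y

/-- the projection belonging to the `i`-th node of the subdivision of `[0,1]` into `N` parts -/
noncomputable def avI (P Q N i : ℕ) : MPQ P Q → MPQ P Q :=
  if i = 0 then avQ P Q else if i = N then avP P Q else id

/-- matrix units -/
noncomputable def eU {P Q : ℕ} (u : (Fin P × Fin Q) × (Fin P × Fin Q)) : MPQ P Q :=
  Matrix.single u.1 u.2 1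

/-- `(E ⊗ E') X` in coordinates -/
noncomputable def tE {P Q : ℕ} (E E' : MPQ P Q → MPQ P Q) (X : MM P Q) : MM P Q :=
  ∑ u : (Fin P × Fin Q) × (Fin P × Fin Q), ∑ v : (Fin P × Fin Q) × (Fin P × Fin Q),
    X (u.1, v.1) (u.2, v.2) • (E (eU u) ⊗ₖ E' (eU v))

private theorem slice_tE_apply {P Q : ℕ} (E E' : MPQ P Q → MPQ P Q) (X : MM P Q) (x z y w) :
    tE E E' X (x, z) (y, w) = ∑ u : (Fin P × Fin Q) × (Fin P × Fin Q),
      ∑ v : (Fin P × Fin Q) × (Fin P × Fin Q),
        X (u.1, v.1) (u.2, v.2) * (E (eU u) x y * E' (eU v) z w) := by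
  simp only [tE, Matrix.sum_apply, Matrix.smul_apply, Matrix.kroneckerMap_apply, smul_eq_mul]

private theorem slice_delta {P Q : ℕ} (F : (Fin P × Fin Q) × (Fin P × Fin Q) → ℂ)
    (z w : Fin P × Fin Q) :
    ∑ v : (Fin P × Fin Q) × (Fin P × Fin Q), F v * (eU v : MPQ P Q) z w = F (z, w) := by
  rw [Finset.sum_eq_single (z, w)]
  · simp [eU]
  · intro v _ hv
    have : (eU v : MPQ P Q) z w = 0 := by
      rw [eU, Matrix.single_apply, if_neg]
      rintro ⟨h1, h2⟩
      exact hv (Prod.ext h1 h2)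
    rw [this, mul_zero]
  · intro h
    exact absurd (Finset.mem_univ _) h

private theorem slice_right {P Q : ℕ} (E : MPQ P Q → MPQ P Q) (X : MM P Q) (x z y w) :
    tE E id X (x, z) (y, w) = ∑ u : (Fin P × Fin Q) × (Fin P × Fin Q),
      X (u.1, z) (u.2, w) * E (eU u) x y := by
  rw [slice_tE_apply]
  refine Finset.sum_congr rfl fun u _ => ?_
  have := slice_delta (fun v => X (u.1, v.1) (u.2, v.2) * E (eU u) x y) z w
  simpa only [id, mul_assoc] using this

private theorem slice_left {P Q : ℕ} (E' : MPQ P Q → MPQ P Q) (X : MM P Q) (x z y w) :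
    tE id E' X (x, z) (y, w) = ∑ v : (Fin P × Fin Q) × (Fin P × Fin Q),
      X (x, v.1) (y, v.2) * E' (eU v) z w := by
  rw [slice_tE_apply, Finset.sum_comm]
  refine Finset.sum_congr rfl fun v _ => ?_
  have := slice_delta (fun u => X (u.1, v.1) (u.2, v.2) * E' (eU v) z w) x y
  rw [← this]
  refine Finset.sum_congr rfl fun u _ => ?_
  simp only [id]
  ring

private theorem slice_avQ_apply {P Q : ℕ} (Y : MPQ P Q) (x y : Fin P × Fin Q) :
    avQ P Q Y x y = if x.2 = y.2 then (Q : ℂ)⁻¹ * ∑ c, Y (x.1, c) (y.1, c) else 0 := by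
  simp only [avQ, lftM, Matrix.kroneckerMap_apply, Matrix.of_apply, Matrix.one_apply, mul_ite,
    mul_one, mul_zero]

private theorem slice_avP_apply {P Q : ℕ} (Y : MPQ P Q) (x y : Fin P × Fin Q) :
    avP P Q Y x y = if x.1 = y.1 then (P : ℂ)⁻¹ * ∑ c, Y (c, x.2) (c, y.2) else 0 := by
  simp only [avP, rgtM, Matrix.kroneckerMap_apply, Matrix.of_apply, Matrix.one_apply, ite_mul,
    one_mul, zero_mul]

private theorem slice_avQ {P Q : ℕ} (F : (Fin P × Fin Q) × (Fin P × Fin Q) → ℂ)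
    (x y : Fin P × Fin Q) :
    ∑ u : (Fin P × Fin Q) × (Fin P × Fin Q), F u * avQ P Q (eU u) x y =
      if x.2 = y.2 then (Q : ℂ)⁻¹ * ∑ c, F ((x.1, c), (y.1, c)) else 0 := by
  simp only [slice_avQ_apply]
  split_ifs with h
  · simp only [Finset.mul_sum]
    rw [Finset.sum_comm]
    refine Finset.sum_congr rfl fun c _ => ?_
    rw [← slice_delta F (x.1, c) (y.1, c), Finset.mul_sum]
    refine Finset.sum_congr rfl fun u _ => ?_
    rw [mul_left_comm]
  · simp only [mul_zero, Finset.sum_const_zero]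

private theorem slice_avP {P Q : ℕ} (F : (Fin P × Fin Q) × (Fin P × Fin Q) → ℂ)
    (x y : Fin P × Fin Q) :
    ∑ u : (Fin P × Fin Q) × (Fin P × Fin Q), F u * avP P Q (eU u) x y =
      if x.1 = y.1 then (P : ℂ)⁻¹ * ∑ c, F ((c, x.2), (c, y.2)) else 0 := by
  simp only [slice_avP_apply]
  split_ifs with h
  · simp only [Finset.mul_sum]
    rw [Finset.sum_comm]
    refine Finset.sum_congr rfl fun c _ => ?_
    rw [← slice_delta F (c, x.2) (c, y.2), Finset.mul_sum]
    refine Finset.sum_congr rfl fun u _ => ?_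
    rw [mul_left_comm]
  · simp only [mul_zero, Finset.sum_const_zero]

/-- `tE id id = id` (entrywise). -/
theorem tE_id {P Q : ℕ} (X : MM P Q) : tE id id X = X := by
  ext ⟨x, z⟩ ⟨y, w⟩
  rw [slice_right]
  exact slice_delta (fun u => X (u.1, z) (u.2, w)) x y

private theorem slice_cQ1 {P Q : ℕ} (X : MM P Q) (h : ∀ b, Commute X (j1 (lQ P Q b)))
    (i j : Fin P) (a c d : Fin Q) (z w : Fin P × Fin Q) :
    X ((i, a), z) ((j, c), w) = if a = c then X ((i, d), z) ((j, d), w) else 0 := by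
  have h1 := congrFun (congrFun (h (Matrix.single c d 1)).eq ((i, a), z)) ((j, d), w)
  simp only [Matrix.mul_apply, j1, lQ, Matrix.kroneckerMap_apply, Matrix.one_apply,
    Matrix.single_apply] at h1
  rw [Finset.sum_eq_single ((j, c), w), Finset.sum_eq_single ((i, d), z)] at h1
  · simpa [eq_comm] using h1
  · rintro ⟨⟨k, e⟩, v⟩ _ hne
    by_cases h1 : i = k
    · by_cases h2 : z = v
      · by_cases h3 : d = e
        · exact absurd (by rw [h1, h2, h3]) hne
        · simp [h3]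
      · simp [h2]
    · simp [h1]
  · intro h; exact absurd (Finset.mem_univ _) h
  · rintro ⟨⟨k, e⟩, v⟩ _ hne
    by_cases h1 : k = j
    · by_cases h2 : v = w
      · by_cases h3 : c = e
        · exact absurd (by rw [h1, h2, h3]) hne
        · simp [h3]
      · simp [h2]
    · simp [h1]
  · intro h; exact absurd (Finset.mem_univ _) h

private theorem slice_cP1 {P Q : ℕ} (X : MM P Q) (h : ∀ a, Commute X (j1 (lP P Q a)))
    (i j d : Fin P) (a c : Fin Q) (z w : Fin P × Fin Q) :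
    X ((i, a), z) ((j, c), w) = if i = j then X ((d, a), z) ((d, c), w) else 0 := by
  have h1 := congrFun (congrFun (h (Matrix.single j d 1)).eq ((i, a), z)) ((d, c), w)
  simp only [Matrix.mul_apply, j1, lP, Matrix.kroneckerMap_apply, Matrix.one_apply,
    Matrix.single_apply] at h1
  rw [Finset.sum_eq_single ((j, c), w), Finset.sum_eq_single ((d, a), z)] at h1
  · simpa [eq_comm] using h1
  · rintro ⟨⟨k, e⟩, v⟩ _ hne
    by_cases h1 : a = e
    · by_cases h2 : z = v
      · by_cases h3 : d = k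
        · exact absurd (by rw [h1, h2, h3]) hne
        · simp [h3]
      · simp [h2]
    · simp [h1]
  · intro h; exact absurd (Finset.mem_univ _) h
  · rintro ⟨⟨k, e⟩, v⟩ _ hne
    by_cases h1 : e = c
    · by_cases h2 : v = w
      · by_cases h3 : j = k
        · exact absurd (by rw [h1, h2, h3]) hne
        · simp [h3]
      · simp [h2]
    · simp [h1]
  · intro h; exact absurd (Finset.mem_univ _) h

private theorem slice_cQ2 {P Q : ℕ} (X : MM P Q) (h : ∀ b, Commute X (j2 (lQ P Q b)))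
    (i j : Fin P) (a c d : Fin Q) (z w : Fin P × Fin Q) :
    X (z, (i, a)) (w, (j, c)) = if a = c then X (z, (i, d)) (w, (j, d)) else 0 := by
  have h1 := congrFun (congrFun (h (Matrix.single c d 1)).eq (z, (i, a))) (w, (j, d))
  simp only [Matrix.mul_apply, j2, lQ, Matrix.kroneckerMap_apply, Matrix.one_apply,
    Matrix.single_apply] at h1
  rw [Finset.sum_eq_single (w, (j, c)), Finset.sum_eq_single (z, (i, d))] at h1
  · simpa [eq_comm] using h1
  · rintro ⟨v, ⟨k, e⟩⟩ _ hne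
    by_cases h1 : i = k
    · by_cases h2 : z = v
      · by_cases h3 : d = e
        · exact absurd (by rw [h1, h2, h3]) hne
        · simp [h3]
      · simp [h2]
    · simp [h1]
  · intro h; exact absurd (Finset.mem_univ _) h
  · rintro ⟨v, ⟨k, e⟩⟩ _ hne
    by_cases h1 : k = j
    · by_cases h2 : v = w
      · by_cases h3 : c = e
        · exact absurd (by rw [h1, h2, h3]) hne
        · simp [h3]
      · simp [h2]
    · simp [h1]
  · intro h; exact absurd (Finset.mem_univ _) h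

private theorem slice_cP2 {P Q : ℕ} (X : MM P Q) (h : ∀ a, Commute X (j2 (lP P Q a)))
    (i j d : Fin P) (a c : Fin Q) (z w : Fin P × Fin Q) :
    X (z, (i, a)) (w, (j, c)) = if i = j then X (z, (d, a)) (w, (d, c)) else 0 := by
  have h1 := congrFun (congrFun (h (Matrix.single j d 1)).eq (z, (i, a))) (w, (d, c))
  simp only [Matrix.mul_apply, j2, lP, Matrix.kroneckerMap_apply, Matrix.one_apply,
    Matrix.single_apply] at h1
  rw [Finset.sum_eq_single (w, (j, c)), Finset.sum_eq_single (z, (d, a))] at h1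
  · simpa [eq_comm] using h1
  · rintro ⟨v, ⟨k, e⟩⟩ _ hne
    by_cases h1 : a = e
    · by_cases h2 : z = v
      · by_cases h3 : d = k
        · exact absurd (by rw [h1, h2, h3]) hne
        · simp [h3]
      · simp [h2]
    · simp [h1]
  · intro h; exact absurd (Finset.mem_univ _) h
  · rintro ⟨v, ⟨k, e⟩⟩ _ hne
    by_cases h1 : e = c
    · by_cases h2 : v = w
      · by_cases h3 : j = k
        · exact absurd (by rw [h1, h2, h3]) hne
        · simp [h3]
      · simp [h2]
    · simp [h1]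
  · intro h; exact absurd (Finset.mem_univ _) h

private theorem slice_avg {n : ℕ} (hn : 0 < n) (c : ℂ) :
    (n : ℂ)⁻¹ * ∑ _i : Fin n, c = c := by
  have hn' : (n : ℂ) ≠ 0 := by exact_mod_cast hn.ne'
  simp [hn']

/-- (SLICE1) If `X` commutes with `j1 (1 ⊗ b)` for all `b` then `(avQ ⊗ id) X = X`.

Proof.  Entrywise: commutation with `j1 (lQ (single c d 1))` gives
`X ((i,a), z) ((j,b), w) = 0` for `a ≠ b` and `X ((i,a), z) ((j,a), w) = X ((i,b), z) ((j,b), w)`.
The entry `((i,a), z) ((j,b), w)` of `tE (avQ P Q) id X` is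
`if a = b then Q⁻¹ * ∑ c, X ((i,c), z) ((j,c), w) else 0`. -/
theorem slice_Q1 {P Q : ℕ} (hQ : 0 < Q) (X : MM P Q)
    (h : ∀ b, Commute X (j1 (lQ P Q b))) : tE (avQ P Q) id X = X := by
  ext ⟨⟨i, a⟩, z⟩ ⟨⟨j, c⟩, w⟩
  rw [slice_right, slice_avQ (fun u => X (u.1, z) (u.2, w))]
  split_ifs with hac
  · dsimp only at hac ⊢
    subst hac
    have : ∀ d, X ((i, d), z) ((j, d), w) = X ((i, a), z) ((j, a), w) := fun d => by
      rw [slice_cQ1 X h i j a a d z w, if_pos rfl]
    simp only [this]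
    exact slice_avg hQ _
  · rw [slice_cQ1 X h i j a c a z w, if_neg hac]

theorem slice_P1 {P Q : ℕ} (hP : 0 < P) (X : MM P Q)
    (h : ∀ a, Commute X (j1 (lP P Q a))) : tE (avP P Q) id X = X := by
  ext ⟨⟨i, a⟩, z⟩ ⟨⟨j, c⟩, w⟩
  rw [slice_right, slice_avP (fun u => X (u.1, z) (u.2, w))]
  split_ifs with hac
  · dsimp only at hac ⊢
    subst hac
    have : ∀ d, X ((d, a), z) ((d, c), w) = X ((i, a), z) ((i, c), w) := fun d => by
      rw [slice_cP1 X h i i d a c z w, if_pos rfl]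
    simp only [this]
    exact slice_avg hP _
  · rw [slice_cP1 X h i j i a c z w, if_neg hac]

theorem slice_Q2 {P Q : ℕ} (hQ : 0 < Q) (X : MM P Q)
    (h : ∀ b, Commute X (j2 (lQ P Q b))) : tE id (avQ P Q) X = X := by
  ext ⟨z, ⟨i, a⟩⟩ ⟨w, ⟨j, c⟩⟩
  rw [slice_left, slice_avQ (fun u => X (z, u.1) (w, u.2))]
  split_ifs with hac
  · dsimp only at hac ⊢
    subst hac
    have : ∀ d, X (z, (i, d)) (w, (j, d)) = X (z, (i, a)) (w, (j, a)) := fun d => by
      rw [slice_cQ2 X h i j a a d z w, if_pos rfl]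
    simp only [this]
    exact slice_avg hQ _
  · rw [slice_cQ2 X h i j a c a z w, if_neg hac]

theorem slice_P2 {P Q : ℕ} (hP : 0 < P) (X : MM P Q)
    (h : ∀ a, Commute X (j2 (lP P Q a))) : tE id (avP P Q) X = X := by
  ext ⟨z, ⟨i, a⟩⟩ ⟨w, ⟨j, c⟩⟩
  rw [slice_left, slice_avP (fun u => X (z, u.1) (w, u.2))]
  split_ifs with hac
  · dsimp only at hac ⊢
    subst hac
    have : ∀ d, X (z, (d, a)) (w, (d, c)) = X (z, (i, a)) (w, (i, c)) := fun d => by
      rw [slice_cP2 X h i i d a c z w, if_pos rfl]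
    simp only [this]
    exact slice_avg hP _
  · rw [slice_cP2 X h i j i a c z w, if_neg hac]

/-- (SLICE2) Composition: `(E ⊗ E') = (E ⊗ id) (id ⊗ E')` for `E, E' ∈ {avQ, avP, id}`.
Proof.  `tE id E' X` has the entry `((x, z), (y, w))` equal to
`∑ v, X (x, v.1) (y, v.2) * (E' (eU v)) z w`; hence
`tE E id (tE id E' X) = ∑ u v w, X .. (E' (eU v)) w.1 w.2 • (E (eU u) ⊗ₖ eU w)` and
`∑ w, (E' (eU v)) w.1 w.2 • eU w = E' (eU v)`.  (No linearity of `E` is needed.) -/
theorem tE_comp {P Q : ℕ} (E E' : MPQ P Q → MPQ P Q) (X : MM P Q) :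
    tE E id (tE id E' X) = tE E E' X := by
  ext ⟨x, z⟩ ⟨y, w⟩
  rw [slice_right, slice_tE_apply]
  refine Finset.sum_congr rfl fun u _ => ?_
  rw [slice_left, Finset.sum_mul]
  refine Finset.sum_congr rfl fun v _ => ?_
  ring

/-- the dimension drop element `s ↦ hatR N i s • avI N i e_u` -/
noncomputable def mkD (P Q N i : ℕ) (hN : 0 < N) (hi : i ≤ N)
    (u : (Fin P × Fin Q) × (Fin P × Fin Q)) : dimDrop P Q :=
  ⟨⟨fun s => ((hatR N i s : ℝ) : ℂ) • avI P Q N i (eU u), by
      have := hatR_continuous N i; fun_prop⟩, by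
    constructor
    · by_cases h : i = 0
      · subst h
        exact ⟨((hatR N 0 0 : ℝ) : ℂ) • lftM P Q (eU u), by
          simp [avI, avQ, Matrix.smul_kronecker]⟩
      · exact ⟨0, by simp [hatR_zero h]⟩
    · by_cases h : i = N
      · subst h
        exact ⟨((hatR i i 1 : ℝ) : ℂ) • rgtM P Q (eU u), by
          simp [avI, avP, Matrix.kronecker_smul, hN.ne']⟩
      · exact ⟨0, by simp [hatR_one hi h]⟩⟩

@[simp] theorem mkD_apply (P Q N i : ℕ) (hN : 0 < N) (hi : i ≤ N)
    (u : (Fin P × Fin Q) × (Fin P × Fin Q)) (s : unitInterval) :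
    (mkD P Q N i hN hi u).1 s = ((hatR N i s : ℝ) : ℂ) • avI P Q N i (eU u) := rfl

/-- the node `i/N` -/
private noncomputable def nodeA (N i : ℕ) : unitInterval :=
  Set.projIcc (0 : ℝ) 1 zero_le_one ((i : ℝ) / N)

private theorem nodeA_zero (N : ℕ) : nodeA N 0 = 0 := by
  unfold nodeA
  rw [Nat.cast_zero, zero_div, Set.projIcc_left]
  rfl

private theorem nodeA_last {N : ℕ} (hN : 0 < N) : nodeA N N = 1 := by
  unfold nodeA
  rw [div_self (by exact_mod_cast hN.ne'), Set.projIcc_right]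
  rfl

private theorem tE_nodes {P Q : ℕ} (hP : 0 < P) (hQ : 0 < Q)
    (W : C(unitInterval × unitInterval, MM P Q))
    (h0 : ∀ t b, Commute (W (0, t)) (j1 (lQ P Q b)))
    (h1 : ∀ t a, Commute (W (1, t)) (j1 (lP P Q a)))
    (h2 : ∀ s b, Commute (W (s, 0)) (j2 (lQ P Q b)))
    (h3 : ∀ s a, Commute (W (s, 1)) (j2 (lP P Q a))) {N : ℕ} (hN : 0 < N) (i j : ℕ) :
    tE (avI P Q N i) (avI P Q N j) (W (nodeA N i, nodeA N j)) = W (nodeA N i, nodeA N j) := by
  rw [← tE_comp]
  have e2 : tE id (avI P Q N j) (W (nodeA N i, nodeA N j)) = W (nodeA N i, nodeA N j) := by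
    unfold avI
    split_ifs with hj hj'
    · subst hj
      rw [nodeA_zero N]
      exact slice_Q2 hQ _ (h2 _)
    · subst hj'
      rw [nodeA_last hN]
      exact slice_P2 hP _ (h3 _)
    · exact tE_id _
  rw [e2]
  unfold avI
  split_ifs with hi hi'
  · subst hi
    rw [nodeA_zero N]
    exact slice_Q1 hQ _ (h0 _)
  · subst hi'
    rw [nodeA_last hN]
    exact slice_P1 hP _ (h1 _)
  · exact tE_id _

/-- (APPROX) Approximation by `kronSum`.

Proof.  Take `N` from `hat_interp`.  With `X = W (i/N, j/N)`, `E = avI N i`, `E' = avI N j`: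
`tE E id X = X` (cases `i = 0`, `i = N`, otherwise `tE_id`; if `i = 0` the node is `0`, if `i = N`
it is `1`) and `tE id E' X = X`, so `X = tE E E' X = ∑ u v, X u v • (E (eU u) ⊗ₖ E' (eU v))` by
`tE_comp`.  So the interpolating sum is
`∑ i j u v, kron ((X u v) • mkD i u) (mkD j v)`; the index type
`Fin (N+1) × Fin (N+1) × _ × _` is transported to `Fin r` by `Fintype.equivFin`. -/
theorem approx_kronSum {P Q : ℕ} (hP : 0 < P) (hQ : 0 < Q)
    (W : C(unitInterval × unitInterval, MM P Q))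
    (h0 : ∀ t b, Commute (W (0, t)) (j1 (lQ P Q b)))
    (h1 : ∀ t a, Commute (W (1, t)) (j1 (lP P Q a)))
    (h2 : ∀ s b, Commute (W (s, 0)) (j2 (lQ P Q b)))
    (h3 : ∀ s a, Commute (W (s, 1)) (j2 (lP P Q a))) (η : ℝ) (hη : 0 < η) :
    ∃ (r : ℕ) (x y : Fin r → dimDrop P Q), ∀ s t, ‖W (s, t) - kronSum x y s t‖ ≤ η := by
  obtain ⟨N, hN, hW⟩ := hat_interp W η hη
  let ι := Fin (N + 1) × Fin (N + 1) × ((Fin P × Fin Q) × (Fin P × Fin Q)) ×
    ((Fin P × Fin Q) × (Fin P × Fin Q))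
  let x' : ι → dimDrop P Q := fun a =>
    (W (nodeA N a.1, nodeA N a.2.1)) (a.2.2.1.1, a.2.2.2.1) (a.2.2.1.2, a.2.2.2.2) •
      mkD P Q N a.1 hN (Nat.lt_succ_iff.1 a.1.2) a.2.2.1
  let y' : ι → dimDrop P Q := fun a => mkD P Q N a.2.1 hN (Nat.lt_succ_iff.1 a.2.1.2) a.2.2.2
  refine ⟨Fintype.card ι, x' ∘ (Fintype.equivFin ι).symm, y' ∘ (Fintype.equivFin ι).symm,
    fun s t => ?_⟩
  have hsum : kronSum (x' ∘ (Fintype.equivFin ι).symm) (y' ∘ (Fintype.equivFin ι).symm) s t =
      ∑ i ∈ Finset.range (N + 1), ∑ j ∈ Finset.range (N + 1),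
        (hatR N i s * hatR N j t) • W (nodeA N i, nodeA N j) := by
    unfold kronSum
    refine (Equiv.sum_comp (Fintype.equivFin ι).symm (fun a => (x' a).1 s ⊗ₖ (y' a).1 t)).trans ?_
    rw [Fintype.sum_prod_type, Finset.sum_range]
    refine Finset.sum_congr rfl fun i _ => ?_
    rw [Fintype.sum_prod_type, Finset.sum_range]
    refine Finset.sum_congr rfl fun j _ => ?_
    conv_rhs => rw [← tE_nodes hP hQ W h0 h1 h2 h3 hN i j]
    unfold tE
    rw [Fintype.sum_prod_type, Finset.smul_sum]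
    refine Finset.sum_congr rfl fun u _ => ?_
    rw [Finset.smul_sum]
    refine Finset.sum_congr rfl fun v _ => ?_
    have e1 : (x' (i, j, u, v)).1 s = (W (nodeA N i, nodeA N j)) (u.1, v.1) (u.2, v.2) •
        (((hatR N i s : ℝ) : ℂ) • avI P Q N i (eU u)) := rfl
    have e2 : (y' (i, j, u, v)).1 t = ((hatR N j t : ℝ) : ℂ) • avI P Q N j (eU v) := rfl
    rw [e1, e2, Matrix.smul_kronecker, Matrix.smul_kronecker, Matrix.kronecker_smul, smul_smul,
      smul_smul, ← Complex.coe_smul, smul_smul]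
    congr 1
    push_cast
    ring
  rw [hsum]
  exact hW s t

end Crest.Agent.JS
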