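import Crest.Agent.JS.Defs

/-!
# Row 117, Part F (half flip of the Jiang-Su algebra): basic facts on dimension drop algebras
-/

set_option autoImplicit false

namespace Crest.Agent.JS

open Crest.AnalysisR.CStar
open scoped Kronecker Matrix.Norms.L2Operator

universe u v

/-- the projection of `M_p ⊗ M_q` onto `M_p` (normalised partial trace over the second leg) -/
noncomputable def lftM (p q : ℕ) (A : Matrix (Fin p × Fin q) (Fin p × Fin q) ℂ) :
    Matrix (Fin p) (Fin p) ℂ :=
  Matrix.of fun i j => (q : ℂ)⁻¹ * ∑ k, A (i, k) (j, k)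

/-- the projection of `M_p ⊗ M_q` onto `M_q` (normalised partial trace over the first leg) -/
noncomputable def rgtM (p q : ℕ) (A : Matrix (Fin p × Fin q) (Fin p × Fin q) ℂ) :
    Matrix (Fin q) (Fin q) ℂ :=
  Matrix.of fun i j => (p : ℂ)⁻¹ * ∑ k, A (k, i) (k, j)

theorem lftM_kron (p q : ℕ) (hq : 0 < q) (a : Matrix (Fin p) (Fin p) ℂ) :
    lftM p q (a ⊗ₖ (1 : Matrix (Fin q) (Fin q) ℂ)) = a := by
  have hq' : (q : ℂ) ≠ 0 := by exact_mod_cast hq.ne'
  ext i j
  simp [lftM, hq']

theorem rgtM_kron (p q : ℕ) (hp : 0 < p) (b : Matrix (Fin q) (Fin q) ℂ) :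
    rgtM p q ((1 : Matrix (Fin p) (Fin p) ℂ) ⊗ₖ b) = b := by
  have hp' : (p : ℂ) ≠ 0 := by exact_mod_cast hp.ne'
  ext i j
  simp [rgtM, hp']

theorem lftM_continuous (p q : ℕ) : Continuous (lftM p q) := by
  unfold lftM
  refine continuous_matrix fun i j => ?_
  simp only [Matrix.of_apply]
  exact continuous_const.mul (continuous_finsetSum _ fun k _ =>
    (continuous_id.matrix_elem _ _))

theorem rgtM_continuous (p q : ℕ) : Continuous (rgtM p q) := by
  unfold rgtM
  refine continuous_matrix fun i j => ?_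
  simp only [Matrix.of_apply]
  exact continuous_const.mul (continuous_finsetSum _ fun k _ =>
    (continuous_id.matrix_elem _ _))

theorem dimDrop_zero {p q : ℕ} (hq : 0 < q) (f : dimDrop p q) :
    f.1 0 = lftM p q (f.1 0) ⊗ₖ (1 : Matrix (Fin q) (Fin q) ℂ) := by
  obtain ⟨a, ha⟩ := f.2.1
  rw [ha, lftM_kron p q hq]

theorem dimDrop_one {p q : ℕ} (hp : 0 < p) (f : dimDrop p q) :
    f.1 1 = (1 : Matrix (Fin p) (Fin p) ℂ) ⊗ₖ rgtM p q (f.1 1) := by
  obtain ⟨b, hb⟩ := f.2.2
  rw [hb, rgtM_kron p q hp]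

theorem kron_one_isClosed (p q : ℕ) :
    IsClosed {A : Matrix (Fin p × Fin q) (Fin p × Fin q) ℂ |
      ∃ a : Matrix (Fin p) (Fin p) ℂ, A = a ⊗ₖ (1 : Matrix (Fin q) (Fin q) ℂ)} := by
  rcases Nat.eq_zero_or_pos q with h | h
  · subst h
    have : {A : Matrix (Fin p × Fin 0) (Fin p × Fin 0) ℂ |
      ∃ a : Matrix (Fin p) (Fin p) ℂ, A = a ⊗ₖ (1 : Matrix (Fin 0) (Fin 0) ℂ)} = Set.univ := by
      ext A
      simp only [Set.mem_ofPred_eq, Set.mem_univ, iff_true]
      exact ⟨0, by ext ⟨i, j⟩; exact j.elim0⟩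
    rw [this]
    exact isClosed_univ
  · have : {A : Matrix (Fin p × Fin q) (Fin p × Fin q) ℂ |
      ∃ a : Matrix (Fin p) (Fin p) ℂ, A = a ⊗ₖ (1 : Matrix (Fin q) (Fin q) ℂ)} =
      {A | A = lftM p q A ⊗ₖ (1 : Matrix (Fin q) (Fin q) ℂ)} := by
      ext A
      constructor
      · rintro ⟨a, rfl⟩
        simp only [Set.mem_ofPred_eq]
        rw [lftM_kron p q h]
      · intro hA
        exact ⟨_, hA⟩
    rw [this]
    refine isClosed_eq continuous_id ?_
    refine continuous_matrix fun i j => ?_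
    change Continuous fun A : Matrix (Fin p × Fin q) (Fin p × Fin q) ℂ =>
      lftM p q A i.1 j.1 * (1 : Matrix (Fin q) (Fin q) ℂ) i.2 j.2
    exact ((lftM_continuous p q).matrix_elem _ _).mul continuous_const

theorem one_kron_isClosed (p q : ℕ) :
    IsClosed {A : Matrix (Fin p × Fin q) (Fin p × Fin q) ℂ |
      ∃ b : Matrix (Fin q) (Fin q) ℂ, A = (1 : Matrix (Fin p) (Fin p) ℂ) ⊗ₖ b} := by
  rcases Nat.eq_zero_or_pos p with h | h
  · subst h
    have : {A : Matrix (Fin 0 × Fin q) (Fin 0 × Fin q) ℂ |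
      ∃ b : Matrix (Fin q) (Fin q) ℂ, A = (1 : Matrix (Fin 0) (Fin 0) ℂ) ⊗ₖ b} = Set.univ := by
      ext A
      simp only [Set.mem_ofPred_eq, Set.mem_univ, iff_true]
      exact ⟨0, by ext ⟨i, j⟩; exact i.elim0⟩
    rw [this]
    exact isClosed_univ
  · have : {A : Matrix (Fin p × Fin q) (Fin p × Fin q) ℂ |
      ∃ b : Matrix (Fin q) (Fin q) ℂ, A = (1 : Matrix (Fin p) (Fin p) ℂ) ⊗ₖ b} =
      {A | A = (1 : Matrix (Fin p) (Fin p) ℂ) ⊗ₖ rgtM p q A} := by
      ext A
      constructor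
      · rintro ⟨a, rfl⟩
        simp only [Set.mem_ofPred_eq]
        rw [rgtM_kron p q h]
      · intro hA
        exact ⟨_, hA⟩
    rw [this]
    refine isClosed_eq continuous_id ?_
    refine continuous_matrix fun i j => ?_
    change Continuous fun A : Matrix (Fin p × Fin q) (Fin p × Fin q) ℂ =>
      (1 : Matrix (Fin p) (Fin p) ℂ) i.1 j.1 * rgtM p q A i.2 j.2
    exact continuous_const.mul ((rgtM_continuous p q).matrix_elem _ _)

theorem dimDrop_isClosed (p q : ℕ) :
    IsClosed ((dimDrop p q : StarSubalgebra ℂ (IntervalMatrixMap p q)) :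
      Set (IntervalMatrixMap p q)) := by
  have h0 : Continuous fun f : IntervalMatrixMap p q => f 0 := continuous_eval_const 0
  have h1 : Continuous fun f : IntervalMatrixMap p q => f 1 := continuous_eval_const 1
  have := ((kron_one_isClosed p q).preimage h0).inter ((one_kron_isClosed p q).preimage h1)
  exact this

instance instClosedDimDrop (p q : ℕ) :
    IsClosed ((dimDrop p q : StarSubalgebra ℂ (IntervalMatrixMap p q)) :
      Set (IntervalMatrixMap p q)) := dimDrop_isClosed p q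

noncomputable example (p q : ℕ) : CStarAlgebra (dimDrop p q) := inferInstance

/-- evaluation at `s` -/
noncomputable def evD (p q : ℕ) (s : unitInterval) :
    dimDrop p q →⋆ₐ[ℂ] Matrix (Fin p × Fin q) (Fin p × Fin q) ℂ where
  toFun f := f.1 s
  map_one' := rfl
  map_mul' _ _ := rfl
  map_zero' := rfl
  map_add' _ _ := rfl
  commutes' _ := rfl
  map_star' _ := rfl

@[simp] theorem evD_apply (p q : ℕ) (s : unitInterval) (f : dimDrop p q) :
    evD p q s f = f.1 s := rfl

/-- scalar valued functions as central elements of the dimension drop algebra -/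
noncomputable def scalD (p q : ℕ) : C(unitInterval, ℂ) →⋆ₐ[ℂ] dimDrop p q where
  toFun g := ⟨⟨fun s => g s • (1 : Matrix (Fin p × Fin q) (Fin p × Fin q) ℂ), by fun_prop⟩,
    ⟨⟨g 0 • 1, by simp [Matrix.smul_kronecker]⟩, ⟨g 1 • 1, by simp [Matrix.kronecker_smul]⟩⟩⟩
  map_one' := by
    apply Subtype.ext; apply ContinuousMap.ext; intro s
    simp
  map_mul' g h := by
    apply Subtype.ext; apply ContinuousMap.ext; intro s
    simp [smul_smul, mul_comm]
  map_zero' := by
    apply Subtype.ext; apply ContinuousMap.ext; intro s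
    simp
  map_add' g h := by
    apply Subtype.ext; apply ContinuousMap.ext; intro s
    simp [add_smul]
  commutes' c := by
    apply Subtype.ext; apply ContinuousMap.ext; intro s
    simp [Algebra.algebraMap_eq_smul_one]
  map_star' g := by
    apply Subtype.ext; apply ContinuousMap.ext; intro s
    simp

@[simp] theorem scalD_apply (p q : ℕ) (g : C(unitInterval, ℂ)) (s : unitInterval) :
    (scalD p q g).1 s = g s • (1 : Matrix (Fin p × Fin q) (Fin p × Fin q) ℂ) := rfl

theorem scalD_commute {p q : ℕ} (g : C(unitInterval, ℂ)) (f : dimDrop p q) :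
    Commute (scalD p q g) f := by
  apply Subtype.ext; apply ContinuousMap.ext; intro s
  change (g s • (1 : Matrix (Fin p × Fin q) (Fin p × Fin q) ℂ)) * f.1 s =
    f.1 s * (g s • (1 : Matrix (Fin p × Fin q) (Fin p × Fin q) ℂ))
  simp

/-- the representation at the left end point, of dimension `p` -/
noncomputable def repZ (p q : ℕ) (hq : 0 < q) : dimDrop p q →⋆ₐ[ℂ] Matrix (Fin p) (Fin p) ℂ where
  toFun f := lftM p q (f.1 0)
  map_one' := by
    have : (1 : IntervalMatrixMap p q) 0 = (1 : Matrix (Fin p) (Fin p) ℂ) ⊗ₖ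
      (1 : Matrix (Fin q) (Fin q) ℂ) := by simp
    change lftM p q ((1 : IntervalMatrixMap p q) 0) = 1
    rw [this, lftM_kron p q hq]
  map_mul' f g := by
    obtain ⟨a, ha⟩ := f.2.1
    obtain ⟨b, hb⟩ := g.2.1
    change lftM p q (f.1 0 * g.1 0) = lftM p q (f.1 0) * lftM p q (g.1 0)
    rw [ha, hb, ← Matrix.mul_kronecker_mul, Matrix.one_mul, lftM_kron p q hq, lftM_kron p q hq,
      lftM_kron p q hq]
  map_zero' := by
    change lftM p q 0 = 0
    ext i j
    simp [lftM]
  map_add' f g := by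
    change lftM p q (f.1 0 + g.1 0) = lftM p q (f.1 0) + lftM p q (g.1 0)
    ext i j
    simp [lftM, Finset.sum_add_distrib, mul_add]
  commutes' c := by
    have : (algebraMap ℂ (IntervalMatrixMap p q) c) 0 = (c • (1 : Matrix (Fin p) (Fin p) ℂ)) ⊗ₖ
      (1 : Matrix (Fin q) (Fin q) ℂ) := by
      simp [Matrix.smul_kronecker, Algebra.algebraMap_eq_smul_one]
    change lftM p q ((algebraMap ℂ (IntervalMatrixMap p q) c) 0) = _
    rw [this, lftM_kron p q hq, Algebra.algebraMap_eq_smul_one]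
  map_star' f := by
    obtain ⟨a, ha⟩ := f.2.1
    change lftM p q (star (f.1 0)) = star (lftM p q (f.1 0))
    rw [ha, lftM_kron p q hq, Matrix.star_eq_conjTranspose, Matrix.conjTranspose_kronecker,
      Matrix.conjTranspose_one, lftM_kron p q hq, Matrix.star_eq_conjTranspose]

/-- the representation at the right end point, of dimension `q` -/
noncomputable def repO (p q : ℕ) (hp : 0 < p) : dimDrop p q →⋆ₐ[ℂ] Matrix (Fin q) (Fin q) ℂ where
  toFun f := rgtM p q (f.1 1)
  map_one' := by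
    have : (1 : IntervalMatrixMap p q) 1 = (1 : Matrix (Fin p) (Fin p) ℂ) ⊗ₖ
      (1 : Matrix (Fin q) (Fin q) ℂ) := by simp
    change rgtM p q ((1 : IntervalMatrixMap p q) 1) = 1
    rw [this, rgtM_kron p q hp]
  map_mul' f g := by
    obtain ⟨a, ha⟩ := f.2.2
    obtain ⟨b, hb⟩ := g.2.2
    change rgtM p q (f.1 1 * g.1 1) = rgtM p q (f.1 1) * rgtM p q (g.1 1)
    rw [ha, hb, ← Matrix.mul_kronecker_mul, Matrix.one_mul, rgtM_kron p q hp, rgtM_kron p q hp,
      rgtM_kron p q hp]
  map_zero' := by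
    change rgtM p q 0 = 0
    ext i j
    simp [rgtM]
  map_add' f g := by
    change rgtM p q (f.1 1 + g.1 1) = rgtM p q (f.1 1) + rgtM p q (g.1 1)
    ext i j
    simp [rgtM, Finset.sum_add_distrib, mul_add]
  commutes' c := by
    have : (algebraMap ℂ (IntervalMatrixMap p q) c) 1 = (1 : Matrix (Fin p) (Fin p) ℂ) ⊗ₖ
      (c • (1 : Matrix (Fin q) (Fin q) ℂ)) := by
      simp [Matrix.kronecker_smul, Algebra.algebraMap_eq_smul_one]
    change rgtM p q ((algebraMap ℂ (IntervalMatrixMap p q) c) 1) = _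
    rw [this, rgtM_kron p q hp, Algebra.algebraMap_eq_smul_one]
  map_star' f := by
    obtain ⟨a, ha⟩ := f.2.2
    change rgtM p q (star (f.1 1)) = star (rgtM p q (f.1 1))
    rw [ha, rgtM_kron p q hp, Matrix.star_eq_conjTranspose, Matrix.conjTranspose_kronecker,
      Matrix.conjTranspose_one, rgtM_kron p q hp, Matrix.star_eq_conjTranspose]

theorem repZ_kron (p q : ℕ) (hq : 0 < q) (f : dimDrop p q) :
    repZ p q hq f ⊗ₖ (1 : Matrix (Fin q) (Fin q) ℂ) = f.1 0 := (dimDrop_zero hq f).symm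

theorem kron_repO (p q : ℕ) (hp : 0 < p) (f : dimDrop p q) :
    (1 : Matrix (Fin p) (Fin p) ℂ) ⊗ₖ repO p q hp f = f.1 1 := (dimDrop_one hp f).symm

/-- *-homomorphisms from a dimension drop algebra into a C*-algebra are contractive -/
theorem dimDrop_hom_norm_le {p q : ℕ} {E : Type u} [CStarAlgebra E] (φ : dimDrop p q →⋆ₐ[ℂ] E)
    (f : dimDrop p q) : ‖φ f‖ ≤ ‖f‖ := NonUnitalStarAlgHom.norm_apply_le φ f

theorem dimDrop_norm_le_iff {p q : ℕ} (f : dimDrop p q) {C : ℝ} (hC : 0 ≤ C) :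
    ‖f‖ ≤ C ↔ ∀ s, ‖f.1 s‖ ≤ C := ContinuousMap.norm_le f.1 hC

/-- a star subalgebra of a C*-algebra which is star isomorphic to a dimension drop algebra
carries the norm of the latter -/
theorem norm_equiv_eq {Z : Type v} [CStarAlgebra Z] {p q : ℕ} (B : StarSubalgebra ℂ Z)
    (e : B ≃⋆ₐ[ℂ] dimDrop p q) (x : B) : ‖e x‖ = ‖(x : Z)‖ := by
  have hinj : Function.Injective
      ((B.subtype).comp (e.symm : dimDrop p q →⋆ₐ[ℂ] B)) := by
    intro a b hab
    exact e.symm.injective (Subtype.ext hab)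
  have := NonUnitalStarAlgHom.norm_map ((B.subtype).comp (e.symm : dimDrop p q →⋆ₐ[ℂ] B)) hinj (e x)
  simpa using this.symm

theorem norm_equiv_apply_le {Z : Type v} [CStarAlgebra Z] {p q : ℕ} (B : StarSubalgebra ℂ Z)
    (e : B ≃⋆ₐ[ℂ] dimDrop p q) (x : B) (s : unitInterval) : ‖(e x).1 s‖ ≤ ‖(x : Z)‖ := by
  rw [← norm_equiv_eq B e x]
  exact (dimDrop_norm_le_iff (e x) (norm_nonneg _)).1 le_rfl s

end Crest.Agent.JS
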