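import Crest.Agent.JS.F.Basic

/-!
# Row 117, Part F: types of irreducible representations of `I[p,q]`
-/

set_option autoImplicit false

namespace Crest.Agent.JS

open Crest.AnalysisR.CStar
open scoped Kronecker Matrix.Norms.L2Operator

/-- types of irreducible representations of `I[p,q]`: left end point, right end point, and
evaluations (the latter are allowed to be at the end points) -/
inductive Code
  | z : Code
  | o : Code
  | m (x : unitInterval) : Code

/-- index type of the irreducible representation -/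
def Code.Ix (p q : ℕ) : Code → Type
  | .z => Fin p
  | .o => Fin q
  | .m _ => Fin p × Fin q

instance Code.instFintypeIx (p q : ℕ) : (c : Code) → Fintype (c.Ix p q)
  | .z => inferInstanceAs (Fintype (Fin p))
  | .o => inferInstanceAs (Fintype (Fin q))
  | .m _ => inferInstanceAs (Fintype (Fin p × Fin q))

instance Code.instDecidableEqIx (p q : ℕ) : (c : Code) → DecidableEq (c.Ix p q)
  | .z => inferInstanceAs (DecidableEq (Fin p))
  | .o => inferInstanceAs (DecidableEq (Fin q))
  | .m _ => inferInstanceAs (DecidableEq (Fin p × Fin q))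

/-- the irreducible representations -/
noncomputable def Code.rep {p q : ℕ} (hp : 0 < p) (hq : 0 < q) :
    (c : Code) → (dimDrop p q →⋆ₐ[ℂ] Matrix (c.Ix p q) (c.Ix p q) ℂ)
  | .z => repZ p q hq
  | .o => repO p q hp
  | .m x => evD p q x

theorem Code.ix_nonempty {p q : ℕ} (hp : 0 < p) (hq : 0 < q) (c : Code) :
    Nonempty (c.Ix p q) := by
  cases c
  · exact ⟨(⟨0, hp⟩ : Fin p)⟩
  · exact ⟨(⟨0, hq⟩ : Fin q)⟩
  · exact ⟨((⟨0, hp⟩, ⟨0, hq⟩) : Fin p × Fin q)⟩

/-- A decomposition of the representation `φ` into a family of irreducible ones: orthogonal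
isometric intertwiners. -/
structure IsFam {p q : ℕ} (hp : 0 < p) (hq : 0 < q) {ι : Type} [Fintype ι] [DecidableEq ι]
    (φ : dimDrop p q →⋆ₐ[ℂ] Matrix ι ι ℂ) (n : ℕ) (c : Fin n → Code)
    (T : ∀ k, Matrix ι ((c k).Ix p q) ℂ) : Prop where
  orth : ∀ k l, k ≠ l → (T k).conjTranspose * T l = 0
  isom : ∀ k, (T k).conjTranspose * T k = 1
  inter : ∀ k f, φ f * T k = T k * (c k).rep hp hq f

end Crest.Agent.JS
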