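import Crest.Agent.JS.F.Basic

/-!
# Row 117, Part F, chunks EIGVANISH, EIGEX: eigenvectors of the coordinate function
-/

set_option autoImplicit false

namespace Crest.Agent.JS

open Crest.AnalysisR.CStar
open scoped Kronecker Matrix.Norms.L2Operator

/-- the coordinate function on `[0,1]` -/
noncomputable def coordI : C(unitInterval, ℂ) := ⟨fun t => ((t : ℝ) : ℂ), by fun_prop⟩

@[simp] theorem coordI_apply (t : unitInterval) : coordI t = ((t : ℝ) : ℂ) := rfl

/-- (EIGVANISH) Eigenvectors of the central element `h = scalD coordI` are killed by functions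
vanishing at the eigenvalue.

Proof.  For `n : ℕ` let `ψ_n(t) = (t-x)² / ((t-x)² + 1/(n+1))`, `g_n(t) = (t-x)/((t-x)²+1/(n+1))`.
Then `φ (f * scalD ψ_n) ξ = φ f (φ (scalD g_n) ((φ (scalD coordI) - x) ξ)) = 0`, since
`ψ_n = g_n * (coordI - x)`.  And `‖f - f * scalD ψ_n‖ → 0`: given `ε`, pick `δ` with `‖f.1 t‖ ≤ ε`
for `|t-x| < δ`; for `|t-x| ≥ δ` one has `1 - ψ_n(t) ≤ (1/(n+1))/δ²`; use
`dimDrop_norm_le_iff`.  Contractivity `dimDrop_hom_norm_le` gives `φ (f * scalD ψ_n) → φ f`, so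
`φ f ξ = 0` (limit; `Matrix.l2_opNorm_mulVec` or continuity of `A ↦ A.mulVec ξ`). -/
theorem eig_vanish {p q : ℕ} {ι : Type} [Fintype ι] [DecidableEq ι]
    (φ : dimDrop p q →⋆ₐ[ℂ] Matrix ι ι ℂ) (x : unitInterval) (ξ : ι → ℂ)
    (hξ : (φ (scalD p q coordI)).mulVec ξ = ((x : ℝ) : ℂ) • ξ) (f : dimDrop p q)
    (hf : f.1 x = 0) : (φ f).mulVec ξ = 0 := by
  have hφc : Continuous φ := AddMonoidHomClass.continuous_of_bound φ 1 fun h => by
    rw [one_mul]
    exact dimDrop_hom_norm_le φ h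
  have hcl : IsClosed {h : dimDrop p q | (φ h).mulVec ξ = 0} := by
    refine isClosed_eq ?_ continuous_const
    exact Continuous.matrix_mulVec hφc continuous_const
  have hmem : f ∈ closure {h : dimDrop p q | (φ h).mulVec ξ = 0} := by
    rw [Metric.mem_closure_iff]
    intro ε hε
    have hfc : ContinuousAt (fun t => f.1 t) x := f.1.continuous.continuousAt
    obtain ⟨δ, hδ, hδ2⟩ := Metric.continuousAt_iff.1 hfc (ε / 2) (half_pos hε)
    have hC : (0 : ℝ) < ‖f‖ + 1 := by positivity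
    obtain ⟨η, hη0, hη1⟩ : ∃ η : ℝ, 0 < η ∧ η * ‖f‖ ≤ ε / 2 * δ ^ 2 := by
      refine ⟨ε / 2 * δ ^ 2 / (‖f‖ + 1), by positivity, ?_⟩
      rw [div_mul_eq_mul_div, div_le_iff₀ hC]
      have : 0 ≤ ε / 2 * δ ^ 2 := by positivity
      nlinarith [norm_nonneg f]
    have hden : ∀ t : unitInterval, 0 < ((t : ℝ) - x) ^ 2 + η := fun t => by positivity
    let g : C(unitInterval, ℂ) := ⟨fun t => ((((t : ℝ) - x) / (((t : ℝ) - x) ^ 2 + η) : ℝ) : ℂ),
      Complex.continuous_ofReal.comp (Continuous.div (by fun_prop) (by fun_prop)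
        fun t => (hden t).ne')⟩
    let ψ : C(unitInterval, ℂ) := g * (coordI - algebraMap ℂ C(unitInterval, ℂ) ((x : ℝ) : ℂ))
    refine ⟨f * scalD p q ψ, ?_, ?_⟩
    · change (φ (f * scalD p q ψ)).mulVec ξ = 0
      have h1 : φ (scalD p q ψ) = φ (scalD p q g) * (φ (scalD p q coordI) -
          algebraMap ℂ (Matrix ι ι ℂ) ((x : ℝ) : ℂ)) := by
        simp only [ψ, map_mul, map_sub, AlgHomClass.commutes]
      have h2 : (φ (scalD p q coordI) -
          algebraMap ℂ (Matrix ι ι ℂ) ((x : ℝ) : ℂ)).mulVec ξ = 0 := by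
        rw [Matrix.sub_mulVec, hξ, Algebra.algebraMap_eq_smul_one, Matrix.smul_mulVec,
          Matrix.one_mulVec, sub_self]
      rw [map_mul, h1, ← Matrix.mulVec_mulVec, ← Matrix.mulVec_mulVec, h2, Matrix.mulVec_zero,
        Matrix.mulVec_zero]
    · have hd0 : dist f (f * scalD p q ψ) = ‖f - f * scalD p q ψ‖ :=
        dist_eq_norm (f : IntervalMatrixMap p q)
          ((f * scalD p q ψ : dimDrop p q) : IntervalMatrixMap p q)
      rw [hd0]
      refine lt_of_le_of_lt ((dimDrop_norm_le_iff _ (half_pos hε).le).2 fun t => ?_)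
        (half_lt_self hε)
      have h3 : (f - f * scalD p q ψ).1 t =
          (((η / (((t : ℝ) - x) ^ 2 + η) : ℝ)) : ℂ) • f.1 t := by
        change f.1 t - f.1 t * (ψ t • (1 : Matrix (Fin p × Fin q) (Fin p × Fin q) ℂ)) = _
        rw [Matrix.mul_smul, Matrix.mul_one]
        have h4 : ψ t = (((((t : ℝ) - x) ^ 2 / (((t : ℝ) - x) ^ 2 + η)) : ℝ) : ℂ) := by
          change ((((t : ℝ) - x) / (((t : ℝ) - x) ^ 2 + η) : ℝ) : ℂ) *
            (((t : ℝ) : ℂ) - ((x : ℝ) : ℂ)) = _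
          push_cast
          ring
        rw [h4]
        have h5 : (((η / (((t : ℝ) - x) ^ 2 + η) : ℝ)) : ℂ) =
            1 - (((((t : ℝ) - x) ^ 2 / (((t : ℝ) - x) ^ 2 + η)) : ℝ) : ℂ) := by
          rw [← Complex.ofReal_one, ← Complex.ofReal_sub]
          congr 1
          field_simp [(hden t).ne']
          ring
        rw [h5, sub_smul, one_smul]
      rw [h3, norm_smul, Complex.norm_real, Real.norm_of_nonneg (div_nonneg hη0.le (hden t).le)]
      by_cases hd : dist t x < δ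
      · have h6 := hδ2 hd
        rw [hf, dist_zero_right] at h6
        have h7 : η / (((t : ℝ) - x) ^ 2 + η) ≤ 1 := by
          rw [div_le_one (hden t)]
          nlinarith [sq_nonneg ((t : ℝ) - x)]
        calc η / (((t : ℝ) - x) ^ 2 + η) * ‖f.1 t‖ ≤ 1 * ‖f.1 t‖ :=
              mul_le_mul_of_nonneg_right h7 (norm_nonneg _)
          _ ≤ ε / 2 := by rw [one_mul]; exact h6.le
      · have h8 : δ ≤ |(t : ℝ) - x| := by
          have : dist t x = |(t : ℝ) - x| := by
            rw [Subtype.dist_eq, Real.dist_eq]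
          rw [← this]
          exact not_lt.1 hd
        have h9 : δ ^ 2 ≤ ((t : ℝ) - x) ^ 2 := by
          rw [← sq_abs ((t : ℝ) - x)]
          exact pow_le_pow_left₀ hδ.le h8 2
        have h10 : ‖f.1 t‖ ≤ ‖f‖ := (dimDrop_norm_le_iff f (norm_nonneg _)).1 le_rfl t
        rw [div_mul_eq_mul_div, div_le_iff₀ (hden t)]
        calc η * ‖f.1 t‖ ≤ η * ‖f‖ := mul_le_mul_of_nonneg_left h10 hη0.le
          _ ≤ ε / 2 * δ ^ 2 := hη1
          _ ≤ ε / 2 * (((t : ℝ) - x) ^ 2 + η) := by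
            refine mul_le_mul_of_nonneg_left ?_ (half_pos hε).le
            linarith
  exact hcl.closure_subset hmem

/-- (EIGEX) Existence of an eigenvector of `φ (scalD coordI)` inside the range of a commuting
projection.

Proof.  The submodule `V = {ξ | e.mulVec ξ = ξ}` (range of `e`) is nontrivial and invariant under
`H = φ (scalD coordI)`, so `H` restricted to `V` has an eigenvalue `μ : ℂ`
(`Module.End.exists_eigenvalue`, finite dimensional over ℂ), with eigenvector `ξ`.  `μ` is in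
`[0,1]`: otherwise `g(t) = 1/(t - μ)` is a continuous function on `[0,1]` and
`1 = scalD g * (scalD coordI - μ)`, so `ξ = φ (scalD g) ((H - μ) ξ) = 0`. -/
theorem exists_eig {p q : ℕ} {ι : Type} [Fintype ι] [DecidableEq ι]
    (φ : dimDrop p q →⋆ₐ[ℂ] Matrix ι ι ℂ) (e : Matrix ι ι ℂ) (he : e ≠ 0) (he2 : e * e = e)
    (hec : ∀ f, Commute e (φ f)) :
    ∃ (x : unitInterval) (ξ : ι → ℂ), ξ ≠ 0 ∧ e.mulVec ξ = ξ ∧
      (φ (scalD p q coordI)).mulVec ξ = ((x : ℝ) : ℂ) • ξ := by
  set H : Matrix ι ι ℂ := φ (scalD p q coordI) with hH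
  let V : Submodule ℂ (ι → ℂ) :=
    { carrier := {ξ | e.mulVec ξ = ξ}
      add_mem' := fun {a b} ha hb => by
        change e.mulVec (a + b) = a + b
        rw [Matrix.mulVec_add]
        have ha' : e.mulVec a = a := ha
        have hb' : e.mulVec b = b := hb
        rw [ha', hb']
      zero_mem' := Matrix.mulVec_zero e
      smul_mem' := fun c a ha => by
        change e.mulVec (c • a) = c • a
        have ha' : e.mulVec a = a := ha
        rw [Matrix.mulVec_smul, ha'] }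
  have hV : ∀ ξ, ξ ∈ V ↔ e.mulVec ξ = ξ := fun ξ => Iff.rfl
  have hVn : Nontrivial V := by
    obtain ⟨v, hv⟩ : ∃ v : ι → ℂ, e.mulVec v ≠ 0 := by
      by_contra hcon
      push Not at hcon
      apply he
      ext i j
      have h := congrFun (hcon (Pi.single j 1)) i
      rwa [Matrix.mulVec_single_one] at h
    have hmem : e.mulVec v ∈ V := by
      rw [hV, Matrix.mulVec_mulVec, he2]
    exact ⟨⟨⟨e.mulVec v, hmem⟩, 0, fun h => hv (congrArg Subtype.val h)⟩⟩
  have hinv : ∀ ξ ∈ V, (Matrix.toLin' H) ξ ∈ V := by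
    intro ξ hξ
    rw [hV] at hξ ⊢
    rw [Matrix.toLin'_apply, Matrix.mulVec_mulVec, (hec _).eq, ← Matrix.mulVec_mulVec, hξ]
  obtain ⟨μ, hμ⟩ := Module.End.exists_eigenvalue ((Matrix.toLin' H).restrict hinv)
  obtain ⟨w, hw⟩ := hμ.exists_hasEigenvector
  have hw1 := hw.apply_eq_smul
  have hw0 : (w : ι → ℂ) ≠ 0 := fun h => hw.2 (Subtype.ext h)
  have hHw : H.mulVec (w : ι → ℂ) = μ • (w : ι → ℂ) := by
    have := congrArg Subtype.val hw1
    simpa [LinearMap.coe_restrict_apply] using this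
  -- the eigenvalue lies in the unit interval
  have hμI : ∃ x : unitInterval, ((x : ℝ) : ℂ) = μ := by
    by_contra hcon
    push Not at hcon
    have hne : ∀ t : unitInterval, ((t : ℝ) : ℂ) - μ ≠ 0 := fun t => sub_ne_zero.2 (hcon t)
    let g : C(unitInterval, ℂ) := ⟨fun t => (((t : ℝ) : ℂ) - μ)⁻¹,
      Continuous.inv₀ (by fun_prop) hne⟩
    have h1 : g * (coordI - algebraMap ℂ C(unitInterval, ℂ) μ) = 1 := by
      ext t
      change (((t : ℝ) : ℂ) - μ)⁻¹ * (((t : ℝ) : ℂ) - μ) = 1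
      exact inv_mul_cancel₀ (hne t)
    have h2 : φ (scalD p q g) * (H - algebraMap ℂ (Matrix ι ι ℂ) μ) = 1 := by
      have h3 := congrArg (fun k => φ (scalD p q k)) h1
      simpa only [map_mul, map_sub, AlgHomClass.commutes, map_one] using h3
    have h4 : (H - algebraMap ℂ (Matrix ι ι ℂ) μ).mulVec (w : ι → ℂ) = 0 := by
      rw [Matrix.sub_mulVec, hHw, Algebra.algebraMap_eq_smul_one, Matrix.smul_mulVec,
        Matrix.one_mulVec, sub_self]
    apply hw0
    calc (w : ι → ℂ) = (1 : Matrix ι ι ℂ).mulVec (w : ι → ℂ) := (Matrix.one_mulVec _).symm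
      _ = 0 := by rw [← h2, ← Matrix.mulVec_mulVec, h4, Matrix.mulVec_zero]
  obtain ⟨x, hx⟩ := hμI
  exact ⟨x, w, hw0, (hV _).1 w.2, by rw [hx]; exact hHw⟩

end Crest.Agent.JS
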