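import Crest.Agent.JS.F.Basic

/-!
# Row 117, Part F, chunk INTERVEC: intertwiners from vectors
-/

set_option autoImplicit false

namespace Crest.Agent.JS

open Crest.AnalysisR.CStar
open scoped Kronecker Matrix.Norms.L2Operator

/-- An isometric intertwiner from a vector (pure algebra, any star algebra `A`).

Proof.  Choose lifts `a i j ∈ A` of the matrix units `E i j = Matrix.single i j 1` under `π` and
fix `i₀ : κ`.  Since `π (1 - ∑ i, a i i₀ * a i₀ i) = 0` we have
`ξ = ∑ i, φ (a i i₀) (φ (a i₀ i) ξ)`, so `η := φ (a i₀ i) ξ ≠ 0` for some `i`; rescale `η` to have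
`star η ⬝ᵥ η = 1` (multiply by a positive real scalar).  If `π b = 0` then `φ b η = 0`
(because `π (b * a i₀ i) = 0`).  Let `T` be the matrix with columns `φ (a j i₀) η` (`j : κ`).
* `Tᴴ T = 1`: the entry `(j, l)` is `⟨η, φ (star (a j i₀) * a l i₀) η⟩` and
  `π (star (a j i₀) * a l i₀) = E i₀ j * E l i₀ = if j = l then E i₀ i₀ else 0`; finally
  `φ (a i₀ i₀) η = η` since `π (a i₀ i₀ * a i₀ i - a i₀ i) = 0`.
* `φ b * T = T * π b`: column `j`: `φ b (φ (a j i₀) η) = ∑ l, (π b) l j • φ (a l i₀) η` because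
  `π (b * a j i₀ - ∑ l, (π b) l j • a l i₀) = 0`.
* `e * T = T` since `e` commutes with all `φ b` and `e ξ = ξ`. -/
theorem intertwiner_of_vec {A : Type*} [Ring A] [StarRing A] [Algebra ℂ A] [StarModule ℂ A]
    {ι κ : Type*} [Fintype ι] [DecidableEq ι] [Fintype κ] [DecidableEq κ] [Nonempty κ]
    (φ : A →⋆ₐ[ℂ] Matrix ι ι ℂ) (π : A →⋆ₐ[ℂ] Matrix κ κ ℂ) (hπ : Function.Surjective π)
    (ξ : ι → ℂ) (hξ : ξ ≠ 0) (hker : ∀ a, π a = 0 → (φ a).mulVec ξ = 0)
    (e : Matrix ι ι ℂ) (hec : ∀ a, Commute e (φ a)) (heξ : e.mulVec ξ = ξ) :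
    ∃ T : Matrix ι κ ℂ, T.conjTranspose * T = 1 ∧ e * T = T ∧ ∀ a, φ a * T = T * π a := by
  choose lift hlift using hπ
  let a : κ → κ → A := fun i j => lift (Matrix.single i j 1)
  have ha : ∀ i j, π (a i j) = Matrix.single i j 1 := fun i j => hlift _
  let i₀ : κ := Classical.arbitrary κ
  -- congruence modulo the kernel
  have hcong : ∀ b b', π b = π b' → (φ b).mulVec ξ = (φ b').mulVec ξ := by
    intro b b' h
    have h1 := hker (b - b') (by rw [map_sub, h, sub_self])
    rw [map_sub, Matrix.sub_mulVec, sub_eq_zero] at h1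
    exact h1
  have hone : (1 : Matrix κ κ ℂ) = ∑ i, Matrix.single i i (1 : ℂ) := by
    ext x y
    rw [Matrix.sum_apply]
    simp only [Matrix.single_apply, Matrix.one_apply]
    by_cases h : x = y
    · subst h
      rw [Finset.sum_eq_single x] <;> simp (config := {contextual := true})
    · rw [if_neg h, Finset.sum_eq_zero]
      intro z _
      rw [if_neg]
      rintro ⟨rfl, rfl⟩
      exact h rfl
  have hex : ∃ i, (φ (a i₀ i)).mulVec ξ ≠ 0 := by
    by_contra hcon
    push Not at hcon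
    apply hξ
    have h1 := hcong 1 (∑ i, a i i₀ * a i₀ i) (by
      rw [map_one, map_sum, hone]
      refine Finset.sum_congr rfl fun i _ => ?_
      rw [map_mul, ha, ha, Matrix.single_mul_single_same, mul_one])
    rw [map_one, Matrix.one_mulVec, map_sum, Matrix.sum_mulVec] at h1
    rw [h1]
    refine Finset.sum_eq_zero fun i _ => ?_
    rw [map_mul, ← Matrix.mulVec_mulVec, hcon i, Matrix.mulVec_zero]
  obtain ⟨i, hi⟩ := hex
  set η₀ := (φ (a i₀ i)).mulVec ξ with hη₀
  obtain ⟨c, hc⟩ : ∃ c : ℂ, star (c • η₀) ⬝ᵥ (c • η₀) = 1 := by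
    set r : ℝ := ∑ x, ‖η₀ x‖ ^ 2 with hr
    have hr0 : 0 < r := by
      obtain ⟨x, hx⟩ := Function.ne_iff.1 hi
      refine Finset.sum_pos' (fun _ _ => sq_nonneg _) ⟨x, Finset.mem_univ _, ?_⟩
      have : 0 < ‖η₀ x‖ := norm_pos_iff.2 hx
      positivity
    have h1 : star η₀ ⬝ᵥ η₀ = (r : ℂ) := by
      unfold dotProduct
      rw [hr]
      push_cast
      refine Finset.sum_congr rfl fun x _ => ?_
      rw [Pi.star_apply, ← Complex.conj_mul']
      rfl
    refine ⟨((Real.sqrt r)⁻¹ : ℝ), ?_⟩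
    rw [star_smul, smul_dotProduct, dotProduct_smul, h1]
    simp only [smul_eq_mul, Complex.star_def, Complex.conj_ofReal]
    rw [← Complex.ofReal_mul, ← Complex.ofReal_mul]
    have : (Real.sqrt r)⁻¹ * ((Real.sqrt r)⁻¹ * r) = 1 := by
      have h2 : Real.sqrt r * Real.sqrt r = r := Real.mul_self_sqrt hr0.le
      have h3 : Real.sqrt r ≠ 0 := (Real.sqrt_pos.2 hr0).ne'
      have h4 : ∀ s : ℝ, s ≠ 0 → s⁻¹ * (s⁻¹ * (s * s)) = 1 := by
        intro s hs
        field_simp
      have h5 := h4 _ h3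
      rwa [h2] at h5
    rw [this, Complex.ofReal_one]
  set η := c • η₀ with hη
  have hηcong : ∀ b b', π b = π b' → (φ b).mulVec η = (φ b').mulVec η := by
    intro b b' h
    have h1 := hcong (b * a i₀ i) (b' * a i₀ i) (by rw [map_mul, map_mul, h])
    rw [map_mul, map_mul, ← Matrix.mulVec_mulVec, ← Matrix.mulVec_mulVec] at h1
    rw [hη, Matrix.mulVec_smul, Matrix.mulVec_smul, h1]
  have hη1 : (φ (a i₀ i₀)).mulVec η = η := by
    have h1 := hcong (a i₀ i₀ * a i₀ i) (a i₀ i) (by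
      rw [map_mul, ha, ha, Matrix.single_mul_single_same, mul_one])
    rw [map_mul, ← Matrix.mulVec_mulVec] at h1
    rw [hη, Matrix.mulVec_smul, h1]
  have hηe : e.mulVec η = η := by
    rw [hη, Matrix.mulVec_smul, hη₀, Matrix.mulVec_mulVec, (hec _).eq, ← Matrix.mulVec_mulVec, heξ]
  refine ⟨Matrix.of (fun x j => (φ (a j i₀)).mulVec η x), ?_, ?_, ?_⟩
  · ext j l
    have h1 : ((Matrix.of (fun x j => (φ (a j i₀)).mulVec η x)).conjTranspose *
        Matrix.of (fun x j => (φ (a j i₀)).mulVec η x)) j l =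
        star ((φ (a j i₀)).mulVec η) ⬝ᵥ ((φ (a l i₀)).mulVec η) := rfl
    rw [h1, Matrix.star_mulVec, ← Matrix.dotProduct_mulVec, Matrix.mulVec_mulVec]
    have h2 : (φ (a j i₀)).conjTranspose * φ (a l i₀) = φ (star (a j i₀) * a l i₀) := by
      rw [map_mul, map_star]
      rfl
    rw [h2]
    have h3 : π (star (a j i₀) * a l i₀) =
        (Matrix.single j i₀ (1 : ℂ)).conjTranspose * Matrix.single l i₀ (1 : ℂ) := by
      rw [map_mul, map_star, ha, ha]
      rfl
    rw [Matrix.conjTranspose_single, star_one] at h3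
    by_cases hjl : j = l
    · subst hjl
      rw [Matrix.single_mul_single_same, mul_one, ← ha] at h3
      rw [hηcong _ _ h3, hη1, hc, Matrix.one_apply_eq]
    · rw [Matrix.single_mul_single_of_ne _ _ _ _ hjl, ← map_zero π] at h3
      rw [hηcong _ _ h3, map_zero, Matrix.zero_mulVec, dotProduct_zero,
        Matrix.one_apply_ne hjl]
  · ext x j
    have h1 : (e * Matrix.of (fun x j => (φ (a j i₀)).mulVec η x)) x j =
        e.mulVec ((φ (a j i₀)).mulVec η) x := rfl
    rw [h1, Matrix.mulVec_mulVec, (hec _).eq, ← Matrix.mulVec_mulVec, hηe]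
    rfl
  · intro b
    ext x j
    have h1 : (φ b * Matrix.of (fun x j => (φ (a j i₀)).mulVec η x)) x j =
        (φ b).mulVec ((φ (a j i₀)).mulVec η) x := rfl
    rw [h1, Matrix.mulVec_mulVec, ← map_mul]
    have h2 := hηcong (b * a j i₀) (∑ l, (π b) l j • a l i₀) (by
      rw [map_mul, ha, map_sum]
      simp only [map_smul, ha]
      ext y z
      rw [Matrix.sum_apply]
      simp only [Matrix.smul_apply, Matrix.single_apply, smul_eq_mul, Matrix.mul_apply]
      by_cases hz : i₀ = z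
      · simp [hz]
      · simp [hz])
    rw [h2, map_sum, Matrix.sum_mulVec, Finset.sum_apply, Matrix.mul_apply]
    refine Finset.sum_congr rfl fun l _ => ?_
    rw [map_smul, Matrix.smul_mulVec, Pi.smul_apply, smul_eq_mul, mul_comm]
    rfl

end Crest.Agent.JS
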