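import Crest.Agent.JS.F.Basic

/-!
# Row 117, Part F, chunk SURJ: the irreducible representations are surjective
-/

set_option autoImplicit false

namespace Crest.Agent.JS

open Crest.AnalysisR.CStar
open scoped Kronecker Matrix.Norms.L2Operator

/-- `evD p q x` is surjective for `0 < x < 1`: take `f t = (t (1 - t) / (x (1 - x))) • a`. -/
theorem evD_surjective (p q : ℕ) (x : unitInterval) (h0 : x ≠ 0) (h1 : x ≠ 1) :
    Function.Surjective (evD p q x) := by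
  intro a
  have hx0 : ((x : ℝ) : ℂ) ≠ 0 := by
    intro h
    apply h0
    apply Subtype.ext
    exact_mod_cast h
  have hx1 : (1 : ℂ) - ((x : ℝ) : ℂ) ≠ 0 := by
    intro h
    apply h1
    apply Subtype.ext
    have h2 : ((x : ℝ) : ℂ) = 1 := (sub_eq_zero.1 h).symm
    exact_mod_cast h2
  refine ⟨⟨⟨fun t => ((((t : ℝ) : ℂ) * (1 - ((t : ℝ) : ℂ))) /
    (((x : ℝ) : ℂ) * (1 - ((x : ℝ) : ℂ)))) • a, by fun_prop⟩, ⟨0, ?_⟩, ⟨0, ?_⟩⟩, ?_⟩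
  · simp
  · simp
  · change ((((x : ℝ) : ℂ) * (1 - ((x : ℝ) : ℂ))) /
      (((x : ℝ) : ℂ) * (1 - ((x : ℝ) : ℂ)))) • a = a
    rw [div_self (mul_ne_zero hx0 hx1), one_smul]

/-- `repZ` is surjective: `f t = (1 - t) • (a ⊗ₖ 1)`. -/
theorem repZ_surjective (p q : ℕ) (hq : 0 < q) : Function.Surjective (repZ p q hq) := by
  intro a
  refine ⟨⟨⟨fun t => (1 - ((t : ℝ) : ℂ)) • (a ⊗ₖ (1 : Matrix (Fin q) (Fin q) ℂ)), by fun_prop⟩,
    ⟨a, ?_⟩, ⟨0, ?_⟩⟩, ?_⟩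
  · simp
  · simp
  · change lftM p q ((1 - (((0 : unitInterval) : ℝ) : ℂ)) •
      (a ⊗ₖ (1 : Matrix (Fin q) (Fin q) ℂ))) = a
    simp [lftM_kron p q hq]

/-- `repO` is surjective: `f t = t • (1 ⊗ₖ b)`. -/
theorem repO_surjective (p q : ℕ) (hp : 0 < p) : Function.Surjective (repO p q hp) := by
  intro b
  refine ⟨⟨⟨fun t => ((t : ℝ) : ℂ) • ((1 : Matrix (Fin p) (Fin p) ℂ) ⊗ₖ b), by fun_prop⟩,
    ⟨0, ?_⟩, ⟨b, ?_⟩⟩, ?_⟩
  · simp
  · simp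
  · change rgtM p q ((((1 : unitInterval) : ℝ) : ℂ) •
      ((1 : Matrix (Fin p) (Fin p) ℂ) ⊗ₖ b)) = b
    simp [rgtM_kron p q hp]

end Crest.Agent.JS
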