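import Crest.Agent.JS.F.Code
import Crest.Agent.JS.F.InterVec
import Crest.Agent.JS.F.Eig
import Crest.Agent.JS.F.Surj

/-!
# Row 117, Part F, chunks INTEREX, FAMILY: complete decomposition into irreducibles
-/

set_option autoImplicit false

namespace Crest.Agent.JS

open Crest.AnalysisR.CStar
open scoped Kronecker Matrix.Norms.L2Operator

theorem family_aux {p q : ℕ} {ι κ : Type} [Fintype ι] [DecidableEq ι] [Fintype κ]
    [DecidableEq κ] [Nonempty κ] (φ : dimDrop p q →⋆ₐ[ℂ] Matrix ι ι ℂ)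
    (π : dimDrop p q →⋆ₐ[ℂ] Matrix κ κ ℂ) (hπ : Function.Surjective π) (e : Matrix ι ι ℂ)
    (hec : ∀ f, Commute e (φ f)) (ξ : ι → ℂ) (hξ0 : ξ ≠ 0) (heξ : e.mulVec ξ = ξ)
    (hk : ∀ a : dimDrop p q, π a = 0 → (φ a).mulVec ξ = 0) :
    ∃ (T : Matrix ι κ ℂ), T.conjTranspose * T = 1 ∧ e * T = T ∧ ∀ f, φ f * T = T * π f := by
  have h1 := @intertwiner_of_vec (dimDrop p q)
  have h2 := @h1 _
  have h3 := @h2 _
  have h4 := @h3 _
  have h5 := @h4 _ ι κ _ _ _ _ _
  have h6 := @h5 φ
  have h7 := @h6 π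
  exact h7 hπ ξ hξ0 hk e hec heξ

/-- (INTEREX) A new intertwiner inside the range of a commuting projection.

Proof.  `exists_eig` gives `x, ξ`.  If `x = 0` use `intertwiner_of_vec` with `π = repZ` (surjective
by `repZ_surjective`; if `repZ f = 0` then `f.1 0 = 0` by `repZ_kron`, so `φ f ξ = 0` by
`eig_vanish`).  If `x = 1` use `repO`, otherwise `evD p q x`. -/
theorem exists_intertwiner {p q : ℕ} (hp : 0 < p) (hq : 0 < q) {ι : Type} [Fintype ι]
    [DecidableEq ι] (φ : dimDrop p q →⋆ₐ[ℂ] Matrix ι ι ℂ) (e : Matrix ι ι ℂ) (he : e ≠ 0)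
    (he2 : e * e = e) (hec : ∀ f, Commute e (φ f)) :
    ∃ (c : Code) (T : Matrix ι (c.Ix p q) ℂ), T.conjTranspose * T = 1 ∧ e * T = T ∧
      ∀ f, φ f * T = T * c.rep hp hq f := by
  obtain ⟨x, ξ, hξ0, heξ, hξ⟩ := exists_eig φ e he he2 hec
  by_cases h0 : x = 0
  · subst h0
    have hne : Nonempty (Fin p) := ⟨⟨0, hp⟩⟩
    have hk : ∀ a : dimDrop p q, repZ p q hq a = 0 → (φ a).mulVec ξ = 0 := fun a ha =>
      eig_vanish φ 0 ξ hξ a (by
        have := repZ_kron p q hq a
        rw [ha, Matrix.zero_kronecker] at this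
        exact this.symm)
    obtain ⟨T, h1, h2, h3⟩ := family_aux φ (repZ p q hq) (repZ_surjective p q hq) e hec ξ hξ0 heξ hk
    exact ⟨.z, T, h1, h2, h3⟩
  · by_cases h1 : x = 1
    · subst h1
      have hne : Nonempty (Fin q) := ⟨⟨0, hq⟩⟩
      have hk : ∀ a : dimDrop p q, repO p q hp a = 0 → (φ a).mulVec ξ = 0 := fun a ha =>
        eig_vanish φ 1 ξ hξ a (by
          have := kron_repO p q hp a
          rw [ha, Matrix.kronecker_zero] at this
          exact this.symm)
      obtain ⟨T, h1, h2, h3⟩ := family_aux φ (repO p q hp) (repO_surjective p q hp) e hec ξ hξ0 heξ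
        hk
      exact ⟨.o, T, h1, h2, h3⟩
    · have hne : Nonempty (Fin p × Fin q) := ⟨(⟨0, hp⟩, ⟨0, hq⟩)⟩
      have hk : ∀ a : dimDrop p q, evD p q x a = 0 → (φ a).mulVec ξ = 0 := fun a ha =>
        eig_vanish φ x ξ hξ a ha
      obtain ⟨T, h1, h2, h3⟩ := family_aux φ (evD p q x) (evD_surjective p q x h0 h1) e hec ξ hξ0
        heξ hk
      exact ⟨.m x, T, h1, h2, h3⟩

theorem family_kill {p q : ℕ} (hp : 0 < p) (hq : 0 < q) {ι : Type} [Fintype ι]
    [DecidableEq ι] (φ : dimDrop p q →⋆ₐ[ℂ] Matrix ι ι ℂ) (n : ℕ) (c : Fin n → Code)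
    (T : ∀ k, Matrix ι ((c k).Ix p q) ℂ) (hT : IsFam hp hq φ n c T) (k : Fin n) :
    (T k).conjTranspose * (1 - ∑ k, T k * (T k).conjTranspose) = 0 := by
  rw [Matrix.mul_sub, Matrix.mul_one, Matrix.mul_sum, Finset.sum_eq_single k]
  · rw [← Matrix.mul_assoc, hT.isom k, Matrix.one_mul, sub_self]
  · intro l _ hl
    rw [← Matrix.mul_assoc, hT.orth k l hl.symm, Matrix.zero_mul]
  · intro h; exact absurd (Finset.mem_univ k) h

theorem family_idem {p q : ℕ} (hp : 0 < p) (hq : 0 < q) {ι : Type} [Fintype ι]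
    [DecidableEq ι] (φ : dimDrop p q →⋆ₐ[ℂ] Matrix ι ι ℂ) (n : ℕ) (c : Fin n → Code)
    (T : ∀ k, Matrix ι ((c k).Ix p q) ℂ) (hT : IsFam hp hq φ n c T) :
    (1 - ∑ k, T k * (T k).conjTranspose) * (1 - ∑ k, T k * (T k).conjTranspose) =
      1 - ∑ k, T k * (T k).conjTranspose := by
  have h : (∑ k, T k * (T k).conjTranspose) * (1 - ∑ k, T k * (T k).conjTranspose) = 0 := by
    rw [Matrix.sum_mul]
    refine Finset.sum_eq_zero fun k _ => ?_
    rw [Matrix.mul_assoc, family_kill hp hq φ n c T hT k, Matrix.mul_zero]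
  rw [Matrix.sub_mul, h, Matrix.one_mul, sub_zero]

theorem family_comm {p q : ℕ} (hp : 0 < p) (hq : 0 < q) {ι : Type} [Fintype ι]
    [DecidableEq ι] (φ : dimDrop p q →⋆ₐ[ℂ] Matrix ι ι ℂ) (n : ℕ) (c : Fin n → Code)
    (T : ∀ k, Matrix ι ((c k).Ix p q) ℂ) (hT : IsFam hp hq φ n c T) (f : dimDrop p q) :
    Commute (1 - ∑ k, T k * (T k).conjTranspose) (φ f) := by
  refine (Commute.one_left _).sub_left ?_
  show (∑ k, T k * (T k).conjTranspose) * φ f = φ f * ∑ k, T k * (T k).conjTranspose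
  rw [Matrix.sum_mul, Matrix.mul_sum]
  refine Finset.sum_congr rfl fun k _ => ?_
  have h1 : (T k).conjTranspose * φ f = (c k).rep hp hq f * (T k).conjTranspose := by
    have h2 := congrArg Matrix.conjTranspose (hT.inter k (star f))
    rw [Matrix.conjTranspose_mul, Matrix.conjTranspose_mul, map_star, map_star,
      Matrix.star_eq_conjTranspose, Matrix.star_eq_conjTranspose,
      Matrix.conjTranspose_conjTranspose, Matrix.conjTranspose_conjTranspose] at h2
    exact h2
  rw [Matrix.mul_assoc, h1, ← Matrix.mul_assoc, ← Matrix.mul_assoc, hT.inter k f]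

open scoped ComplexOrder in
theorem family_card_le {p q : ℕ} (hp : 0 < p) (hq : 0 < q) {ι : Type} [Fintype ι]
    [DecidableEq ι] (φ : dimDrop p q →⋆ₐ[ℂ] Matrix ι ι ℂ) (n : ℕ) (c : Fin n → Code)
    (T : ∀ k, Matrix ι ((c k).Ix p q) ℂ) (hT : IsFam hp hq φ n c T) :
    n ≤ Fintype.card ι := by
  have hsa : (1 - ∑ k, T k * (T k).conjTranspose).conjTranspose =
      1 - ∑ k, T k * (T k).conjTranspose := by
    rw [Matrix.conjTranspose_sub, Matrix.conjTranspose_one, Matrix.conjTranspose_sum]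
    congr 1
    refine Finset.sum_congr rfl fun k _ => ?_
    rw [Matrix.conjTranspose_mul, Matrix.conjTranspose_conjTranspose]
  have h1 : (0 : ℂ) ≤ Matrix.trace (1 - ∑ k, T k * (T k).conjTranspose) := by
    have h2 := (Matrix.posSemidef_conjTranspose_mul_self
      (1 - ∑ k, T k * (T k).conjTranspose)).trace_nonneg
    rwa [hsa, family_idem hp hq φ n c T hT] at h2
  have h3 : Matrix.trace (1 - ∑ k, T k * (T k).conjTranspose) =
      (Fintype.card ι : ℂ) - ∑ k, (Fintype.card ((c k).Ix p q) : ℂ) := by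
    rw [Matrix.trace_sub, Matrix.trace_one, Matrix.trace_sum]
    congr 1
    refine Finset.sum_congr rfl fun k _ => ?_
    rw [Matrix.trace_mul_comm, hT.isom k, Matrix.trace_one]
  rw [h3] at h1
  have h4 : (∑ k, Fintype.card ((c k).Ix p q)) ≤ Fintype.card ι := by
    have h5 : (0 : ℝ) ≤ (((Fintype.card ι : ℂ) - ∑ k, (Fintype.card ((c k).Ix p q) : ℂ))).re :=
      (Complex.le_def.1 h1).1
    have h6 : ((Fintype.card ι : ℂ) - ∑ k, (Fintype.card ((c k).Ix p q) : ℂ)).re =
        (Fintype.card ι : ℝ) - ∑ k, (Fintype.card ((c k).Ix p q) : ℝ) := by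
      simp
    rw [h6] at h5
    have h7 : (∑ k, (Fintype.card ((c k).Ix p q) : ℝ)) ≤ Fintype.card ι := by linarith
    exact_mod_cast h7
  calc n = ∑ _k : Fin n, 1 := by simp
    _ ≤ ∑ k, Fintype.card ((c k).Ix p q) := Finset.sum_le_sum fun k _ => by
        haveI := Code.ix_nonempty hp hq (c k)
        exact Fintype.card_pos
    _ ≤ Fintype.card ι := h4

/-- (FAMILY) Complete decomposition.

Proof.  A family of size `n` has `n ≤ card ι`: the matrix `P = ∑ k, T k * (T k)ᴴ` is an orthogonal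
projection, its trace is `∑ k, card (Ix (c k)) ≥ n` and the trace of the projection `1 - P` is
`≥ 0` (it is the trace of `(1-P)ᴴ (1-P)`).  Take a family of maximal size (`Nat.findGreatest` or
`Nat.find` on the complement; size `0` exists).  Let `e = 1 - P`; it is a projection commuting
with `φ f` (`φ f * T k * (T k)ᴴ = T k * rep f * (T k)ᴴ` and
`(T k)ᴴ * φ f = (φ (star f) * T k)ᴴ = rep f * (T k)ᴴ`).  If `e ≠ 0`, `exists_intertwiner` gives
`T'` with `e * T' = T'`, so `(T k)ᴴ * T' = (T k)ᴴ * e * T' = 0`, and `Fin.cons` extends the family: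
contradiction.  So `e = 0`. -/
theorem exists_complete_family {p q : ℕ} (hp : 0 < p) (hq : 0 < q) {ι : Type} [Fintype ι]
    [DecidableEq ι] (φ : dimDrop p q →⋆ₐ[ℂ] Matrix ι ι ℂ) :
    ∃ (n : ℕ) (c : Fin n → Code) (T : ∀ k, Matrix ι ((c k).Ix p q) ℂ),
      IsFam hp hq φ n c T ∧ ∑ k, T k * (T k).conjTranspose = 1 := by
  have key : ∀ d n : ℕ, ∀ (c : Fin n → Code) (T : ∀ k, Matrix ι ((c k).Ix p q) ℂ),
      IsFam hp hq φ n c T → Fintype.card ι + 1 ≤ n + d →
      ∃ (n : ℕ) (c : Fin n → Code) (T : ∀ k, Matrix ι ((c k).Ix p q) ℂ),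
      IsFam hp hq φ n c T ∧ ∑ k, T k * (T k).conjTranspose = 1 := by
    intro d
    induction d with
    | zero =>
      intro n c T hT hn
      have := family_card_le hp hq φ n c T hT
      omega
    | succ d ih =>
      intro n c T hT hn
      by_cases he : 1 - ∑ k, T k * (T k).conjTranspose = 0
      · exact ⟨n, c, T, hT, (sub_eq_zero.1 he).symm⟩
      · obtain ⟨c', T', h1, h2, h3⟩ := exists_intertwiner hp hq φ _ he
          (family_idem hp hq φ n c T hT) (family_comm hp hq φ n c T hT)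
        have h4 : ∀ k, (T k).conjTranspose * T' = 0 := fun k => by
          rw [← h2, ← Matrix.mul_assoc, family_kill hp hq φ n c T hT k, Matrix.zero_mul]
        have h5 : ∀ k, T'.conjTranspose * T k = 0 := fun k => by
          have := congrArg Matrix.conjTranspose (h4 k)
          rwa [Matrix.conjTranspose_mul, Matrix.conjTranspose_conjTranspose,
            Matrix.conjTranspose_zero] at this
        refine ih (n + 1) (Fin.cons c' c : Fin (n + 1) → Code)
          (Fin.cons (α := fun k => Matrix ι (((Fin.cons c' c : Fin (n + 1) → Code) k).Ix p q) ℂ)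
            T' T) ⟨?_, ?_, ?_⟩ (by omega)
        · intro k l
          refine Fin.cases ?_ (fun k => ?_) k
          · refine Fin.cases ?_ (fun l => ?_) l
            · intro h; exact absurd rfl h
            · intro _; exact h5 l
          · refine Fin.cases ?_ (fun l => ?_) l
            · intro _; exact h4 k
            · intro h; exact hT.orth k l (fun h' => h (by rw [h']))
        · intro k
          refine Fin.cases ?_ (fun k => ?_) k
          · exact h1
          · exact hT.isom k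
        · intro k f
          refine Fin.cases ?_ (fun k => ?_) k
          · exact h3 f
          · exact hT.inter k f
  exact key (Fintype.card ι + 1) 0 (fun k => k.elim0) (fun k => k.elim0)
    ⟨fun k => k.elim0, fun k => k.elim0, fun k => k.elim0⟩ (by omega)

end Crest.Agent.JS
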