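import Crest.Agent.JS.F.Basic

/-!
# Row 117, Part F, chunk LEGS: flips of the legs of `(P ⊗ Q) ⊗ (P ⊗ Q)`
-/

set_option autoImplicit false

namespace Crest.Agent.JS

open Crest.AnalysisR.CStar
open scoped Kronecker Matrix.Norms.L2Operator

/-- square matrices over `Fin P × Fin Q` -/
abbrev MPQ (P Q : ℕ) := Matrix (Fin P × Fin Q) (Fin P × Fin Q) ℂ

/-- square matrices over `(Fin P × Fin Q) × (Fin P × Fin Q)` -/
abbrev MM (P Q : ℕ) :=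
  Matrix ((Fin P × Fin Q) × (Fin P × Fin Q)) ((Fin P × Fin Q) × (Fin P × Fin Q)) ℂ

/-- first copy -/
noncomputable def j1 {P Q : ℕ} (A : MPQ P Q) : MM P Q := A ⊗ₖ (1 : MPQ P Q)

/-- second copy -/
noncomputable def j2 {P Q : ℕ} (A : MPQ P Q) : MM P Q := (1 : MPQ P Q) ⊗ₖ A

/-- `a` on the leg `P` -/
noncomputable def lP (P Q : ℕ) (a : Matrix (Fin P) (Fin P) ℂ) : MPQ P Q :=
  a ⊗ₖ (1 : Matrix (Fin Q) (Fin Q) ℂ)

/-- `b` on the leg `Q` -/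
noncomputable def lQ (P Q : ℕ) (b : Matrix (Fin Q) (Fin Q) ℂ) : MPQ P Q :=
  (1 : Matrix (Fin P) (Fin P) ℂ) ⊗ₖ b

/-- flip of the two `P` legs -/
noncomputable def SP (P Q : ℕ) : MM P Q :=
  Matrix.of fun i j => if i.1.1 = j.2.1 ∧ i.2.1 = j.1.1 ∧ i.1.2 = j.1.2 ∧ i.2.2 = j.2.2 then 1 else 0

/-- flip of the two `Q` legs -/
noncomputable def SQ (P Q : ℕ) : MM P Q :=
  Matrix.of fun i j => if i.1.1 = j.1.1 ∧ i.2.1 = j.2.1 ∧ i.1.2 = j.2.2 ∧ i.2.2 = j.1.2 then 1 else 0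

/-!
All statements of this chunk are entrywise computations with permutation matrices.  Useful: for
`A : MM P Q`, `(SP * A) ((i,a),(k,b)) y = A ((k,a),(i,b)) y` and
`(A * SP) x ((i,a),(k,b)) = A x ((k,a),(i,b))` (prove these two first, `Matrix.mul_apply`,
`Finset.sum_eq_single`), and the analogous ones for `SQ`.
-/

private theorem legs_one_pair {P Q : ℕ} (i k : Fin P) (a b : Fin Q) :
    (1 : MPQ P Q) (i, a) (k, b) =
      (1 : Matrix (Fin P) (Fin P) ℂ) i k * (1 : Matrix (Fin Q) (Fin Q) ℂ) a b := by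
  have h : (1 : MPQ P Q) =
      (1 : Matrix (Fin P) (Fin P) ℂ) ⊗ₖ (1 : Matrix (Fin Q) (Fin Q) ℂ) :=
    Matrix.one_kronecker_one.symm
  rw [h]
  rfl

private theorem legs_one_quad {P Q : ℕ} (x y x' y' : Fin P × Fin Q) :
    (1 : MM P Q) (x, y) (x', y') = (1 : MPQ P Q) x x' * (1 : MPQ P Q) y y' := by
  have h : (1 : MM P Q) = (1 : MPQ P Q) ⊗ₖ (1 : MPQ P Q) := Matrix.one_kronecker_one.symm
  rw [h]
  rfl

private theorem legs_SP_apply {P Q : ℕ} (i k i' k' : Fin P) (a b a' b' : Fin Q) :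
    SP P Q ((i, a), (k, b)) ((i', a'), (k', b')) =
      (1 : Matrix (Fin P) (Fin P) ℂ) i k' * (1 : Matrix (Fin P) (Fin P) ℂ) k i' *
      (1 : Matrix (Fin Q) (Fin Q) ℂ) a a' * (1 : Matrix (Fin Q) (Fin Q) ℂ) b b' := by
  simp only [SP, Matrix.of_apply, Matrix.one_apply]
  by_cases h1 : i = k' <;> by_cases h2 : k = i' <;> by_cases h3 : a = a' <;>
    by_cases h4 : b = b' <;> simp [h1, h2, h3, h4]

private theorem legs_SQ_apply {P Q : ℕ} (i k i' k' : Fin P) (a b a' b' : Fin Q) :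
    SQ P Q ((i, a), (k, b)) ((i', a'), (k', b')) =
      (1 : Matrix (Fin P) (Fin P) ℂ) i i' * (1 : Matrix (Fin P) (Fin P) ℂ) k k' *
      (1 : Matrix (Fin Q) (Fin Q) ℂ) a b' * (1 : Matrix (Fin Q) (Fin Q) ℂ) b a' := by
  simp only [SQ, Matrix.of_apply, Matrix.one_apply]
  by_cases h1 : i = i' <;> by_cases h2 : k = k' <;> by_cases h3 : a = b' <;>
    by_cases h4 : b = a' <;> simp [h1, h2, h3, h4]

private theorem legs_one_comm {n : Type*} [DecidableEq n] (i j : n) :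
    (1 : Matrix n n ℂ) i j = (1 : Matrix n n ℂ) j i := by
  simp only [Matrix.one_apply, eq_comm]

private theorem legs_star_one {n : Type*} [DecidableEq n] (i j : n) :
    star ((1 : Matrix n n ℂ) i j) = (1 : Matrix n n ℂ) i j := by
  simp only [Matrix.one_apply]
  split_ifs <;> simp

theorem SP_mul_apply {P Q : ℕ} (A : MM P Q) (i k : Fin P) (a b : Fin Q) (y) :
    (SP P Q * A) ((i, a), (k, b)) y = A ((k, a), (i, b)) y := by
  rw [Matrix.mul_apply, Finset.sum_eq_single ((k, a), (i, b))]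
  · simp [SP]
  · rintro ⟨⟨k', a'⟩, ⟨i', b'⟩⟩ _ hz
    have h : ¬ (i = i' ∧ k = k' ∧ a = a' ∧ b = b') := by
      rintro ⟨rfl, rfl, rfl, rfl⟩
      exact hz rfl
    simp only [SP, Matrix.of_apply, if_neg h, zero_mul]
  · intro h
    exact absurd (Finset.mem_univ _) h

theorem mul_SP_apply {P Q : ℕ} (A : MM P Q) (i k : Fin P) (a b : Fin Q) (x) :
    (A * SP P Q) x ((i, a), (k, b)) = A x ((k, a), (i, b)) := by
  rw [Matrix.mul_apply, Finset.sum_eq_single ((k, a), (i, b))]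
  · simp [SP]
  · rintro ⟨⟨k', a'⟩, ⟨i', b'⟩⟩ _ hz
    have h : ¬ (k' = k ∧ i' = i ∧ a' = a ∧ b' = b) := by
      rintro ⟨rfl, rfl, rfl, rfl⟩
      exact hz rfl
    simp only [SP, Matrix.of_apply, if_neg h, mul_zero]
  · intro h
    exact absurd (Finset.mem_univ _) h

theorem SQ_mul_apply {P Q : ℕ} (A : MM P Q) (i k : Fin P) (a b : Fin Q) (y) :
    (SQ P Q * A) ((i, a), (k, b)) y = A ((i, b), (k, a)) y := by
  rw [Matrix.mul_apply, Finset.sum_eq_single ((i, b), (k, a))]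
  · simp [SQ]
  · rintro ⟨⟨i', b'⟩, ⟨k', a'⟩⟩ _ hz
    have h : ¬ (i = i' ∧ k = k' ∧ a = a' ∧ b = b') := by
      rintro ⟨rfl, rfl, rfl, rfl⟩
      exact hz rfl
    simp only [SQ, Matrix.of_apply, if_neg h, zero_mul]
  · intro h
    exact absurd (Finset.mem_univ _) h

theorem mul_SQ_apply {P Q : ℕ} (A : MM P Q) (i k : Fin P) (a b : Fin Q) (x) :
    (A * SQ P Q) x ((i, a), (k, b)) = A x ((i, b), (k, a)) := by
  rw [Matrix.mul_apply, Finset.sum_eq_single ((i, b), (k, a))]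
  · simp [SQ]
  · rintro ⟨⟨i', b'⟩, ⟨k', a'⟩⟩ _ hz
    have h : ¬ (i' = i ∧ k' = k ∧ b' = b ∧ a' = a) := by
      rintro ⟨rfl, rfl, rfl, rfl⟩
      exact hz rfl
    simp only [SQ, Matrix.of_apply, if_neg h, mul_zero]
  · intro h
    exact absurd (Finset.mem_univ _) h

theorem SP_star (P Q : ℕ) : star (SP P Q) = SP P Q := by
  ext ⟨⟨i, a⟩, ⟨k, b⟩⟩ ⟨⟨i', a'⟩, ⟨k', b'⟩⟩
  rw [Matrix.star_apply, legs_SP_apply, legs_SP_apply]
  simp only [star_mul', legs_star_one]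
  rw [legs_one_comm i' k, legs_one_comm k' i, legs_one_comm a' a, legs_one_comm b' b]
  ring

theorem SQ_star (P Q : ℕ) : star (SQ P Q) = SQ P Q := by
  ext ⟨⟨i, a⟩, ⟨k, b⟩⟩ ⟨⟨i', a'⟩, ⟨k', b'⟩⟩
  rw [Matrix.star_apply, legs_SQ_apply, legs_SQ_apply]
  simp only [star_mul', legs_star_one]
  rw [legs_one_comm i' i, legs_one_comm k' k, legs_one_comm a' b, legs_one_comm b' a]
  ring

theorem SP_sq (P Q : ℕ) : SP P Q * SP P Q = 1 := by
  ext ⟨⟨i, a⟩, ⟨k, b⟩⟩ ⟨⟨i', a'⟩, ⟨k', b'⟩⟩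
  rw [SP_mul_apply, legs_SP_apply, legs_one_quad, legs_one_pair, legs_one_pair]
  ring

theorem SQ_sq (P Q : ℕ) : SQ P Q * SQ P Q = 1 := by
  ext ⟨⟨i, a⟩, ⟨k, b⟩⟩ ⟨⟨i', a'⟩, ⟨k', b'⟩⟩
  rw [SQ_mul_apply, legs_SQ_apply, legs_one_quad, legs_one_pair, legs_one_pair]
  ring

theorem SP_SQ (P Q : ℕ) : SP P Q * SQ P Q = SQ P Q * SP P Q := by
  ext ⟨⟨i, a⟩, ⟨k, b⟩⟩ ⟨⟨i', a'⟩, ⟨k', b'⟩⟩
  rw [SP_mul_apply, SQ_mul_apply, legs_SP_apply, legs_SQ_apply]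
  ring

private theorem legs_j1_apply {P Q : ℕ} (A : MPQ P Q) (x y x' y' : Fin P × Fin Q) :
    j1 A (x, y) (x', y') = A x x' * (1 : MPQ P Q) y y' := rfl

private theorem legs_j2_apply {P Q : ℕ} (A : MPQ P Q) (x y x' y' : Fin P × Fin Q) :
    j2 A (x, y) (x', y') = (1 : MPQ P Q) x x' * A y y' := rfl

private theorem legs_lP_apply {P Q : ℕ} (c : Matrix (Fin P) (Fin P) ℂ) (i k : Fin P)
    (a b : Fin Q) : lP P Q c (i, a) (k, b) = c i k * (1 : Matrix (Fin Q) (Fin Q) ℂ) a b := rfl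

private theorem legs_lQ_apply {P Q : ℕ} (c : Matrix (Fin Q) (Fin Q) ℂ) (i k : Fin P)
    (a b : Fin Q) : lQ P Q c (i, a) (k, b) = (1 : Matrix (Fin P) (Fin P) ℂ) i k * c a b := rfl

/-- flipping both legs exchanges the two copies -/
theorem flip_j1 {P Q : ℕ} (A : MPQ P Q) :
    SP P Q * SQ P Q * j1 A = j2 A * (SP P Q * SQ P Q) := by
  ext ⟨⟨i, a⟩, ⟨k, b⟩⟩ ⟨⟨i', a'⟩, ⟨k', b'⟩⟩
  rw [Matrix.mul_assoc, SP_mul_apply, SQ_mul_apply, ← Matrix.mul_assoc, mul_SQ_apply,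
    mul_SP_apply, legs_j1_apply, legs_j2_apply]
  ring

theorem SP_j1_lQ (P Q : ℕ) (b : Matrix (Fin Q) (Fin Q) ℂ) :
    SP P Q * j1 (lQ P Q b) = j1 (lQ P Q b) * SP P Q := by
  ext ⟨⟨i, a⟩, ⟨k, c⟩⟩ ⟨⟨i', a'⟩, ⟨k', c'⟩⟩
  rw [SP_mul_apply, mul_SP_apply]
  simp only [legs_j1_apply, legs_lQ_apply, legs_one_pair]
  ring

theorem SP_j2_lQ (P Q : ℕ) (b : Matrix (Fin Q) (Fin Q) ℂ) :
    SP P Q * j2 (lQ P Q b) = j2 (lQ P Q b) * SP P Q := by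
  ext ⟨⟨i, a⟩, ⟨k, c⟩⟩ ⟨⟨i', a'⟩, ⟨k', c'⟩⟩
  rw [SP_mul_apply, mul_SP_apply]
  simp only [legs_j2_apply, legs_lQ_apply, legs_one_pair]
  ring

theorem SQ_j1_lP (P Q : ℕ) (a : Matrix (Fin P) (Fin P) ℂ) :
    SQ P Q * j1 (lP P Q a) = j1 (lP P Q a) * SQ P Q := by
  ext ⟨⟨i, d⟩, ⟨k, c⟩⟩ ⟨⟨i', d'⟩, ⟨k', c'⟩⟩
  rw [SQ_mul_apply, mul_SQ_apply]
  simp only [legs_j1_apply, legs_lP_apply, legs_one_pair]
  ring

theorem SQ_j2_lP (P Q : ℕ) (a : Matrix (Fin P) (Fin P) ℂ) :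
    SQ P Q * j2 (lP P Q a) = j2 (lP P Q a) * SQ P Q := by
  ext ⟨⟨i, d⟩, ⟨k, c⟩⟩ ⟨⟨i', d'⟩, ⟨k', c'⟩⟩
  rw [SQ_mul_apply, mul_SQ_apply]
  simp only [legs_j2_apply, legs_lP_apply, legs_one_pair]
  ring

theorem SP_j1_lP (P Q : ℕ) (a : Matrix (Fin P) (Fin P) ℂ) :
    SP P Q * j1 (lP P Q a) = j2 (lP P Q a) * SP P Q := by
  ext ⟨⟨i, d⟩, ⟨k, c⟩⟩ ⟨⟨i', d'⟩, ⟨k', c'⟩⟩
  rw [SP_mul_apply, mul_SP_apply]
  simp only [legs_j1_apply, legs_j2_apply, legs_lP_apply, legs_one_pair]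
  ring

theorem SP_j2_lP (P Q : ℕ) (a : Matrix (Fin P) (Fin P) ℂ) :
    SP P Q * j2 (lP P Q a) = j1 (lP P Q a) * SP P Q := by
  ext ⟨⟨i, d⟩, ⟨k, c⟩⟩ ⟨⟨i', d'⟩, ⟨k', c'⟩⟩
  rw [SP_mul_apply, mul_SP_apply]
  simp only [legs_j1_apply, legs_j2_apply, legs_lP_apply, legs_one_pair]
  ring

theorem SQ_j1_lQ (P Q : ℕ) (b : Matrix (Fin Q) (Fin Q) ℂ) :
    SQ P Q * j1 (lQ P Q b) = j2 (lQ P Q b) * SQ P Q := by
  ext ⟨⟨i, d⟩, ⟨k, c⟩⟩ ⟨⟨i', d'⟩, ⟨k', c'⟩⟩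
  rw [SQ_mul_apply, mul_SQ_apply]
  simp only [legs_j1_apply, legs_j2_apply, legs_lQ_apply, legs_one_pair]
  ring

theorem SQ_j2_lQ (P Q : ℕ) (b : Matrix (Fin Q) (Fin Q) ℂ) :
    SQ P Q * j2 (lQ P Q b) = j1 (lQ P Q b) * SQ P Q := by
  ext ⟨⟨i, d⟩, ⟨k, c⟩⟩ ⟨⟨i', d'⟩, ⟨k', c'⟩⟩
  rw [SQ_mul_apply, mul_SQ_apply]
  simp only [legs_j1_apply, legs_j2_apply, legs_lQ_apply, legs_one_pair]
  ring

/-! `j1`, `j2` are commuting unital star homomorphisms, isometric and continuous. -/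

theorem j1_mul {P Q : ℕ} (A B : MPQ P Q) : j1 (A * B) = j1 A * j1 B := by
  unfold j1
  rw [← Matrix.mul_kronecker_mul, Matrix.one_mul]

theorem j2_mul {P Q : ℕ} (A B : MPQ P Q) : j2 (A * B) = j2 A * j2 B := by
  unfold j2
  rw [← Matrix.mul_kronecker_mul, Matrix.one_mul]

theorem j1_one (P Q : ℕ) : j1 (1 : MPQ P Q) = 1 := Matrix.one_kronecker_one

theorem j2_one (P Q : ℕ) : j2 (1 : MPQ P Q) = 1 := Matrix.one_kronecker_one

theorem j1_sub {P Q : ℕ} (A B : MPQ P Q) : j1 (A - B) = j1 A - j1 B := by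
  ext ⟨x, y⟩ ⟨x', y'⟩
  rw [Matrix.sub_apply, legs_j1_apply, legs_j1_apply, legs_j1_apply, Matrix.sub_apply]
  ring

theorem j2_sub {P Q : ℕ} (A B : MPQ P Q) : j2 (A - B) = j2 A - j2 B := by
  ext ⟨x, y⟩ ⟨x', y'⟩
  rw [Matrix.sub_apply, legs_j2_apply, legs_j2_apply, legs_j2_apply, Matrix.sub_apply]
  ring

theorem j1_star {P Q : ℕ} (A : MPQ P Q) : j1 (star A) = star (j1 A) := by
  unfold j1
  rw [Matrix.star_eq_conjTranspose, Matrix.star_eq_conjTranspose, Matrix.conjTranspose_kronecker,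
    Matrix.conjTranspose_one]

theorem j2_star {P Q : ℕ} (A : MPQ P Q) : j2 (star A) = star (j2 A) := by
  unfold j2
  rw [Matrix.star_eq_conjTranspose, Matrix.star_eq_conjTranspose, Matrix.conjTranspose_kronecker,
    Matrix.conjTranspose_one]

theorem j1_j2 {P Q : ℕ} (A B : MPQ P Q) : j1 A * j2 B = j2 B * j1 A := by
  unfold j1 j2
  rw [← Matrix.mul_kronecker_mul, ← Matrix.mul_kronecker_mul, Matrix.one_mul, Matrix.mul_one,
    Matrix.one_mul, Matrix.mul_one]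

/-- `j1` as a star homomorphism -/
private noncomputable def legs_j1Hom (P Q : ℕ) : MPQ P Q →⋆ₙₐ[ℂ] MM P Q where
  toFun := j1
  map_smul' c A := Matrix.smul_kronecker c A _
  map_zero' := Matrix.zero_kronecker _
  map_add' A B := Matrix.add_kronecker A B _
  map_mul' := j1_mul
  map_star' := j1_star

/-- `j2` as a star homomorphism -/
private noncomputable def legs_j2Hom (P Q : ℕ) : MPQ P Q →⋆ₙₐ[ℂ] MM P Q where
  toFun := j2
  map_smul' c A := Matrix.kronecker_smul c _ A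
  map_zero' := Matrix.kronecker_zero _
  map_add' A B := Matrix.kronecker_add _ A B
  map_mul' := j2_mul
  map_star' := j2_star

/-- `j1` is a *-homomorphism of C*-algebras, hence contractive (build a `StarAlgHom` and use
`NonUnitalStarAlgHom.norm_apply_le`). -/
theorem j1_norm_le {P Q : ℕ} (A : MPQ P Q) : ‖j1 A‖ ≤ ‖A‖ :=
  NonUnitalStarAlgHom.norm_apply_le (legs_j1Hom P Q) A

theorem j2_norm_le {P Q : ℕ} (A : MPQ P Q) : ‖j2 A‖ ≤ ‖A‖ :=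
  NonUnitalStarAlgHom.norm_apply_le (legs_j2Hom P Q) A

theorem j1_continuous (P Q : ℕ) : Continuous (j1 : MPQ P Q → MM P Q) := by
  refine continuous_matrix fun x y => ?_
  change Continuous fun A : MPQ P Q => A x.1 y.1 * (1 : MPQ P Q) x.2 y.2
  exact (continuous_id.matrix_elem _ _).mul continuous_const

theorem j2_continuous (P Q : ℕ) : Continuous (j2 : MPQ P Q → MM P Q) := by
  refine continuous_matrix fun x y => ?_
  change Continuous fun A : MPQ P Q => (1 : MPQ P Q) x.1 y.1 * A x.2 y.2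
  exact continuous_const.mul (continuous_id.matrix_elem _ _)

end Crest.Agent.JS
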