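import Mathlib

/-!
# Row 117, Part F, chunks RAMP, COUNT, CLOSE: comparing sorted lists of points of `[0,1]`
-/

set_option autoImplicit false

namespace Crest.Agent.JS

/-- `1` for `K t ≤ k`, `0` for `K t ≥ k + 1/2`, linear in between -/
noncomputable def rampR (K k : ℕ) (t : ℝ) : ℝ := max 0 (min 1 (2 * k + 1 - 2 * K * t))

/-- tent function supported in `k + 1/2 ≤ K t ≤ k + 1` (height `1/2`) -/
noncomputable def bmpR (K k : ℕ) (t : ℝ) : ℝ :=
  max 0 (min (2 * K * t - (2 * k + 1)) (2 * k + 2 - 2 * K * t))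

/-- complex valued versions on the unit interval -/
noncomputable def rampC (K k : ℕ) : C(unitInterval, ℂ) :=
  ⟨fun t => ((rampR K k t : ℝ) : ℂ), by unfold rampR; fun_prop⟩

noncomputable def bmpC (K k : ℕ) : C(unitInterval, ℂ) :=
  ⟨fun t => ((bmpR K k t : ℝ) : ℂ), by unfold bmpR; fun_prop⟩

/-- the square root of `bmpR` -/
noncomputable def bmpS (K k : ℕ) : C(unitInterval, ℂ) :=
  ⟨fun t => ((Real.sqrt (bmpR K k t) : ℝ) : ℂ), by unfold bmpR; fun_prop⟩

@[simp] theorem rampC_apply (K k : ℕ) (t : unitInterval) :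
    rampC K k t = ((rampR K k t : ℝ) : ℂ) := rfl

@[simp] theorem bmpC_apply (K k : ℕ) (t : unitInterval) :
    bmpC K k t = ((bmpR K k t : ℝ) : ℂ) := rfl

@[simp] theorem bmpS_apply (K k : ℕ) (t : unitInterval) :
    bmpS K k t = ((Real.sqrt (bmpR K k t) : ℝ) : ℂ) := rfl

/-- (RAMP) elementary properties; all by unfolding, `max`/`min` case analysis and `nlinarith`. -/
theorem ramp_ge (K k : ℕ) (t : ℝ) : 0 ≤ rampR K k t := le_max_left _ _

theorem bmp_ge (K k : ℕ) (t : ℝ) : 0 ≤ bmpR K k t := le_max_left _ _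

theorem ramp_eq_one {K k : ℕ} {t : ℝ} (h : K * t ≤ k) : rampR K k t = 1 := by
  unfold rampR
  have h1 : (1 : ℝ) ≤ 2 * k + 1 - 2 * K * t := by linarith
  rw [min_eq_left h1]
  exact max_eq_right zero_le_one

theorem ramp_add_bmp_le {K k : ℕ} {t : ℝ} : rampR K k t + bmpR K k t ≤ 1 := by
  unfold rampR bmpR
  rcases le_total (2 * (K : ℝ) * t) (2 * k + 1) with h | h
  · have h2 : max 0 (min (2 * K * t - (2 * k + 1)) (2 * k + 2 - 2 * K * t)) = (0 : ℝ) :=
      max_eq_left ((min_le_left _ _).trans (by linarith))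
    have h3 : max 0 (min 1 (2 * k + 1 - 2 * K * t)) ≤ (1 : ℝ) :=
      max_le zero_le_one (min_le_left _ _)
    linarith
  · have h2 : max 0 (min 1 (2 * k + 1 - 2 * K * t)) = (0 : ℝ) :=
      max_eq_left ((min_le_right _ _).trans (by linarith))
    have h3 : max 0 (min (2 * K * t - (2 * k + 1)) (2 * k + 2 - 2 * K * t)) ≤ (1 : ℝ) :=
      max_le zero_le_one ((min_le_right _ _).trans (by linarith))
    linarith

theorem ramp_add_bmp_eq_zero {K k : ℕ} {t : ℝ} (h : (k : ℝ) + 1 ≤ K * t) :
    rampR K k t = 0 ∧ bmpR K k t = 0 := by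
  unfold rampR bmpR
  exact ⟨max_eq_left ((min_le_right _ _).trans (by linarith)),
    max_eq_left ((min_le_right _ _).trans (by linarith))⟩

/-- `bmpS ^ 2 = bmpC` -/
theorem bmpS_star_mul (K k : ℕ) : star (bmpS K k) * bmpS K k = bmpC K k := by
  ext t
  simp only [ContinuousMap.mul_apply, ContinuousMap.star_apply, bmpS_apply, bmpC_apply]
  rw [Complex.star_def, Complex.conj_ofReal, ← Complex.ofReal_mul, Real.mul_self_sqrt (bmp_ge _ _ _)]

/-- `bmpS ≠ 0` for `k < K` (value at `(k + 3/4)/K`), and it vanishes at the end points. -/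
theorem bmpS_ne_zero {K k : ℕ} (h : k < K) : bmpS K k ≠ 0 := by
  intro h0
  have hK : (0 : ℝ) < K := by
    have : 0 < K := by omega
    exact_mod_cast this
  have hk : (k : ℝ) + 1 ≤ K := by exact_mod_cast h
  have hk0 : (0 : ℝ) ≤ k := Nat.cast_nonneg k
  have hm : ((k : ℝ) + 3 / 4) / K ∈ unitInterval := by
    refine ⟨by positivity, ?_⟩
    rw [div_le_one hK]
    linarith
  have h1 := congrArg (fun f : C(unitInterval, ℂ) => f ⟨_, hm⟩) h0
  simp only [bmpS_apply, ContinuousMap.zero_apply] at h1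
  rw [Complex.ofReal_eq_zero] at h1
  have h2 : (K : ℝ) * (((k : ℝ) + 3 / 4) / K) = k + 3 / 4 := by field_simp
  have h3 : bmpR K k (((k : ℝ) + 3 / 4) / K) = 1 / 2 := by
    unfold bmpR
    rw [mul_assoc, h2]
    rw [show 2 * ((k : ℝ) + 3 / 4) - (2 * k + 1) = 1 / 2 by ring,
      show 2 * (k : ℝ) + 2 - 2 * (k + 3 / 4) = 1 / 2 by ring]
    norm_num
  rw [h3, Real.sqrt_eq_zero (by norm_num)] at h1
  norm_num at h1

theorem bmpR_zero {K k : ℕ} : bmpR K k 0 = 0 := by
  unfold bmpR
  have hk0 : (0 : ℝ) ≤ k := Nat.cast_nonneg k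
  exact max_eq_left ((min_le_left _ _).trans (by linarith))

theorem bmpR_one {K k : ℕ} (h : k < K) : bmpR K k 1 = 0 := by
  have hk : (k : ℝ) + 1 ≤ K := by exact_mod_cast h
  exact (ramp_add_bmp_eq_zero (by linarith)).2

open Classical in
private theorem Lists_up {L K k : ℕ} (x : Fin L → unitInterval) :
    ((Finset.univ.filter fun j => K * (x j : ℝ) ≤ k).card : ℝ) ≤ ∑ j, rampR K k (x j) := by
  rw [Finset.card_filter, Nat.cast_sum]
  refine Finset.sum_le_sum fun j _ => ?_
  split_ifs with h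
  · rw [ramp_eq_one h]
    simp
  · simpa using ramp_ge K k (x j)

open Classical in
private theorem Lists_dn {L K k : ℕ} (y : Fin L → unitInterval) :
    ∑ j, rampR K k (y j) + ∑ j, bmpR K k (y j) ≤
      ((Finset.univ.filter fun j => K * (y j : ℝ) < k + 1).card : ℝ) := by
  rw [Finset.card_filter, Nat.cast_sum, ← Finset.sum_add_distrib]
  refine Finset.sum_le_sum fun j _ => ?_
  split_ifs with h
  · simpa using ramp_add_bmp_le (K := K) (k := k) (t := y j)
  · push Not at h
    obtain ⟨h1, h2⟩ := ramp_add_bmp_eq_zero h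
    rw [h1, h2]
    simp

open Classical in
/-- (COUNT) `#{x j ≤ k/K} ≤ ∑ ramp (x j) ≤ ∑ ramp (y j) + ∑ bmp (y j) ≤ #{y j < (k+1)/K}`. -/
theorem count_le {L K k : ℕ} (x y : Fin L → unitInterval)
    (h : ∑ j, rampR K k (x j) - ∑ j, rampR K k (y j) ≤ ∑ j, bmpR K k (y j)) :
    (Finset.univ.filter fun j => K * (x j : ℝ) ≤ k).card ≤
      (Finset.univ.filter fun j => K * (y j : ℝ) < k + 1).card := by
  have h1 := Lists_up (K := K) (k := k) x
  have h2 := Lists_dn (K := K) (k := k) y
  have h3 : ((Finset.univ.filter fun j => K * (x j : ℝ) ≤ k).card : ℝ) ≤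
      ((Finset.univ.filter fun j => K * (y j : ℝ) < k + 1).card : ℝ) := by linarith
  exact_mod_cast h3

open Classical in
/-- (COUNT') the same if the difference of the ramp sums is `< 1` (integrality). -/
theorem count_le' {L K k : ℕ} (x y : Fin L → unitInterval)
    (h : ∑ j, rampR K k (x j) - ∑ j, rampR K k (y j) < 1) :
    (Finset.univ.filter fun j => K * (x j : ℝ) ≤ k).card ≤
      (Finset.univ.filter fun j => K * (y j : ℝ) < k + 1).card := by
  have h1 := Lists_up (K := K) (k := k) x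
  have h2 := Lists_dn (K := K) (k := k) y
  have h4 : 0 ≤ ∑ j, bmpR K k (y j) := Finset.sum_nonneg fun j _ => bmp_ge _ _ _
  have h3 : ((Finset.univ.filter fun j => K * (x j : ℝ) ≤ k).card : ℝ) <
      ((Finset.univ.filter fun j => K * (y j : ℝ) < k + 1).card : ℝ) + 1 := by linarith
  have h5 : (Finset.univ.filter fun j => K * (x j : ℝ) ≤ k).card <
      (Finset.univ.filter fun j => K * (y j : ℝ) < k + 1).card + 1 := by exact_mod_cast h3
  omega

open Classical in
/-- (CLOSE) one-sided comparison of sorted lists.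

Proof.  Let `k = ⌈K x_j⌉₊`, so `K x_j ≤ k < K x_j + 1`.  If `k ≥ K` then `K y_j ≤ K ≤ k`.
If `k < K`: the set `{i | K x_i ≤ k}` contains `{i | i ≤ j}` (monotone), so it has at least `j + 1`
elements, so `{i | K y_i < k + 1}` has at least `j + 1` elements and contains some `i ≥ j`
(otherwise it is contained in `{i | i < j}` of size `j`), so
`K y_j ≤ K y_i < k + 1 < K x_j + 2`. -/
theorem lists_le {L K : ℕ} (hK : 0 < K) (x y : Fin L → unitInterval) (hx : Monotone x)
    (hy : Monotone y)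
    (h : ∀ k < K, (Finset.univ.filter fun j => K * (x j : ℝ) ≤ k).card ≤
      (Finset.univ.filter fun j => K * (y j : ℝ) < k + 1).card) (j : Fin L) :
    (y j : ℝ) ≤ x j + 2 / K := by
  have hKr : (0 : ℝ) < K := by exact_mod_cast hK
  have hx0 : (0 : ℝ) ≤ x j := (x j).2.1
  have hy1 : (y j : ℝ) ≤ 1 := (y j).2.2
  obtain ⟨k, hk⟩ : ∃ k : ℕ, k = ⌈(K : ℝ) * x j⌉₊ := ⟨_, rfl⟩
  have k1 : (K : ℝ) * x j ≤ k := by rw [hk]; exact Nat.le_ceil _
  have k2 : (k : ℝ) < K * x j + 1 := by rw [hk]; exact Nat.ceil_lt_add_one (by positivity)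
  have key : (K : ℝ) * y j ≤ K * x j + 2 := by
    rcases le_or_gt K k with hle | hlt
    · have hle' : (K : ℝ) ≤ k := by exact_mod_cast hle
      nlinarith
    · have hc := h k hlt
      have c1 : (j : ℕ) + 1 ≤ (Finset.univ.filter fun j => K * (x j : ℝ) ≤ k).card := by
        have hsub : Finset.Iic j ⊆ (Finset.univ.filter fun j => K * (x j : ℝ) ≤ k) := by
          intro i hi
          rw [Finset.mem_Iic] at hi
          rw [Finset.mem_filter]
          refine ⟨Finset.mem_univ _, ?_⟩
          have hxi : (x i : ℝ) ≤ x j := hx hi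
          have := mul_le_mul_of_nonneg_left hxi hKr.le
          linarith
        have hcard := Finset.card_le_card hsub
        rwa [Fin.card_Iic] at hcard
      have c2 : ∃ i : Fin L, j ≤ i ∧ (K : ℝ) * y i < k + 1 := by
        by_contra hne
        push Not at hne
        have hsub : (Finset.univ.filter fun j => K * (y j : ℝ) < k + 1) ⊆ Finset.Iio j := by
          intro i hi
          rw [Finset.mem_filter] at hi
          rw [Finset.mem_Iio]
          by_contra hji
          exact absurd hi.2 (not_lt.2 (hne i (not_lt.1 hji)))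
        have hcard := Finset.card_le_card hsub
        rw [Fin.card_Iio] at hcard
        omega
      obtain ⟨i, hji, hi⟩ := c2
      have hyi : (y j : ℝ) ≤ y i := hy hji
      have := mul_le_mul_of_nonneg_left hyi hKr.le
      linarith
  have h2 : (x j : ℝ) + 2 / K = (K * x j + 2) / K := by field_simp
  rw [h2, le_div_iff₀ hKr]
  linarith

end Crest.Agent.JS
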