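import Crest.Agent.JS.F.Std
import Crest.Agent.JS.F.Family

/-!
# Row 117, Part F, chunks NF1, NF2, NF3: normal form of a representation of `I[p,q]`
-/

set_option autoImplicit false

namespace Crest.Agent.JS

open Crest.AnalysisR.CStar
open scoped Kronecker Matrix.Norms.L2Operator

/-- cast for codes of type `z` -/
def eqvZ {p q : ℕ} {c : Code} (h : c = .z) : Fin p ≃ c.Ix p q := by
  subst h; exact Equiv.refl _

/-- cast for codes of type `o` -/
def eqvO {p q : ℕ} {c : Code} (h : c = .o) : Fin q ≃ c.Ix p q := by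
  subst h; exact Equiv.refl _

/-- cast for codes of type `m` -/
def eqvM {p q : ℕ} {c : Code} {x : unitInterval} (h : c = .m x) : (Fin p × Fin q) ≃ c.Ix p q := by
  subst h; exact Equiv.refl _

theorem rep_eqvZ {p q : ℕ} (hp : 0 < p) (hq : 0 < q) {c : Code} (h : c = .z)
    (f : dimDrop p q) (a b : Fin p) :
    c.rep hp hq f (eqvZ h a) (eqvZ h b) = lftM p q (f.1 0) a b := by
  subst h; rfl

theorem rep_eqvO {p q : ℕ} (hp : 0 < p) (hq : 0 < q) {c : Code} (h : c = .o)
    (f : dimDrop p q) (a b : Fin q) :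
    c.rep hp hq f (eqvO h a) (eqvO h b) = rgtM p q (f.1 1) a b := by
  subst h; rfl

theorem rep_eqvM {p q : ℕ} (hp : 0 < p) (hq : 0 < q) {c : Code} {x : unitInterval} (h : c = .m x)
    (f : dimDrop p q) (a b : Fin p × Fin q) :
    c.rep hp hq f (eqvM h a) (eqvM h b) = f.1 x a b := by
  subst h; rfl

theorem code_absurd {n : ℕ} {c : Fin n → Code} {k l : Fin n} (h : k = l) {A B : Code}
    (hk : c k = A) (hl : c l = B) (hne : A ≠ B) : False :=
  hne (hk.symm.trans ((congrArg c h).trans hl))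

theorem sig_aux_z {p q n : ℕ} (c : Fin n → Code) (v : {k // c k = .z}) (a : (c v.1).Ix p q)
    (u : {k // c k = .z}) (h : u = v) :
    (⟨u.1, eqvZ u.2 ((eqvZ v.2).symm a)⟩ : Σ k, (c k).Ix p q) = ⟨v.1, a⟩ := by
  subst h; simp

theorem sig_aux_o {p q n : ℕ} (c : Fin n → Code) (v : {k // c k = .o}) (a : (c v.1).Ix p q)
    (u : {k // c k = .o}) (h : u = v) :
    (⟨u.1, eqvO u.2 ((eqvO v.2).symm a)⟩ : Σ k, (c k).Ix p q) = ⟨v.1, a⟩ := by
  subst h; simp

theorem sig_aux_m {p q n : ℕ} (c : Fin n → Code) (v : {k // ∃ x, c k = .m x})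
    (a : (c v.1).Ix p q) (u : {k // ∃ x, c k = .m x}) (h : u = v) :
    (⟨u.1, eqvM u.2.choose_spec ((eqvM v.2.choose_spec).symm a)⟩ : Σ k, (c k).Ix p q) =
      ⟨v.1, a⟩ := by
  subst h; simp

/-- the index map from the standard representation to the sigma type of a family -/
noncomputable def sigFun {p q n : ℕ} (c : Fin n → Code) {κ₀ κ₁ κ : Type}
    (e₀ : κ₀ ≃ {k // c k = .z}) (e₁ : κ₁ ≃ {k // c k = .o})
    (e : κ ≃ {k // ∃ x, c k = .m x}) :
    SIx p q κ₀ κ₁ κ → Σ k, (c k).Ix p q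
  | Sum.inl (a, k) => ⟨(e₀ k).1, eqvZ (e₀ k).2 a⟩
  | Sum.inr (Sum.inl (a, k)) => ⟨(e₁ k).1, eqvO (e₁ k).2 a⟩
  | Sum.inr (Sum.inr (a, k)) => ⟨(e k).1, eqvM (e k).2.choose_spec a⟩

theorem sigFun_bijective {p q n : ℕ} (c : Fin n → Code) {κ₀ κ₁ κ : Type}
    (e₀ : κ₀ ≃ {k // c k = .z}) (e₁ : κ₁ ≃ {k // c k = .o})
    (e : κ ≃ {k // ∃ x, c k = .m x}) :
    Function.Bijective (sigFun (p := p) (q := q) c e₀ e₁ e) := by
  have key : ∀ {k l : Fin n} (h : k = l) (a : (c k).Ix p q) (b : (c l).Ix p q),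
      (⟨k, a⟩ : Σ k, (c k).Ix p q) = ⟨l, b⟩ → h ▸ a = b := by
    intro k l h a b hab
    subst h
    simpa using hab
  constructor
  · rintro (⟨a, k⟩ | ⟨a, k⟩ | ⟨a, k⟩) (⟨b, l⟩ | ⟨b, l⟩ | ⟨b, l⟩) h
    · simp only [sigFun] at h
      have h1 : (e₀ k).1 = (e₀ l).1 := congrArg Sigma.fst h
      have h2 : k = l := e₀.injective (Subtype.ext h1)
      subst h2
      have h3 := key rfl _ _ h
      have h4 : a = b := (eqvZ (e₀ k).2).injective h3
      rw [h4]
    · simp only [sigFun] at h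
      have h1 : (e₀ k).1 = (e₁ l).1 := congrArg Sigma.fst h
      exact False.elim <| code_absurd h1 (e₀ k).2 (e₁ l).2 (fun h => by cases h)
    · simp only [sigFun] at h
      have h1 : (e₀ k).1 = (e l).1 := congrArg Sigma.fst h
      exact False.elim <| code_absurd h1 (e₀ k).2 (e l).2.choose_spec (fun h => by cases h)
    · simp only [sigFun] at h
      have h1 : (e₁ k).1 = (e₀ l).1 := congrArg Sigma.fst h
      exact False.elim <| code_absurd h1 (e₁ k).2 (e₀ l).2 (fun h => by cases h)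
    · simp only [sigFun] at h
      have h1 : (e₁ k).1 = (e₁ l).1 := congrArg Sigma.fst h
      have h2 : k = l := e₁.injective (Subtype.ext h1)
      subst h2
      have h3 := key rfl _ _ h
      have h4 : a = b := (eqvO (e₁ k).2).injective h3
      rw [h4]
    · simp only [sigFun] at h
      have h1 : (e₁ k).1 = (e l).1 := congrArg Sigma.fst h
      exact False.elim <| code_absurd h1 (e₁ k).2 (e l).2.choose_spec (fun h => by cases h)
    · simp only [sigFun] at h
      have h1 : (e k).1 = (e₀ l).1 := congrArg Sigma.fst h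
      exact False.elim <| code_absurd h1 (e k).2.choose_spec (e₀ l).2 (fun h => by cases h)
    · simp only [sigFun] at h
      have h1 : (e k).1 = (e₁ l).1 := congrArg Sigma.fst h
      exact False.elim <| code_absurd h1 (e k).2.choose_spec (e₁ l).2 (fun h => by cases h)
    · simp only [sigFun] at h
      have h1 : (e k).1 = (e l).1 := congrArg Sigma.fst h
      have h2 : k = l := e.injective (Subtype.ext h1)
      subst h2
      have h3 := key rfl _ _ h
      have h4 : a = b := (eqvM (e k).2.choose_spec).injective h3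
      rw [h4]
  · rintro ⟨k, a⟩
    rcases hc : c k with _ | _ | x
    · refine ⟨Sum.inl ((eqvZ (p := p) (q := q) hc).symm a, e₀.symm ⟨k, hc⟩), ?_⟩
      exact sig_aux_z c ⟨k, hc⟩ a _ (e₀.apply_symm_apply _)
    · refine ⟨Sum.inr (Sum.inl ((eqvO (p := p) (q := q) hc).symm a, e₁.symm ⟨k, hc⟩)), ?_⟩
      exact sig_aux_o c ⟨k, hc⟩ a _ (e₁.apply_symm_apply _)
    · have hx : ∃ x, c k = .m x := ⟨x, hc⟩
      refine ⟨Sum.inr (Sum.inr ((eqvM (p := p) (q := q) hx.choose_spec).symm a,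
        e.symm ⟨k, hx⟩)), ?_⟩
      exact sig_aux_m c ⟨k, hx⟩ a _ (e.apply_symm_apply _)

theorem sigFun_std {p q n : ℕ} (hp : 0 < p) (hq : 0 < q) (c : Fin n → Code) {κ₀ κ₁ κ : Type}
    [Fintype κ₀] [DecidableEq κ₀] [Fintype κ₁] [DecidableEq κ₁] [Fintype κ] [DecidableEq κ]
    (e₀ : κ₀ ≃ {k // c k = .z}) (e₁ : κ₁ ≃ {k // c k = .o})
    (e : κ ≃ {k // ∃ x, c k = .m x}) (f : dimDrop p q) :
    (Matrix.blockDiagonal' fun k => (c k).rep hp hq f).submatrix
        (sigFun (p := p) (q := q) c e₀ e₁ e) (sigFun (p := p) (q := q) c e₀ e₁ e) =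
      stdRep hp hq κ₀ κ₁ (fun k => (e k).2.choose) f := by
  ext u v
  rw [stdRep_apply]
  rcases u with (⟨a, k⟩ | ⟨a, k⟩ | ⟨a, k⟩) <;> rcases v with (⟨b, l⟩ | ⟨b, l⟩ | ⟨b, l⟩)
  · simp only [Matrix.submatrix_apply, sigFun, stdM, Matrix.fromBlocks_apply₁₁,
      Matrix.blockDiagonal_apply]
    by_cases h : k = l
    · subst h
      simp only [if_true]
      rw [Matrix.blockDiagonal'_apply_eq, rep_eqvZ]
    · rw [if_neg h, Matrix.blockDiagonal'_apply_ne]
      intro h1
      exact h (e₀.injective (Subtype.ext h1))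
  · simp only [Matrix.submatrix_apply, sigFun, stdM, Matrix.fromBlocks_apply₁₂]
    rw [Matrix.blockDiagonal'_apply_ne]
    · rfl
    · intro h1
      exact False.elim <| code_absurd h1 (e₀ k).2 (e₁ l).2 (fun h => by cases h)
  · simp only [Matrix.submatrix_apply, sigFun, stdM, Matrix.fromBlocks_apply₁₂]
    rw [Matrix.blockDiagonal'_apply_ne]
    · rfl
    · intro h1
      exact False.elim <| code_absurd h1 (e₀ k).2 (e l).2.choose_spec (fun h => by cases h)
  · simp only [Matrix.submatrix_apply, sigFun, stdM, Matrix.fromBlocks_apply₂₁]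
    rw [Matrix.blockDiagonal'_apply_ne]
    · rfl
    · intro h1
      exact False.elim <| code_absurd h1 (e₁ k).2 (e₀ l).2 (fun h => by cases h)
  · simp only [Matrix.submatrix_apply, sigFun, stdM, Matrix.fromBlocks_apply₁₁,
      Matrix.fromBlocks_apply₂₂, Matrix.blockDiagonal_apply]
    by_cases h : k = l
    · subst h
      simp only [if_true]
      rw [Matrix.blockDiagonal'_apply_eq, rep_eqvO]
    · rw [if_neg h, Matrix.blockDiagonal'_apply_ne]
      intro h1
      exact h (e₁.injective (Subtype.ext h1))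
  · simp only [Matrix.submatrix_apply, sigFun, stdM, Matrix.fromBlocks_apply₁₂,
      Matrix.fromBlocks_apply₂₂]
    rw [Matrix.blockDiagonal'_apply_ne]
    · rfl
    · intro h1
      exact False.elim <| code_absurd h1 (e₁ k).2 (e l).2.choose_spec (fun h => by cases h)
  · simp only [Matrix.submatrix_apply, sigFun, stdM, Matrix.fromBlocks_apply₂₁]
    rw [Matrix.blockDiagonal'_apply_ne]
    · rfl
    · intro h1
      exact False.elim <| code_absurd h1 (e k).2.choose_spec (e₀ l).2 (fun h => by cases h)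
  · simp only [Matrix.submatrix_apply, sigFun, stdM, Matrix.fromBlocks_apply₂₁,
      Matrix.fromBlocks_apply₂₂]
    rw [Matrix.blockDiagonal'_apply_ne]
    · rfl
    · intro h1
      exact False.elim <| code_absurd h1 (e k).2.choose_spec (e₁ l).2 (fun h => by cases h)
  · simp only [Matrix.submatrix_apply, sigFun, stdM,
      Matrix.fromBlocks_apply₂₂, Matrix.blockDiagonal_apply]
    by_cases h : k = l
    · subst h
      simp only [if_true]
      rw [Matrix.blockDiagonal'_apply_eq, rep_eqvM]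
    · rw [if_neg h, Matrix.blockDiagonal'_apply_ne]
      intro h1
      exact h (e.injective (Subtype.ext h1))

/-- (NF1) From a complete family to a unitary equivalence with a standard representation.

Proof.  Take `(n, c, T)` from `exists_complete_family`.  Index types: `κ₀ = {k // c k = .z}`,
`κ₁ = {k // c k = .o}`, `κ = {k // ∃ x, c k = .m x}` (then transport to `Fin` by
`Fintype.equivFin`; it may be easier to first prove the statement with
`∃ κ₀ κ₁ κ : Type, Fintype, DecidableEq`, see `exists_std_types` below).  The matrix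
`U : Matrix ι (SIx ..) ℂ` has the columns `U (i, Sum.inl (a, k)) = T k i a` etc. (use a cast of
`a : Fin p` to `(c k).Ix p q`).  `Uᴴ U = 1` by orthogonality, `U Uᴴ = ∑ k, T k (T k)ᴴ = 1`,
`φ f * U = U * stdRep f`, so `φ f = φ f * U * Uᴴ = U * stdRep f * Uᴴ`. -/
theorem exists_std_types {p q : ℕ} (hp : 0 < p) (hq : 0 < q) {ι : Type} [Fintype ι]
    [DecidableEq ι] (φ : dimDrop p q →⋆ₐ[ℂ] Matrix ι ι ℂ) :
    ∃ (n₀ n₁ n : ℕ) (x : Fin n → unitInterval)
      (U : Matrix ι (SIx p q (Fin n₀) (Fin n₁) (Fin n)) ℂ),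
      U.conjTranspose * U = 1 ∧ U * U.conjTranspose = 1 ∧
      ∀ f, φ f = U * stdRep hp hq (Fin n₀) (Fin n₁) x f * U.conjTranspose := by
  classical
  obtain ⟨n, c, T, hT, hsum⟩ := exists_complete_family hp hq φ
  let e₀ := (Fintype.equivFin {k // c k = .z}).symm
  let e₁ := (Fintype.equivFin {k // c k = .o}).symm
  let e := (Fintype.equivFin {k // ∃ x, c k = .m x}).symm
  let U₀ : Matrix ι (Σ k, (c k).Ix p q) ℂ := Matrix.of fun i u => T u.1 i u.2
  let σ : SIx p q (Fin _) (Fin _) (Fin _) ≃ Σ k, (c k).Ix p q :=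
    Equiv.ofBijective _ (sigFun_bijective (p := p) (q := q) c e₀ e₁ e)
  have hU1 : U₀.conjTranspose * U₀ = 1 := by
    ext ⟨k, a⟩ ⟨l, b⟩
    have h1 : (U₀.conjTranspose * U₀) ⟨k, a⟩ ⟨l, b⟩ = ((T k).conjTranspose * T l) a b := rfl
    rw [h1]
    by_cases h : k = l
    · subst h
      rw [hT.isom, Matrix.one_apply, Matrix.one_apply]
      simp
    · rw [hT.orth k l h, Matrix.one_apply, if_neg]
      · rfl
      · intro h2
        exact h (congrArg Sigma.fst h2)
  have hU2 : U₀ * U₀.conjTranspose = 1 := by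
    rw [← hsum]
    ext i j
    rw [Matrix.mul_apply, Matrix.sum_apply]
    simp only [Matrix.mul_apply]
    rw [← Finset.univ_sigma_univ, Finset.sum_sigma]
    rfl
  have hU3 : ∀ f, φ f * U₀ = U₀ * Matrix.blockDiagonal' fun k => (c k).rep hp hq f := by
    intro f
    ext i ⟨l, b⟩
    have h1 : (φ f * U₀) i ⟨l, b⟩ = (φ f * T l) i b := rfl
    rw [h1, hT.inter l f, Matrix.mul_apply, Matrix.mul_apply, ← Finset.univ_sigma_univ,
      Finset.sum_sigma, Finset.sum_eq_single l]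
    · simp only [Matrix.blockDiagonal'_apply_eq]
      rfl
    · intro k _ hk
      refine Finset.sum_eq_zero fun a _ => ?_
      rw [Matrix.blockDiagonal'_apply_ne _ _ _ hk, mul_zero]
    · intro h; exact absurd (Finset.mem_univ _) h
  refine ⟨_, _, _, fun k => (e k).2.choose, U₀.submatrix id σ, ?_, ?_, ?_⟩
  · have h1 := Matrix.submatrix_mul_equiv (M := U₀.conjTranspose) (N := U₀) (e₁ := σ)
      (e₂ := Equiv.refl ι) (e₃ := σ)
    rw [hU1, Matrix.submatrix_one_equiv] at h1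
    exact h1
  · rw [Matrix.conjTranspose_submatrix, Matrix.submatrix_mul_equiv, hU2, Matrix.submatrix_id_id]
  · intro f
    have h1 : stdRep hp hq (Fin _) (Fin _) (fun k => (e k).2.choose) f =
        (Matrix.blockDiagonal' fun k => (c k).rep hp hq f).submatrix σ σ :=
      (sigFun_std hp hq c e₀ e₁ e f).symm
    rw [h1, Matrix.conjTranspose_submatrix, Matrix.submatrix_mul_equiv,
      Matrix.submatrix_mul_equiv, Matrix.submatrix_id_id, ← hU3, Matrix.mul_assoc, hU2,
      Matrix.mul_one]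

/-- the reindexing of `std_trade` -/
def nf2Equiv (p q a b r₀ r₁ n : ℕ) :
    SIx p q ((Fin a × Fin q) ⊕ Fin r₀) ((Fin b × Fin p) ⊕ Fin r₁) (Fin n) ≃
        SIx p q (Fin r₀) (Fin r₁) (Fin a ⊕ (Fin n ⊕ Fin b)) where
  toFun
    | .inl (i, .inl (k, j)) => .inr (.inr ((i, j), .inl k))
    | .inl (i, .inr k) => .inl (i, k)
    | .inr (.inl (j, .inl (k, i))) => .inr (.inr ((i, j), .inr (.inr k)))
    | .inr (.inl (j, .inr k)) => .inr (.inl (j, k))
    | .inr (.inr (ij, k)) => .inr (.inr (ij, .inr (.inl k)))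
  invFun
    | .inl (i, k) => .inl (i, .inr k)
    | .inr (.inl (j, k)) => .inr (.inl (j, .inr k))
    | .inr (.inr ((i, j), .inl k)) => .inl (i, .inl (k, j))
    | .inr (.inr (ij, .inr (.inl k))) => .inr (.inr (ij, k))
    | .inr (.inr ((i, j), .inr (.inr k))) => .inr (.inl (j, .inl (k, i)))
  left_inv := by
    rintro (⟨i, ⟨k, j⟩ | k⟩ | ⟨j, ⟨k, i⟩ | k⟩ | ⟨⟨i, j⟩, k⟩) <;> rfl
  right_inv := by
    rintro (⟨i, k⟩ | ⟨j, k⟩ | ⟨⟨i, j⟩, k | k | k⟩) <;> rfl

/-- (NF2) Trading `q` copies of the left end point representation for one evaluation at `0`, and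
`p` copies of the right end point representation for one evaluation at `1`: exact equality of
matrices after reindexing.

Proof.  `Fin p × ((Fin a × Fin q) ⊕ Fin r₀)` etc.: the equivalence `σ` sends `(i, inl (k, j))` to
the third block at `((i, j), inl k)`, `(i, inr k)` to the first block, the index
`(j, inl (k, i))` of the second block (`j : Fin q`, `k : Fin b`, `i : Fin p`) to the third block
at `((i, j), inr (inr k))`, and so on.  The equality of matrices is checked entrywise using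
`f.1 0 = lftM (f.1 0) ⊗ₖ 1`, `f.1 1 = 1 ⊗ₖ rgtM (f.1 1)` (`dimDrop_zero`, `dimDrop_one`). -/
theorem std_trade {p q : ℕ} (hp : 0 < p) (hq : 0 < q) (a b r₀ r₁ n : ℕ)
    (x : Fin n → unitInterval) :
    ∃ σ : SIx p q ((Fin a × Fin q) ⊕ Fin r₀) ((Fin b × Fin p) ⊕ Fin r₁) (Fin n) ≃
        SIx p q (Fin r₀) (Fin r₁) (Fin a ⊕ (Fin n ⊕ Fin b)),
      ∀ f, stdRep hp hq ((Fin a × Fin q) ⊕ Fin r₀) ((Fin b × Fin p) ⊕ Fin r₁) x f =
        (stdRep hp hq (Fin r₀) (Fin r₁)
          (Sum.elim (fun _ => (0 : unitInterval)) (Sum.elim x (fun _ => (1 : unitInterval)))) f).submatrix σ σ := by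
  refine ⟨nf2Equiv p q a b r₀ r₁ n, fun f => ?_⟩
  have h0 : ∀ i j i' j', f.1 0 (i, j) (i', j') =
      if j = j' then lftM p q (f.1 0) i i' else 0 := by
    intro i j i' j'
    have h := congrFun (congrFun (dimDrop_zero hq f) (i, j)) (i', j')
    rw [h]
    show lftM p q (f.1 0) i i' * (1 : Matrix (Fin q) (Fin q) ℂ) j j' = _
    rw [Matrix.one_apply, mul_ite, mul_one, mul_zero]
  have h1 : ∀ i j i' j', f.1 1 (i, j) (i', j') =
      if i = i' then rgtM p q (f.1 1) j j' else 0 := by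
    intro i j i' j'
    have h := congrFun (congrFun (dimDrop_one hp f) (i, j)) (i', j')
    rw [h]
    show (1 : Matrix (Fin p) (Fin p) ℂ) i i' * rgtM p q (f.1 1) j j' = _
    rw [Matrix.one_apply, ite_mul, one_mul, zero_mul]
  rw [stdRep_apply, stdRep_apply]
  unfold stdM
  generalize lftM p q (f.1 0) = L at h0 ⊢
  generalize rgtM p q (f.1 1) = R at h1 ⊢
  ext u v
  rcases u with ⟨i, ⟨k, j⟩ | k⟩ | ⟨j, ⟨k, i⟩ | k⟩ | ⟨⟨i, j⟩, k⟩ <;>
  rcases v with ⟨i', ⟨k', j'⟩ | k'⟩ | ⟨j', ⟨k', i'⟩ | k'⟩ | ⟨⟨i', j'⟩, k'⟩ <;>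
  simp [nf2Equiv, Matrix.submatrix, Matrix.blockDiagonal_apply, h0, h1, ite_and]

/-- (NF2') Reindexing of the multiplicity types. -/
theorem std_reindex {p q : ℕ} (hp : 0 < p) (hq : 0 < q) {κ₀ κ₁ κ κ₀' κ₁' κ' : Type}
    [Fintype κ₀] [DecidableEq κ₀] [Fintype κ₁] [DecidableEq κ₁] [Fintype κ] [DecidableEq κ]
    [Fintype κ₀'] [DecidableEq κ₀'] [Fintype κ₁'] [DecidableEq κ₁'] [Fintype κ'] [DecidableEq κ']
    (e₀ : κ₀ ≃ κ₀') (e₁ : κ₁ ≃ κ₁') (e : κ ≃ κ') (x : κ' → unitInterval) :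
    ∃ σ : SIx p q κ₀ κ₁ κ ≃ SIx p q κ₀' κ₁' κ',
      ∀ f, stdRep hp hq κ₀ κ₁ (fun k => x (e k)) f =
        (stdRep hp hq κ₀' κ₁' x f).submatrix σ σ := by
  refine ⟨Equiv.sumCongr (Equiv.prodCongr (Equiv.refl _) e₀)
    (Equiv.sumCongr (Equiv.prodCongr (Equiv.refl _) e₁) (Equiv.prodCongr (Equiv.refl _) e)),
    fun f => ?_⟩
  rw [stdRep_apply, stdRep_apply]
  unfold stdM
  ext u v
  rcases u with ⟨i, k⟩ | ⟨j, k⟩ | ⟨i, k⟩ <;>
  rcases v with ⟨i', k'⟩ | ⟨j', k'⟩ | ⟨i', k'⟩ <;>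
  simp [Matrix.submatrix, Matrix.blockDiagonal_apply]

/-- (NF3) Normal form: less than `q` copies of the left end point representation, less than `p`
copies of the right one, sorted evaluation points.

Proof.  Start from `exists_std_types`; write `n₀ = q * a + r₀`, `n₁ = p * b + r₁`
(`Nat.div_add_mod`), reindex `Fin n₀ ≃ (Fin a × Fin q) ⊕ Fin r₀`
(`finProdFinEquiv`, `finSumFinEquiv`, `finCongr`; or `Fintype.equivOfCardEq`), use `std_reindex`,
`std_trade`, then sort: `Tuple.sort` gives a permutation of `Fin L` making the list of points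
monotone (compose with an equivalence `Fin L ≃ Fin a ⊕ (Fin n ⊕ Fin b)`), and `std_reindex` again.
The unitary is changed by `U.submatrix id σ`. -/
theorem exists_std {p q : ℕ} (hp : 0 < p) (hq : 0 < q) {ι : Type} [Fintype ι]
    [DecidableEq ι] (φ : dimDrop p q →⋆ₐ[ℂ] Matrix ι ι ℂ) :
    ∃ (r₀ r₁ L : ℕ) (x : Fin L → unitInterval)
      (U : Matrix ι (SIx p q (Fin r₀) (Fin r₁) (Fin L)) ℂ),
      r₀ < q ∧ r₁ < p ∧ Monotone x ∧
      U.conjTranspose * U = 1 ∧ U * U.conjTranspose = 1 ∧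
      ∀ f, φ f = U * stdRep hp hq (Fin r₀) (Fin r₁) x f * U.conjTranspose := by
  obtain ⟨n₀, n₁, n, x, U, hU1, hU2, hφ⟩ := exists_std_types hp hq φ
  have c0 : Fintype.card (Fin n₀) = Fintype.card ((Fin (n₀ / q) × Fin q) ⊕ Fin (n₀ % q)) := by
    simp only [Fintype.card_fin, Fintype.card_sum, Fintype.card_prod]
    exact (Nat.div_add_mod' n₀ q).symm
  have c1 : Fintype.card (Fin n₁) = Fintype.card ((Fin (n₁ / p) × Fin p) ⊕ Fin (n₁ % p)) := by
    simp only [Fintype.card_fin, Fintype.card_sum, Fintype.card_prod]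
    exact (Nat.div_add_mod' n₁ p).symm
  have c2 : Fintype.card (Fin (n₀ / q) ⊕ (Fin n ⊕ Fin (n₁ / p))) =
      Fintype.card (Fin (n₀ / q + (n + n₁ / p))) := by
    simp only [Fintype.card_fin, Fintype.card_sum]
  set y : Fin (n₀ / q) ⊕ (Fin n ⊕ Fin (n₁ / p)) → unitInterval :=
    Sum.elim (fun _ => (0 : unitInterval)) (Sum.elim x (fun _ => (1 : unitInterval))) with hy
  let e' := Fintype.equivOfCardEq c2
  let y' : Fin (n₀ / q + (n + n₁ / p)) → unitInterval := fun k => y (e'.symm k)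
  obtain ⟨σ1, h1⟩ := std_reindex hp hq (Fintype.equivOfCardEq c0) (Fintype.equivOfCardEq c1)
    (Equiv.refl (Fin n)) x
  obtain ⟨σ2, h2⟩ := std_trade hp hq (n₀ / q) (n₁ / p) (n₀ % q) (n₁ % p) n x
  obtain ⟨σ3, h3⟩ := std_reindex hp hq (Equiv.refl (Fin (n₀ % q))) (Equiv.refl (Fin (n₁ % p)))
    (e'.trans (Tuple.sort y').symm) (fun k => y' (Tuple.sort y' k))
  have h3y : (fun k => y' (Tuple.sort y' ((e'.trans (Tuple.sort y').symm) k))) = y := by
    funext k
    simp [y']
  rw [h3y] at h3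
  let σ := σ1.trans (σ2.trans σ3)
  have hS : ∀ f, stdRep hp hq (Fin n₀) (Fin n₁) x f =
      (stdRep hp hq (Fin (n₀ % q)) (Fin (n₁ % p)) (fun k => y' (Tuple.sort y' k)) f).submatrix
        σ σ := by
    intro f
    have a1 := h1 f
    have a2 := h2 f
    have a3 := h3 f
    rw [← hy] at a2
    rw [a3, Matrix.submatrix_submatrix] at a2
    have a4 : stdRep hp hq (Fin n₀) (Fin n₁) x f =
      (stdRep hp hq ((Fin (n₀ / q) × Fin q) ⊕ Fin (n₀ % q))
        ((Fin (n₁ / p) × Fin p) ⊕ Fin (n₁ % p)) x f).submatrix σ1 σ1 := a1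
    rw [a4, a2, Matrix.submatrix_submatrix]
    rfl
  have hN : ∀ N : Matrix (SIx p q (Fin n₀) (Fin n₁) (Fin n))
      (SIx p q (Fin n₀) (Fin n₁) (Fin n)) ℂ,
      (U.submatrix id σ.symm) * (N.submatrix σ.symm σ.symm) *
        (U.submatrix id σ.symm).conjTranspose = U * N * U.conjTranspose := by
    intro N
    rw [Matrix.conjTranspose_submatrix, Matrix.submatrix_mul_equiv, Matrix.submatrix_mul_equiv,
      Matrix.submatrix_id_id]
  refine ⟨n₀ % q, n₁ % p, n₀ / q + (n + n₁ / p), fun k => y' (Tuple.sort y' k),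
    U.submatrix id σ.symm, Nat.mod_lt _ hq, Nat.mod_lt _ hp, Tuple.monotone_sort y', ?_, ?_, ?_⟩
  · rw [Matrix.conjTranspose_submatrix, ← Matrix.submatrix_mul _ _ σ.symm id σ.symm
      Function.bijective_id, hU1, Matrix.submatrix_one_equiv]
  · rw [Matrix.conjTranspose_submatrix, Matrix.submatrix_mul_equiv, hU2, Matrix.submatrix_id_id]
  · intro f
    rw [hφ f, hS f, ← hN, Matrix.submatrix_submatrix, Equiv.self_comp_symm, Matrix.submatrix_id_id]

/-- (NF4) The multiplicities are determined by the dimension.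

Proof.  `p * r₀ ≡ p * r₀' (mod q)`, `p` is invertible mod `q`, so `r₀ = r₀'`; symmetrically
`r₁ = r₁'`; then `L = L'`. -/
theorem mult_unique {p q : ℕ} (hp : 0 < p) (hq : 0 < q) (hc : Nat.Coprime p q)
    {r₀ r₁ L r₀' r₁' L' : ℕ} (h0 : r₀ < q) (h1 : r₁ < p) (h0' : r₀' < q) (h1' : r₁' < p)
    (h : p * r₀ + (q * r₁ + p * q * L) = p * r₀' + (q * r₁' + p * q * L')) :
    r₀ = r₀' ∧ r₁ = r₁' ∧ L = L' := by
  have e0 : r₀ = r₀' := by
    have h2 : p * r₀ ≡ p * r₀' [MOD q] := by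
      have h3 : (p * r₀ + q * (r₁ + p * L)) % q = (p * r₀' + q * (r₁' + p * L')) % q := by
        have h4 : p * r₀ + q * (r₁ + p * L) = p * r₀' + q * (r₁' + p * L') := by
          linear_combination h
        rw [h4]
      rw [Nat.add_mul_mod_self_left, Nat.add_mul_mod_self_left] at h3
      exact h3
    have h5 : r₀ ≡ r₀' [MOD q] := Nat.ModEq.cancel_left_of_coprime (hc.symm) h2
    exact Nat.ModEq.eq_of_lt_of_lt h5 h0 h0'
  have e1 : r₁ = r₁' := by
    have h2 : q * r₁ ≡ q * r₁' [MOD p] := by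
      have h3 : (q * r₁ + p * (r₀ + q * L)) % p = (q * r₁' + p * (r₀' + q * L')) % p := by
        have h4 : q * r₁ + p * (r₀ + q * L) = q * r₁' + p * (r₀' + q * L') := by
          linear_combination h
        rw [h4]
      rw [Nat.add_mul_mod_self_left, Nat.add_mul_mod_self_left] at h3
      exact h3
    have h5 : r₁ ≡ r₁' [MOD p] := Nat.ModEq.cancel_left_of_coprime hc h2
    exact Nat.ModEq.eq_of_lt_of_lt h5 h1 h1'
  refine ⟨e0, e1, ?_⟩
  subst e0
  subst e1
  have h6 : p * q * L = p * q * L' := by omega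
  exact Nat.eq_of_mul_eq_mul_left (Nat.mul_pos hp hq) h6

end Crest.Agent.JS
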