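import Crest.Agent.JS.F.Basic

/-!
# Row 117, Part F: lifting a path of representations to a path of unitaries
-/

set_option autoImplicit false

namespace Crest.Agent.JS

open Crest.AnalysisR.CStar
open scoped Kronecker Matrix.Norms.L2Operator Topology

/-- (PATHCOMM) A unitary matrix `c` can be joined to `1` by a path of unitaries commuting with
everything that commutes with `c` and `star c`.

Proof.  The spectrum of `c` is finite, so every function is continuous on it
(`Set.Finite.continuousOn` or discreteness).  `H := cfc (fun z => (Complex.arg z : ℂ)) c` is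
self-adjoint (`IsSelfAdjoint.cfc_arg`), `selfAdjoint.expUnitary H = c` (as in
`expUnitary_argSelfAdjoint` in `Mathlib/Analysis/CStarAlgebra/Unitary/Connected.lean`, where the
assumption `‖u - 1‖ < 2` is only used for continuity of `arg` on the spectrum), and the path is
`t ↦ selfAdjoint.expUnitary (t • H)` (`selfAdjoint.expUnitaryPathToOne`).  Elements commuting with
`c` and `star c` commute with `H` (`Commute.cfc`), hence with `exp (i t H)`
(`Commute.exp_left` or `NormedSpace.exp` lemmas). -/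
theorem exists_path_commutant {ι : Type} [Fintype ι] [DecidableEq ι]
    (c : unitary (Matrix ι ι ℂ)) :
    ∃ w : C(unitInterval, unitary (Matrix ι ι ℂ)), w 0 = 1 ∧ w 1 = c ∧
      ∀ t, ∀ a : Matrix ι ι ℂ, Commute (c : Matrix ι ι ℂ) a →
        Commute (star (c : Matrix ι ι ℂ)) a → Commute (w t : Matrix ι ι ℂ) a := by
  sorry

section

variable {ι : Type} [Fintype ι] [DecidableEq ι] {A : Type*} [Ring A] [StarRing A] [Algebra ℂ A]

/-- (NEARCOMM) For `s` near `s₀` the unitary `star (u s₀) * u s` is close to a unitary commuting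
with `D s₀`.

Proof.  Otherwise there are `δ > 0` and a sequence `s_n → s₀` (`unitInterval` is first countable;
or use the cluster point formulation: the unitary group of `Matrix ι ι ℂ` is compact, so the map
filter `Filter.map (fun s => star (u s₀) * u s) (𝓝 s₀ ⊓ 𝓟 bad)` has a cluster point) such that
`y_n = star (u s₀) * u s_n` is at distance `≥ δ` from every unitary commuting with `D s₀`; pass to
a limit `y`.  For all `a`, `y_n * D s_n a * star y_n = star (u s₀) * γ s_n a * u s₀`, so in the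
limit `y * D s₀ a * star y = star (u s₀) * γ s₀ a * u s₀ = D s₀ a`, so `y` is such a unitary:
contradiction. -/
theorem near_commutant (γ D : unitInterval → (A →⋆ₐ[ℂ] Matrix ι ι ℂ))
    (hγ : ∀ a, Continuous fun s => γ s a) (hD : ∀ a, Continuous fun s => D s a)
    (u : unitInterval → unitary (Matrix ι ι ℂ))
    (hu : ∀ s a, γ s a = u s * D s a * star (u s : Matrix ι ι ℂ))
    (s₀ : unitInterval) (δ : ℝ) (hδ : 0 < δ) :
    ∀ᶠ s in 𝓝 s₀, ∃ c : unitary (Matrix ι ι ℂ), (∀ a, Commute (c : Matrix ι ι ℂ) (D s₀ a)) ∧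
      ‖(star (u s₀) * u s : Matrix ι ι ℂ) - c‖ < δ := by
  sorry

/-- (LOCALPATH) Near `s₀` any two of the unitaries `u s`, `u s'` are joined by a path of
unitaries `w t` with `w t * D s₀ a * star (w t) ≈ γ s₀ a` for `a ∈ F`.

Proof.  Choose `δ ≤ 1` with `2 * δ * ‖D s₀ a‖ ≤ ε` for `a ∈ F` and take the neighbourhood of
`near_commutant`.  For `s` in it, `u s = u s₀ * y`, `‖y - c‖ < δ`, `c` commuting with `D s₀`.  It is
enough to join `u s₀` to `u s` (concatenate, `Path.symm`, `Path.trans`, or use `Joined` in a set: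
`JoinedIn`).  First path: `u s₀ * w t` with `w` from `exists_path_commutant c`: here
`u s₀ * w t * D s₀ a * star (w t) * star (u s₀) = γ s₀ a` exactly.  Second path from `u s₀ * c` to
`u s₀ * y`: `u s₀ * Unitary.path c y` whose distance to `u s₀ * c` is
`≤ ‖y - c‖ < δ` by `Unitary.norm_expUnitary_smul_argSelfAdjoint_sub_one_le`, so
`‖w D w* - c D c*‖ ≤ 2 δ ‖D s₀ a‖ ≤ ε` and `c D s₀ a c* = D s₀ a`. -/
theorem local_path (γ D : unitInterval → (A →⋆ₐ[ℂ] Matrix ι ι ℂ))
    (hγ : ∀ a, Continuous fun s => γ s a) (hD : ∀ a, Continuous fun s => D s a)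
    (u : unitInterval → unitary (Matrix ι ι ℂ))
    (hu : ∀ s a, γ s a = u s * D s a * star (u s : Matrix ι ι ℂ))
    (F : Finset A) (ε : ℝ) (hε : 0 < ε) (s₀ : unitInterval) :
    ∃ N ∈ 𝓝 s₀, ∀ s ∈ N, ∀ s' ∈ N, ∃ w : Path (u s) (u s'), ∀ t, ∀ a ∈ F,
      ‖(w t : Matrix ι ι ℂ) * D s₀ a * star (w t : Matrix ι ι ℂ) - γ s₀ a‖ ≤ ε := by
  sorry

/-- (GLUE) The path lifting lemma.

Proof.  For every `s₀` shrink the neighbourhood of `local_path` (with `ε / 3`) to an open one on
which also `‖D s a - D s₀ a‖ ≤ ε / 3`, `‖γ s a - γ s₀ a‖ ≤ ε / 3` for `a ∈ F`.  By compactness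
(`exists_monotone_Icc_subset_open_cover_unitInterval`) there is a monotone sequence
`0 = t_0 ≤ ... ≤ t_n = 1` with `[t_k, t_{k+1}]` inside one of these neighbourhoods.  Prove by
induction on `k`: there is a continuous `w : unitInterval → unitary` with `w (t_k) = u (t_k)`
and the estimate on `[0, t_k]`.  Step: keep `w` on `[0, t_k]` and continue with the local path
from `u t_k` to `u t_{k+1}` run linearly on `[t_k, t_{k+1}]` (constant afterwards;
`Continuous.if_le`; if `t_k = t_{k+1}` nothing to do); on this interval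
`‖γ s a - w D s a w*‖ ≤ ‖γ s a - γ s₀ a‖ + ‖γ s₀ a - w D s₀ a w*‖ + ‖D s₀ a - D s a‖ ≤ ε`. -/
theorem path_lift (γ D : unitInterval → (A →⋆ₐ[ℂ] Matrix ι ι ℂ))
    (hγ : ∀ a, Continuous fun s => γ s a) (hD : ∀ a, Continuous fun s => D s a)
    (u : unitInterval → unitary (Matrix ι ι ℂ))
    (hu : ∀ s a, γ s a = u s * D s a * star (u s : Matrix ι ι ℂ))
    (F : Finset A) (ε : ℝ) (hε : 0 < ε) :
    ∃ w : C(unitInterval, unitary (Matrix ι ι ℂ)), ∀ s, ∀ a ∈ F,
      ‖γ s a - (w s : Matrix ι ι ℂ) * D s a * star (w s : Matrix ι ι ℂ)‖ ≤ ε := by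
  sorry

end

end Crest.Agent.JS
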