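import Crest.Agent.JS.F.Legs

/-!
# Row 117, Part F: the explicit unitary on the square
-/

set_option autoImplicit false

namespace Crest.Agent.JS

open Crest.AnalysisR.CStar
open scoped Kronecker Matrix.Norms.L2Operator

section ipow

variable {M : Type*} [CStarAlgebra M]

/-- path of unitaries from `1` to the involution `S` -/
noncomputable def ipow (S : M) (t : ℝ) : M :=
  (1 / 2 : ℂ) • (1 + S) + (Complex.exp (Complex.I * Real.pi * t) / 2) • (1 - S)

theorem ipow_zero (S : M) : ipow S 0 = 1 := by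
  simp only [ipow, Complex.ofReal_zero, mul_zero, Complex.exp_zero]
  module

theorem ipow_one (S : M) : ipow S 1 = S := by
  have : Complex.exp (Complex.I * Real.pi * ((1 : ℝ) : ℂ)) = -1 := by
    rw [Complex.ofReal_one, mul_one, mul_comm, Complex.exp_pi_mul_I]
  simp only [ipow, this]
  module

theorem ipow_continuous {X : Type*} [TopologicalSpace X] (S : M) {f : X → ℝ} (hf : Continuous f) :
    Continuous fun x => ipow S (f x) := by
  unfold ipow
  fun_prop

theorem ipow_mem_unitary {S : M} (h1 : star S = S) (h2 : S * S = 1) (t : ℝ) :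
    ipow S t ∈ unitary M := by
  set z : ℂ := Complex.exp (Complex.I * Real.pi * t) with hz
  have hzz : star z * z = 1 := by
    have : ‖z‖ = 1 := by
      rw [hz, mul_assoc, mul_comm, ← Complex.ofReal_mul, Complex.norm_exp_ofReal_mul_I]
    rw [Complex.star_def, ← Complex.normSq_eq_conj_mul_self, Complex.normSq_eq_norm_sq, this]
    simp
  have hzz' : z * star z = 1 := by rw [mul_comm]; exact hzz
  have hs : star (ipow S t) = (1 / 2 : ℂ) • (1 + S) + (star z / 2) • (1 - S) := by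
    simp only [ipow, ← hz, star_add, star_smul, star_sub, star_one, h1, star_div₀, star_ofNat]
  have e1 : (1 + S) * (1 + S) = (2 : ℂ) • (1 + S) := by
    rw [mul_add, add_mul, add_mul, h2]; simp only [one_mul, mul_one]; module
  have e2 : (1 + S) * (1 - S) = 0 := by
    rw [mul_sub, add_mul, add_mul, h2]; simp only [one_mul, mul_one]; abel
  have e3 : (1 - S) * (1 + S) = 0 := by
    rw [mul_add, sub_mul, sub_mul, h2]; simp only [one_mul, mul_one]; abel
  have e4 : (1 - S) * (1 - S) = (2 : ℂ) • (1 - S) := by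
    rw [mul_sub, sub_mul, sub_mul, h2]; simp only [one_mul, mul_one]; module
  rw [Unitary.mem_iff, hs]
  constructor
  · simp only [ipow, ← hz, mul_add, add_mul, smul_mul_smul_comm, e1, e2, e3, e4, smul_zero, add_zero,
      zero_add, smul_smul]
    have : star z / 2 * (z / 2) * 2 = 1 / 2 := by linear_combination (1 / 2) * hzz
    rw [this]
    module
  · simp only [ipow, ← hz, mul_add, add_mul, smul_mul_smul_comm, e1, e2, e3, e4, smul_zero, add_zero,
      zero_add, smul_smul]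
    have : z / 2 * (star z / 2) * 2 = 1 / 2 := by linear_combination (1 / 2) * hzz'
    rw [this]
    module

theorem ipow_comm_bound {S : M} (t : ℝ) (b : M) :
    ‖ipow S t * b - b * ipow S t‖ ≤ ‖S * b - b * S‖ := by
  set z : ℂ := Complex.exp (Complex.I * Real.pi * t) with hz
  have hn : ‖z‖ = 1 := by
    rw [hz, mul_assoc, mul_comm, ← Complex.ofReal_mul, Complex.norm_exp_ofReal_mul_I]
  have e : ipow S t * b - b * ipow S t = ((1 - z) / 2) • (S * b - b * S) := by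
    simp only [ipow, ← hz, add_mul, mul_add, smul_mul_assoc, mul_smul_comm, sub_mul, mul_sub,
      one_mul, mul_one]
    module
  rw [e, norm_smul]
  have : ‖(1 - z) / 2‖ ≤ 1 := by
    rw [norm_div]
    have h1 : ‖1 - z‖ ≤ 2 := by
      calc ‖1 - z‖ ≤ ‖(1 : ℂ)‖ + ‖z‖ := norm_sub_le _ _
        _ = 2 := by rw [hn]; norm_num
    have h2 : ‖(2 : ℂ)‖ = 2 := by norm_num
    rw [h2]
    linarith
  calc ‖(1 - z) / 2‖ * ‖S * b - b * S‖ ≤ 1 * ‖S * b - b * S‖ :=
        mul_le_mul_of_nonneg_right this (norm_nonneg _)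
    _ = _ := one_mul _

theorem ipow_commute {S : M} (t : ℝ) {b : M} (h : S * b = b * S) :
    ipow S t * b = b * ipow S t := by
  have := ipow_comm_bound (S := S) t b
  rw [h, sub_self, norm_zero] at this
  exact sub_eq_zero.1 (norm_le_zero_iff.1 this)

theorem ipow_conj {S U : M} (hU : U * U = 1) (t : ℝ) :
    ipow (U * S * U) t = U * ipow S t * U := by
  simp only [ipow, mul_add, add_mul, mul_smul_comm, smul_mul_assoc, mul_sub, sub_mul, mul_one, hU]

end ipow

/-! ### approximate intertwining -/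

theorem norm_le_one_of_unitary {M : Type*} [CStarAlgebra M] {U : M} (h : U ∈ unitary M) :
    ‖U‖ ≤ 1 := by
  have h1 : star U * U = 1 := h.1
  have h2 : ‖U‖ * ‖U‖ = ‖(1 : M)‖ := by rw [← CStarRing.norm_star_mul_self, h1]
  have h3 : ‖(1 : M)‖ ≤ 1 := by
    rcases subsingleton_or_nontrivial M with hs | hn
    · rw [Subsingleton.elim (1 : M) 0, norm_zero]; norm_num
    · rw [CStarRing.norm_one]
  nlinarith [norm_nonneg U]

theorem inter_mul {M : Type*} [CStarAlgebra M] {X Y x y z : M} {a b : ℝ} (hX : X ∈ unitary M)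
    (hY : Y ∈ unitary M) (h1 : ‖X * y - z * X‖ ≤ a) (h2 : ‖Y * x - y * Y‖ ≤ b) :
    ‖(X * Y) * x - z * (X * Y)‖ ≤ a + b := by
  have e : (X * Y) * x - z * (X * Y) = (X * y - z * X) * Y + X * (Y * x - y * Y) := by
    noncomm_ring
  rw [e]
  have hX1 := norm_le_one_of_unitary hX
  have hY1 := norm_le_one_of_unitary hY
  calc ‖(X * y - z * X) * Y + X * (Y * x - y * Y)‖
      ≤ ‖X * y - z * X‖ * ‖Y‖ + ‖X‖ * ‖Y * x - y * Y‖ :=
        (norm_add_le _ _).trans (add_le_add (norm_mul_le _ _) (norm_mul_le _ _))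
    _ ≤ ‖X * y - z * X‖ * 1 + 1 * ‖Y * x - y * Y‖ := by
        gcongr
    _ ≤ a + b := by linarith

/-! ### the unitary -/

noncomputable def bet (x : ℝ) : ℝ := min 1 (2 * x)

noncomputable def zet (x : ℝ) : ℝ := max 0 (2 * x - 1)

theorem bet_continuous : Continuous bet := by unfold bet; fun_prop

theorem zet_continuous : Continuous zet := by unfold zet; fun_prop

section

variable {P Q : ℕ}

theorem SP_mem (P Q : ℕ) : SP P Q ∈ unitary (MM P Q) := by
  rw [Unitary.mem_iff, SP_star]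
  exact ⟨SP_sq P Q, SP_sq P Q⟩

theorem SQ_mem (P Q : ℕ) : SQ P Q ∈ unitary (MM P Q) := by
  rw [Unitary.mem_iff, SQ_star]
  exact ⟨SQ_sq P Q, SQ_sq P Q⟩

theorem j1_mem {V : MPQ P Q} (h : V ∈ unitary (MPQ P Q)) : j1 V ∈ unitary (MM P Q) := by
  rw [Unitary.mem_iff, ← j1_star, ← j1_mul, ← j1_mul, h.1, h.2, j1_one]
  exact ⟨rfl, rfl⟩

theorem j2_mem {V : MPQ P Q} (h : V ∈ unitary (MPQ P Q)) : j2 V ∈ unitary (MM P Q) := by
  rw [Unitary.mem_iff, ← j2_star, ← j2_mul, ← j2_mul, h.1, h.2, j2_one]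
  exact ⟨rfl, rfl⟩

/-- `A' = V₁₁ S_Q V₁₁*` -/
noncomputable def Ap (V : MPQ P Q) : MM P Q := j1 V * SQ P Q * star (j1 V)

/-- `A = S_P A' S_P` -/
noncomputable def Aq (V : MPQ P Q) : MM P Q := SP P Q * Ap V * SP P Q

theorem Ap_star (V : MPQ P Q) : star (Ap V) = Ap V := by
  simp only [Ap, star_mul, star_star, SQ_star, mul_assoc]

theorem Ap_sq {V : MPQ P Q} (h : V ∈ unitary (MPQ P Q)) : Ap V * Ap V = 1 := by
  have hV := (j1_mem h).1
  have hV' := (j1_mem h).2
  calc Ap V * Ap V = j1 V * SQ P Q * (star (j1 V) * j1 V) * SQ P Q * star (j1 V) := by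
        simp only [Ap, mul_assoc]
    _ = j1 V * (SQ P Q * SQ P Q) * star (j1 V) := by rw [hV, mul_one, mul_assoc (j1 V)]
    _ = 1 := by rw [SQ_sq, mul_one, hV']

theorem Aq_star (V : MPQ P Q) : star (Aq V) = Aq V := by
  simp only [Aq, star_mul, SP_star, Ap_star, mul_assoc]

theorem Aq_sq {V : MPQ P Q} (h : V ∈ unitary (MPQ P Q)) : Aq V * Aq V = 1 := by
  calc Aq V * Aq V = SP P Q * Ap V * (SP P Q * SP P Q) * Ap V * SP P Q := by
        simp only [Aq, mul_assoc]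
    _ = SP P Q * (Ap V * Ap V) * SP P Q := by rw [SP_sq, mul_one, mul_assoc (SP P Q)]
    _ = 1 := by rw [Ap_sq h, mul_one, SP_sq]

/-- the middle factor -/
noncomputable def Yf (V : MPQ P Q) (k l : ℝ) : MM P Q :=
  if l ≤ k then ipow (SP P Q) (bet l) * ipow (Ap V) (zet k)
  else ipow (Aq V) (zet l) * ipow (SP P Q) (bet k)

theorem Yf_eq_diag (V : MPQ P Q) (k : ℝ) :
    ipow (SP P Q) (bet k) * ipow (Ap V) (zet k) = ipow (Aq V) (zet k) * ipow (SP P Q) (bet k) := by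
  rcases le_total k (1 / 2) with h | h
  · have : zet k = 0 := by unfold zet; apply max_eq_left; linarith
    rw [this, ipow_zero, ipow_zero, mul_one, one_mul]
  · have : bet k = 1 := by unfold bet; apply min_eq_left; linarith
    rw [this, ipow_one, Aq, ipow_conj (SP_sq P Q), mul_assoc, SP_sq, mul_one]

theorem Yf_of_le (V : MPQ P Q) {k l : ℝ} (h : l ≤ k) :
    Yf V k l = ipow (SP P Q) (bet l) * ipow (Ap V) (zet k) := if_pos h

theorem Yf_of_ge (V : MPQ P Q) {k l : ℝ} (h : k ≤ l) :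
    Yf V k l = ipow (Aq V) (zet l) * ipow (SP P Q) (bet k) := by
  rcases h.lt_or_eq with h | h
  · exact if_neg (not_le.2 h)
  · subst h
    rw [Yf_of_le V le_rfl, Yf_eq_diag]

theorem Yf_mem {V : MPQ P Q} (hV : V ∈ unitary (MPQ P Q)) (k l : ℝ) :
    Yf V k l ∈ unitary (MM P Q) := by
  unfold Yf
  split_ifs
  · exact mul_mem (ipow_mem_unitary (SP_star P Q) (SP_sq P Q) _)
      (ipow_mem_unitary (Ap_star V) (Ap_sq hV) _)
  · exact mul_mem (ipow_mem_unitary (Aq_star V) (Aq_sq hV) _)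
      (ipow_mem_unitary (SP_star P Q) (SP_sq P Q) _)

theorem Yf_continuous {X : Type*} [TopologicalSpace X] (V : MPQ P Q) {k l : X → ℝ}
    (hk : Continuous k) (hl : Continuous l) : Continuous fun x => Yf V (k x) (l x) := by
  unfold Yf
  refine Continuous.if_le ?_ ?_ hl hk ?_
  · exact (ipow_continuous _ (bet_continuous.comp hl)).mul
      (ipow_continuous _ (zet_continuous.comp hk))
  · exact (ipow_continuous _ (zet_continuous.comp hl)).mul
      (ipow_continuous _ (bet_continuous.comp hk))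
  · intro x hx
    rw [hx]
    exact Yf_eq_diag V (k x)

noncomputable def Xf (V : MPQ P Q) (k l : ℝ) : MM P Q :=
  star (j2 V) * SQ P Q * Yf V k l * j1 V

theorem Xf_mem {V : MPQ P Q} (hV : V ∈ unitary (MPQ P Q)) (k l : ℝ) :
    Xf V k l ∈ unitary (MM P Q) :=
  mul_mem (mul_mem (mul_mem (Unitary.star_mem (j2_mem hV)) (SQ_mem P Q)) (Yf_mem hV k l))
    (j1_mem hV)

/-- the unitary on the square -/
noncomputable def Wf (v : C(unitInterval, MPQ P Q)) (z : unitInterval × unitInterval) : MM P Q :=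
  j2 (v z.2) * Xf (v 1) (1 - (z.1 : ℝ)) (1 - (z.2 : ℝ)) * star (j1 (v z.1))

theorem Wf_mem {v : C(unitInterval, MPQ P Q)} (hv : ∀ s, v s ∈ unitary (MPQ P Q))
    (z : unitInterval × unitInterval) : Wf v z ∈ unitary (MM P Q) :=
  mul_mem (mul_mem (j2_mem (hv _)) (Xf_mem (hv _) _ _)) (Unitary.star_mem (j1_mem (hv _)))

theorem Wf_continuous (v : C(unitInterval, MPQ P Q)) : Continuous (Wf v) := by
  unfold Wf Xf
  have h1 : Continuous fun z : unitInterval × unitInterval => j1 (v z.1) :=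
    (j1_continuous P Q).comp (v.continuous.comp continuous_fst)
  have h2 : Continuous fun z : unitInterval × unitInterval => j2 (v z.2) :=
    (j2_continuous P Q).comp (v.continuous.comp continuous_snd)
  have h3 : Continuous fun z : unitInterval × unitInterval =>
      Yf (v 1) (1 - (z.1 : ℝ)) (1 - (z.2 : ℝ)) :=
    Yf_continuous (v 1) (by fun_prop) (by fun_prop)
  exact (h2.mul (((continuous_const.mul continuous_const).mul h3).mul continuous_const)).mul h1.star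

/-! Commutation tools -/

theorem comm_star_of_comm_star {M : Type*} [Monoid M] [StarMul M] {x c : M}
    (h : x * star c = star c * x) : star x * c = c * star x := by
  have := congrArg star h
  simpa [star_mul] using this.symm

theorem star_lQ (b : Matrix (Fin Q) (Fin Q) ℂ) : star (lQ P Q b) = lQ P Q (star b) := by
  simp only [lQ, Matrix.star_eq_conjTranspose, Matrix.conjTranspose_kronecker,
    Matrix.conjTranspose_one]

theorem star_lP (a : Matrix (Fin P) (Fin P) ℂ) : star (lP P Q a) = lP P Q (star a) := by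
  simp only [lP, Matrix.star_eq_conjTranspose, Matrix.conjTranspose_kronecker,
    Matrix.conjTranspose_one]

theorem star_j1_j2 (A B : MPQ P Q) : star (j1 A) * j2 B = j2 B * star (j1 A) := by
  rw [← j1_star, j1_j2]

theorem j1_star_j2 (A B : MPQ P Q) : j1 A * star (j2 B) = star (j2 B) * j1 A := by
  rw [← j2_star, j1_j2]

/-- boundary condition at `s = 0` -/
theorem Wf_left (v : C(unitInterval, MPQ P Q)) (hv : ∀ s, v s ∈ unitary (MPQ P Q))
    (hv0 : v 0 = 1) (t : unitInterval) (b : Matrix (Fin Q) (Fin Q) ℂ) :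
    Commute (Wf v (0, t)) (j1 (lQ P Q b)) := by
  have ht : 1 - (t : ℝ) ≤ 1 := by linarith [t.2.1]
  have e : Wf v (0, t) = j2 (v t) * star (j2 (v 1)) * SQ P Q *
      ipow (SP P Q) (bet (1 - (t : ℝ))) * j1 (v 1) * SQ P Q := by
    have h1 : star (j1 (v 1)) * j1 (v 1) = 1 := (j1_mem (hv 1)).1
    simp only [Wf, Xf, hv0, Set.Icc.coe_zero, sub_zero]
    rw [Yf_of_le _ ht]
    have hz : zet 1 = 1 := by unfold zet; norm_num
    rw [hz, ipow_one, j1_one, star_one, mul_one, Ap]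
    calc j2 (v t) * (star (j2 (v 1)) * SQ P Q *
          (ipow (SP P Q) (bet (1 - (t : ℝ))) * (j1 (v 1) * SQ P Q * star (j1 (v 1)))) * j1 (v 1))
        = j2 (v t) * star (j2 (v 1)) * SQ P Q * ipow (SP P Q) (bet (1 - (t : ℝ))) * j1 (v 1) *
          SQ P Q * (star (j1 (v 1)) * j1 (v 1)) := by simp only [mul_assoc]
      _ = _ := by rw [h1, mul_one]
  rw [e]
  have c1 : ∀ A : MPQ P Q, j2 A * j1 (lQ P Q b) = j1 (lQ P Q b) * j2 A := fun A =>
    (j1_j2 _ _).symm
  have c2 : star (j2 (v 1)) * j1 (lQ P Q b) = j1 (lQ P Q b) * star (j2 (v 1)) :=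
    (j1_star_j2 _ _).symm
  have c3 : ipow (SP P Q) (bet (1 - (t : ℝ))) * j2 (lQ P Q b) =
      j2 (lQ P Q b) * ipow (SP P Q) (bet (1 - (t : ℝ))) := ipow_commute _ (SP_j2_lQ P Q b)
  show _ = _
  calc j2 (v t) * star (j2 (v 1)) * SQ P Q * ipow (SP P Q) (bet (1 - (t : ℝ))) * j1 (v 1) *
        SQ P Q * j1 (lQ P Q b)
      = j2 (v t) * star (j2 (v 1)) * SQ P Q * ipow (SP P Q) (bet (1 - (t : ℝ))) * j1 (v 1) *
        (SQ P Q * j1 (lQ P Q b)) := by simp only [mul_assoc]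
    _ = j2 (v t) * star (j2 (v 1)) * SQ P Q * ipow (SP P Q) (bet (1 - (t : ℝ))) *
        (j1 (v 1) * j2 (lQ P Q b)) * SQ P Q := by rw [SQ_j1_lQ]; simp only [mul_assoc]
    _ = j2 (v t) * star (j2 (v 1)) * SQ P Q * (ipow (SP P Q) (bet (1 - (t : ℝ))) *
        j2 (lQ P Q b)) * j1 (v 1) * SQ P Q := by rw [j1_j2]; simp only [mul_assoc]
    _ = j2 (v t) * star (j2 (v 1)) * (SQ P Q * j2 (lQ P Q b)) *
        ipow (SP P Q) (bet (1 - (t : ℝ))) * j1 (v 1) * SQ P Q := by
          rw [c3]; simp only [mul_assoc]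
    _ = j2 (v t) * (star (j2 (v 1)) * j1 (lQ P Q b)) * SQ P Q *
        ipow (SP P Q) (bet (1 - (t : ℝ))) * j1 (v 1) * SQ P Q := by
          rw [SQ_j2_lQ]; simp only [mul_assoc]
    _ = (j2 (v t) * j1 (lQ P Q b)) * star (j2 (v 1)) * SQ P Q *
        ipow (SP P Q) (bet (1 - (t : ℝ))) * j1 (v 1) * SQ P Q := by
          rw [c2]; simp only [mul_assoc]
    _ = j1 (lQ P Q b) * (j2 (v t) * star (j2 (v 1)) * SQ P Q *
        ipow (SP P Q) (bet (1 - (t : ℝ))) * j1 (v 1) * SQ P Q) := by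
          rw [c1]; simp only [mul_assoc]

/-- boundary condition at `s = 1` -/
theorem Wf_right (v : C(unitInterval, MPQ P Q)) (hv : ∀ s, v s ∈ unitary (MPQ P Q))
    (t : unitInterval) (a : Matrix (Fin P) (Fin P) ℂ) :
    Commute (Wf v (1, t)) (j1 (lP P Q a)) := by
  have ht : 0 ≤ 1 - (t : ℝ) := by linarith [t.2.2]
  have e : Wf v (1, t) = j2 (v t) * star (j2 (v 1)) * SQ P Q *
      ipow (Aq (v 1)) (zet (1 - (t : ℝ))) := by
    have h1 : j1 (v 1) * star (j1 (v 1)) = 1 := (j1_mem (hv 1)).2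
    simp only [Wf, Xf, Set.Icc.coe_one, sub_self]
    rw [Yf_of_ge _ ht]
    have hz : bet 0 = 0 := by unfold bet; norm_num
    rw [hz, ipow_zero, mul_one]
    calc j2 (v t) * (star (j2 (v 1)) * SQ P Q * ipow (Aq (v 1)) (zet (1 - (t : ℝ))) * j1 (v 1)) *
          star (j1 (v 1))
        = j2 (v t) * star (j2 (v 1)) * SQ P Q * ipow (Aq (v 1)) (zet (1 - (t : ℝ))) *
          (j1 (v 1) * star (j1 (v 1))) := by simp only [mul_assoc]
      _ = _ := by rw [h1, mul_one]
  rw [e]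
  have c2 : star (j2 (v 1)) * j1 (lP P Q a) = j1 (lP P Q a) * star (j2 (v 1)) :=
    (j1_star_j2 _ _).symm
  have c4 : Aq (v 1) * j1 (lP P Q a) = j1 (lP P Q a) * Aq (v 1) := by
    unfold Aq Ap
    calc SP P Q * (j1 (v 1) * SQ P Q * star (j1 (v 1))) * SP P Q * j1 (lP P Q a)
        = SP P Q * (j1 (v 1) * SQ P Q * star (j1 (v 1))) * (SP P Q * j1 (lP P Q a)) := by
          simp only [mul_assoc]
      _ = SP P Q * (j1 (v 1) * SQ P Q * (star (j1 (v 1)) * j2 (lP P Q a))) * SP P Q := by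
          rw [SP_j1_lP]; simp only [mul_assoc]
      _ = SP P Q * (j1 (v 1) * (SQ P Q * j2 (lP P Q a)) * star (j1 (v 1))) * SP P Q := by
          rw [star_j1_j2]; simp only [mul_assoc]
      _ = SP P Q * ((j1 (v 1) * j2 (lP P Q a)) * SQ P Q * star (j1 (v 1))) * SP P Q := by
          rw [SQ_j2_lP]; simp only [mul_assoc]
      _ = (SP P Q * j2 (lP P Q a)) * (j1 (v 1) * SQ P Q * star (j1 (v 1))) * SP P Q := by
          rw [j1_j2]; simp only [mul_assoc]
      _ = j1 (lP P Q a) * (SP P Q * (j1 (v 1) * SQ P Q * star (j1 (v 1))) * SP P Q) := by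
          rw [SP_j2_lP]; simp only [mul_assoc]
  have c3 := ipow_commute (zet (1 - (t : ℝ))) c4
  show _ = _
  calc j2 (v t) * star (j2 (v 1)) * SQ P Q * ipow (Aq (v 1)) (zet (1 - (t : ℝ))) *
        j1 (lP P Q a)
      = j2 (v t) * star (j2 (v 1)) * SQ P Q * (ipow (Aq (v 1)) (zet (1 - (t : ℝ))) *
        j1 (lP P Q a)) := by simp only [mul_assoc]
    _ = j2 (v t) * star (j2 (v 1)) * (SQ P Q * j1 (lP P Q a)) *
        ipow (Aq (v 1)) (zet (1 - (t : ℝ))) := by rw [c3]; simp only [mul_assoc]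
    _ = j2 (v t) * (star (j2 (v 1)) * j1 (lP P Q a)) * SQ P Q *
        ipow (Aq (v 1)) (zet (1 - (t : ℝ))) := by rw [SQ_j1_lP]; simp only [mul_assoc]
    _ = (j2 (v t) * j1 (lP P Q a)) * star (j2 (v 1)) * SQ P Q *
        ipow (Aq (v 1)) (zet (1 - (t : ℝ))) := by rw [c2]; simp only [mul_assoc]
    _ = j1 (lP P Q a) * (j2 (v t) * star (j2 (v 1)) * SQ P Q *
        ipow (Aq (v 1)) (zet (1 - (t : ℝ)))) := by rw [← j1_j2]; simp only [mul_assoc]

/-- boundary condition at `t = 0` -/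
theorem Wf_bottom (v : C(unitInterval, MPQ P Q)) (hv : ∀ s, v s ∈ unitary (MPQ P Q))
    (hv0 : v 0 = 1) (s : unitInterval) (b : Matrix (Fin Q) (Fin Q) ℂ) :
    Commute (Wf v (s, 0)) (j2 (lQ P Q b)) := by
  have hs : 1 - (s : ℝ) ≤ 1 := by linarith [s.2.1]
  have e : Wf v (s, 0) = SP P Q * star (j1 (v 1)) * SP P Q *
      ipow (SP P Q) (bet (1 - (s : ℝ))) * j1 (v 1) * star (j1 (v s)) := by
    have h2 : star (j2 (v 1)) * j2 (v 1) = 1 := (j2_mem (hv 1)).1
    simp only [Wf, Xf, hv0, Set.Icc.coe_zero, sub_zero]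
    rw [Yf_of_ge _ hs]
    have hz : zet 1 = 1 := by unfold zet; norm_num
    rw [hz, ipow_one, j2_one, one_mul, Aq, Ap]
    have hf : SQ P Q * SP P Q * j1 (v 1) = j2 (v 1) * (SQ P Q * SP P Q) := by
      rw [← SP_SQ, flip_j1]
    have hq : SQ P Q * SP P Q * SQ P Q = SP P Q := by
      rw [← SP_SQ, mul_assoc, SQ_sq, mul_one]
    calc star (j2 (v 1)) * SQ P Q * (SP P Q * (j1 (v 1) * SQ P Q * star (j1 (v 1))) * SP P Q *
          ipow (SP P Q) (bet (1 - (s : ℝ)))) * j1 (v 1) * star (j1 (v s))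
        = star (j2 (v 1)) * (SQ P Q * SP P Q * j1 (v 1)) * SQ P Q * star (j1 (v 1)) * SP P Q *
          ipow (SP P Q) (bet (1 - (s : ℝ))) * j1 (v 1) * star (j1 (v s)) := by
          simp only [mul_assoc]
      _ = (star (j2 (v 1)) * j2 (v 1)) * (SQ P Q * SP P Q * SQ P Q) * star (j1 (v 1)) * SP P Q *
          ipow (SP P Q) (bet (1 - (s : ℝ))) * j1 (v 1) * star (j1 (v s)) := by
          rw [hf]; simp only [mul_assoc]
      _ = _ := by rw [h2, hq, one_mul]
  rw [e]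
  have c1 : star (j1 (v s)) * j2 (lQ P Q b) = j2 (lQ P Q b) * star (j1 (v s)) := star_j1_j2 _ _
  have c2 : star (j1 (v 1)) * j2 (lQ P Q b) = j2 (lQ P Q b) * star (j1 (v 1)) := star_j1_j2 _ _
  have c3 : ipow (SP P Q) (bet (1 - (s : ℝ))) * j2 (lQ P Q b) =
      j2 (lQ P Q b) * ipow (SP P Q) (bet (1 - (s : ℝ))) := ipow_commute _ (SP_j2_lQ P Q b)
  show _ = _
  calc SP P Q * star (j1 (v 1)) * SP P Q * ipow (SP P Q) (bet (1 - (s : ℝ))) * j1 (v 1) *
        star (j1 (v s)) * j2 (lQ P Q b)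
      = SP P Q * star (j1 (v 1)) * SP P Q * ipow (SP P Q) (bet (1 - (s : ℝ))) * j1 (v 1) *
        (star (j1 (v s)) * j2 (lQ P Q b)) := by simp only [mul_assoc]
    _ = SP P Q * star (j1 (v 1)) * SP P Q * ipow (SP P Q) (bet (1 - (s : ℝ))) * (j1 (v 1) *
        j2 (lQ P Q b)) * star (j1 (v s)) := by rw [c1]; simp only [mul_assoc]
    _ = SP P Q * star (j1 (v 1)) * SP P Q * (ipow (SP P Q) (bet (1 - (s : ℝ))) *
        j2 (lQ P Q b)) * j1 (v 1) * star (j1 (v s)) := by rw [j1_j2]; simp only [mul_assoc]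
    _ = SP P Q * star (j1 (v 1)) * (SP P Q * j2 (lQ P Q b)) *
        ipow (SP P Q) (bet (1 - (s : ℝ))) * j1 (v 1) * star (j1 (v s)) := by
          rw [c3]; simp only [mul_assoc]
    _ = SP P Q * (star (j1 (v 1)) * j2 (lQ P Q b)) * SP P Q *
        ipow (SP P Q) (bet (1 - (s : ℝ))) * j1 (v 1) * star (j1 (v s)) := by
          rw [SP_j2_lQ]; simp only [mul_assoc]
    _ = (SP P Q * j2 (lQ P Q b)) * star (j1 (v 1)) * SP P Q *
        ipow (SP P Q) (bet (1 - (s : ℝ))) * j1 (v 1) * star (j1 (v s)) := by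
          rw [c2]; simp only [mul_assoc]
    _ = j2 (lQ P Q b) * (SP P Q * star (j1 (v 1)) * SP P Q *
        ipow (SP P Q) (bet (1 - (s : ℝ))) * j1 (v 1) * star (j1 (v s))) := by
          rw [SP_j2_lQ]; simp only [mul_assoc]

/-- boundary condition at `t = 1` -/
theorem Wf_top (v : C(unitInterval, MPQ P Q)) (hv : ∀ s, v s ∈ unitary (MPQ P Q))
    (s : unitInterval) (a : Matrix (Fin P) (Fin P) ℂ) :
    Commute (Wf v (s, 1)) (j2 (lP P Q a)) := by
  have hs : 0 ≤ 1 - (s : ℝ) := by linarith [s.2.2]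
  have e : Wf v (s, 1) = SQ P Q * ipow (Ap (v 1)) (zet (1 - (s : ℝ))) * j1 (v 1) *
      star (j1 (v s)) := by
    have h2 : j2 (v 1) * star (j2 (v 1)) = 1 := (j2_mem (hv 1)).2
    simp only [Wf, Xf, Set.Icc.coe_one, sub_self]
    rw [Yf_of_le _ hs]
    have hz : bet 0 = 0 := by unfold bet; norm_num
    rw [hz, ipow_zero, one_mul]
    calc j2 (v 1) * (star (j2 (v 1)) * SQ P Q * ipow (Ap (v 1)) (zet (1 - (s : ℝ))) * j1 (v 1)) *
          star (j1 (v s))
        = (j2 (v 1) * star (j2 (v 1))) * SQ P Q * ipow (Ap (v 1)) (zet (1 - (s : ℝ))) *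
          j1 (v 1) * star (j1 (v s)) := by simp only [mul_assoc]
      _ = _ := by rw [h2, one_mul]
  rw [e]
  have c1 : star (j1 (v s)) * j2 (lP P Q a) = j2 (lP P Q a) * star (j1 (v s)) := star_j1_j2 _ _
  have c2 : star (j1 (v 1)) * j2 (lP P Q a) = j2 (lP P Q a) * star (j1 (v 1)) := star_j1_j2 _ _
  have c4 : Ap (v 1) * j2 (lP P Q a) = j2 (lP P Q a) * Ap (v 1) := by
    unfold Ap
    calc j1 (v 1) * SQ P Q * star (j1 (v 1)) * j2 (lP P Q a)
        = j1 (v 1) * (SQ P Q * j2 (lP P Q a)) * star (j1 (v 1)) := by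
          rw [mul_assoc _ (star (j1 (v 1))), c2]; simp only [mul_assoc]
      _ = (j1 (v 1) * j2 (lP P Q a)) * SQ P Q * star (j1 (v 1)) := by
          rw [SQ_j2_lP]; simp only [mul_assoc]
      _ = _ := by rw [j1_j2]; simp only [mul_assoc]
  have c3 := ipow_commute (zet (1 - (s : ℝ))) c4
  show _ = _
  calc SQ P Q * ipow (Ap (v 1)) (zet (1 - (s : ℝ))) * j1 (v 1) * star (j1 (v s)) *
        j2 (lP P Q a)
      = SQ P Q * ipow (Ap (v 1)) (zet (1 - (s : ℝ))) * j1 (v 1) * (star (j1 (v s)) *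
        j2 (lP P Q a)) := by simp only [mul_assoc]
    _ = SQ P Q * ipow (Ap (v 1)) (zet (1 - (s : ℝ))) * (j1 (v 1) * j2 (lP P Q a)) *
        star (j1 (v s)) := by rw [c1]; simp only [mul_assoc]
    _ = SQ P Q * (ipow (Ap (v 1)) (zet (1 - (s : ℝ))) * j2 (lP P Q a)) * j1 (v 1) *
        star (j1 (v s)) := by rw [j1_j2]; simp only [mul_assoc]
    _ = (SQ P Q * j2 (lP P Q a)) * ipow (Ap (v 1)) (zet (1 - (s : ℝ))) * j1 (v 1) *
        star (j1 (v s)) := by rw [c3]; simp only [mul_assoc]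
    _ = _ := by rw [SQ_j2_lP]; simp only [mul_assoc]

theorem star_inter {M : Type*} [CStarAlgebra M] {U x y : M} (hU : U ∈ unitary M) :
    ‖star U * y - x * star U‖ = ‖y * U - U * x‖ := by
  have h1 : U * star U = 1 := hU.2
  have h2 : star U * U = 1 := hU.1
  have e : star U * y - x * star U = star U * (y * U - U * x) * star U := by
    calc star U * y - x * star U = star U * y * (U * star U) - (star U * U) * x * star U := by
          rw [h1, h2, mul_one, one_mul]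
      _ = _ := by noncomm_ring
  rw [e]
  have hs := norm_le_one_of_unitary (Unitary.star_mem hU)
  have hs' := norm_le_one_of_unitary hU
  apply le_antisymm
  · calc ‖star U * (y * U - U * x) * star U‖ ≤ ‖star U‖ * ‖y * U - U * x‖ * ‖star U‖ :=
          (norm_mul_le _ _).trans (mul_le_mul_of_nonneg_right (norm_mul_le _ _) (norm_nonneg _))
      _ ≤ 1 * ‖y * U - U * x‖ * 1 := by gcongr
      _ = _ := by ring
  · have e2 : y * U - U * x = U * (star U * (y * U - U * x) * star U) * U := by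
      calc y * U - U * x = (U * star U) * (y * U - U * x) * (star U * U) := by
            rw [h1, h2, mul_one, one_mul]
        _ = _ := by noncomm_ring
    calc ‖y * U - U * x‖ = ‖U * (star U * (y * U - U * x) * star U) * U‖ := by rw [← e2]
      _ ≤ ‖U‖ * ‖star U * (y * U - U * x) * star U‖ * ‖U‖ :=
          (norm_mul_le _ _).trans (mul_le_mul_of_nonneg_right (norm_mul_le _ _) (norm_nonneg _))
      _ ≤ 1 * ‖star U * (y * U - U * x) * star U‖ * 1 := by gcongr
      _ = _ := by ring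

theorem inter_of_conj {M : Type*} [CStarAlgebra M] {U x y : M} (hU : U ∈ unitary M) :
    ‖U * x - y * U‖ = ‖y - U * x * star U‖ := by
  have h1 : U * star U = 1 := hU.2
  have h2 : star U * U = 1 := hU.1
  have hs := norm_le_one_of_unitary (Unitary.star_mem hU)
  have hs' := norm_le_one_of_unitary hU
  apply le_antisymm
  · have e : U * x - y * U = -((y - U * x * star U) * U) := by
      calc U * x - y * U = U * x * (star U * U) - y * U := by rw [h2, mul_one]
        _ = _ := by noncomm_ring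
    rw [e, norm_neg]
    calc ‖(y - U * x * star U) * U‖ ≤ ‖y - U * x * star U‖ * ‖U‖ := norm_mul_le _ _
      _ ≤ ‖y - U * x * star U‖ * 1 := by gcongr
      _ = _ := mul_one _
  · have e : y - U * x * star U = -((U * x - y * U) * star U) := by
      calc y - U * x * star U = y * (U * star U) - U * x * star U := by rw [h1, mul_one]
        _ = _ := by noncomm_ring
    rw [e, norm_neg]
    calc ‖(U * x - y * U) * star U‖ ≤ ‖U * x - y * U‖ * ‖star U‖ := norm_mul_le _ _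
      _ ≤ ‖U * x - y * U‖ * 1 := by gcongr
      _ = _ := mul_one _

/-- the intertwining property -/
theorem Wf_inter (v : C(unitInterval, MPQ P Q)) (hv : ∀ s, v s ∈ unitary (MPQ P Q))
    (c : unitInterval → MPQ P Q) (a : Matrix (Fin P) (Fin P) ℂ) (b : Matrix (Fin Q) (Fin Q) ℂ)
    (h0 : c 0 = lP P Q a) (h1 : c 1 = lQ P Q b) (ε : ℝ)
    (h : ∀ s, ‖c s - v s * c 0 * star (v s)‖ ≤ ε) (s t : unitInterval) :
    ‖Wf v (s, t) * j1 (c s) - j2 (c t) * Wf v (s, t)‖ ≤ 6 * ε := by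
  have hc : ∀ s, ‖v s * c 0 - c s * v s‖ ≤ ε := fun s => by
    rw [inter_of_conj (hv s)]; exact h s
  have hj1 : ∀ s, ‖j1 (v s) * j1 (c 0) - j1 (c s) * j1 (v s)‖ ≤ ε := fun s => by
    rw [← j1_mul, ← j1_mul, ← j1_sub]
    exact (j1_norm_le _).trans (hc s)
  have hj2 : ∀ s, ‖j2 (v s) * j2 (c 0) - j2 (c s) * j2 (v s)‖ ≤ ε := fun s => by
    rw [← j2_mul, ← j2_mul, ← j2_sub]
    exact (j2_norm_le _).trans (hc s)
  have hj1s : ∀ s, ‖star (j1 (v s)) * j1 (c s) - j1 (c 0) * star (j1 (v s))‖ ≤ ε := fun s => by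
    rw [star_inter (j1_mem (hv s)), ← norm_neg, neg_sub]
    exact hj1 s
  have hj2s : ∀ s, ‖star (j2 (v s)) * j2 (c s) - j2 (c 0) * star (j2 (v s))‖ ≤ ε := fun s => by
    rw [star_inter (j2_mem (hv s)), ← norm_neg, neg_sub]
    exact hj2 s
  have hSQ : ‖SQ P Q * j1 (c 0) - j1 (c 0) * SQ P Q‖ ≤ 0 := by
    rw [h0, SQ_j1_lP, sub_self, norm_zero]
  have hSQ' : ‖SQ P Q * j1 (c 1) - j2 (c 1) * SQ P Q‖ ≤ 0 := by
    rw [h1, SQ_j1_lQ, sub_self, norm_zero]
  have hAp : ‖Ap (v 1) * j1 (c 1) - j1 (c 1) * Ap (v 1)‖ ≤ 2 * ε := by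
    have := inter_mul (mul_mem (j1_mem (hv 1)) (SQ_mem P Q)) (Unitary.star_mem (j1_mem (hv 1)))
      (inter_mul (j1_mem (hv 1)) (SQ_mem P Q) (hj1 1) hSQ) (hj1s 1)
    calc ‖Ap (v 1) * j1 (c 1) - j1 (c 1) * Ap (v 1)‖ ≤ ε + 0 + ε := this
      _ = 2 * ε := by ring
  have hSPc : SP P Q * j1 (c 1) = j1 (c 1) * SP P Q := by rw [h1, SP_j1_lQ]
  have hSP0 : ‖SP P Q * j1 (c 1) - j1 (c 1) * SP P Q‖ ≤ 0 := by
    rw [hSPc, sub_self, norm_zero]
  have hAq : ‖Aq (v 1) * j1 (c 1) - j1 (c 1) * Aq (v 1)‖ ≤ 2 * ε := by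
    have hApm : Ap (v 1) ∈ unitary (MM P Q) :=
      mul_mem (mul_mem (j1_mem (hv 1)) (SQ_mem P Q)) (Unitary.star_mem (j1_mem (hv 1)))
    have := inter_mul (mul_mem (SP_mem P Q) hApm) (SP_mem P Q)
      (inter_mul (SP_mem P Q) hApm hSP0 hAp) hSP0
    calc ‖Aq (v 1) * j1 (c 1) - j1 (c 1) * Aq (v 1)‖ ≤ 0 + 2 * ε + 0 := this
      _ = 2 * ε := by ring
  have hY : ∀ k l, ‖Yf (v 1) k l * j1 (c 1) - j1 (c 1) * Yf (v 1) k l‖ ≤ 2 * ε := by
    intro k l
    have hP : ∀ x, ‖ipow (SP P Q) x * j1 (c 1) - j1 (c 1) * ipow (SP P Q) x‖ ≤ 0 := fun x => by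
      rw [ipow_commute x hSPc, sub_self, norm_zero]
    unfold Yf
    split_ifs
    · have := inter_mul (ipow_mem_unitary (SP_star P Q) (SP_sq P Q) (bet l))
        (ipow_mem_unitary (Ap_star (v 1)) (Ap_sq (hv 1)) (zet k)) (hP (bet l))
        ((ipow_comm_bound (zet k) (j1 (c 1))).trans hAp)
      linarith
    · have := inter_mul (ipow_mem_unitary (Aq_star (v 1)) (Aq_sq (hv 1)) (zet l))
        (ipow_mem_unitary (SP_star P Q) (SP_sq P Q) (bet k))
        ((ipow_comm_bound (zet l) (j1 (c 1))).trans hAq) (hP (bet k))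
      linarith
  have hX : ∀ k l, ‖Xf (v 1) k l * j1 (c 0) - j2 (c 0) * Xf (v 1) k l‖ ≤ 4 * ε := by
    intro k l
    have := inter_mul
      (mul_mem (mul_mem (Unitary.star_mem (j2_mem (hv 1))) (SQ_mem P Q)) (Yf_mem (hv 1) k l))
      (j1_mem (hv 1))
      (inter_mul (mul_mem (Unitary.star_mem (j2_mem (hv 1))) (SQ_mem P Q)) (Yf_mem (hv 1) k l)
        (inter_mul (Unitary.star_mem (j2_mem (hv 1))) (SQ_mem P Q) (hj2s 1) hSQ') (hY k l))
      (hj1 1)
    calc ‖Xf (v 1) k l * j1 (c 0) - j2 (c 0) * Xf (v 1) k l‖ ≤ ε + 0 + 2 * ε + ε := this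
      _ = 4 * ε := by ring
  have := inter_mul (mul_mem (j2_mem (hv t)) (Xf_mem (hv 1) (1 - (s : ℝ)) (1 - (t : ℝ))))
    (Unitary.star_mem (j1_mem (hv s)))
    (inter_mul (j2_mem (hv t)) (Xf_mem (hv 1) (1 - (s : ℝ)) (1 - (t : ℝ))) (hj2 t)
      (hX (1 - (s : ℝ)) (1 - (t : ℝ)))) (hj1s s)
  calc ‖Wf v (s, t) * j1 (c s) - j2 (c t) * Wf v (s, t)‖ ≤ ε + 4 * ε + ε := this
    _ = 6 * ε := by ring

/-- **The unitary on the square.** -/
theorem square_unitary (v : C(unitInterval, MPQ P Q)) (hv : ∀ s, v s ∈ unitary (MPQ P Q))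
    (hv0 : v 0 = 1) :
    ∃ W : C(unitInterval × unitInterval, MM P Q), (∀ z, W z ∈ unitary (MM P Q)) ∧
      (∀ t b, Commute (W (0, t)) (j1 (lQ P Q b))) ∧
      (∀ t a, Commute (W (1, t)) (j1 (lP P Q a))) ∧
      (∀ s b, Commute (W (s, 0)) (j2 (lQ P Q b))) ∧
      (∀ s a, Commute (W (s, 1)) (j2 (lP P Q a))) ∧
      ∀ (c : unitInterval → MPQ P Q) (a : Matrix (Fin P) (Fin P) ℂ)
        (b : Matrix (Fin Q) (Fin Q) ℂ), c 0 = lP P Q a → c 1 = lQ P Q b → ∀ ε : ℝ,
        (∀ s, ‖c s - v s * c 0 * star (v s)‖ ≤ ε) → ∀ s t,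
        ‖W (s, t) * j1 (c s) - j2 (c t) * W (s, t)‖ ≤ 6 * ε :=
  ⟨⟨Wf v, Wf_continuous v⟩, fun z => Wf_mem hv z, fun t b => Wf_left v hv hv0 t b,
    fun t a => Wf_right v hv t a, fun s b => Wf_bottom v hv hv0 s b,
    fun s a => Wf_top v hv s a,
    fun c a b h0 h1 ε h s t => Wf_inter v hv c a b h0 h1 ε h s t⟩

end

end Crest.Agent.JS
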