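import Crest.Agent.JS.F.Basic

/-!
# Row 117, Part F, chunk STD: the standard finite dimensional representations of `I[p,q]`
-/

set_option autoImplicit false

namespace Crest.Agent.JS

open Crest.AnalysisR.CStar
open scoped Kronecker Matrix.Norms.L2Operator

/-- index type of the standard representation -/
abbrev SIx (p q : ℕ) (κ₀ κ₁ κ : Type) : Type :=
  (Fin p × κ₀) ⊕ ((Fin q × κ₁) ⊕ ((Fin p × Fin q) × κ))

/-- block diagonal matrices as a star homomorphism (auxiliary) -/
noncomputable def stdM {p q : ℕ} (κ₀ κ₁ : Type) {κ : Type} [DecidableEq κ₀] [DecidableEq κ₁]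
    [DecidableEq κ] (x : κ → unitInterval) (f : dimDrop p q) :
    Matrix (SIx p q κ₀ κ₁ κ) (SIx p q κ₀ κ₁ κ) ℂ :=
  Matrix.fromBlocks (Matrix.blockDiagonal fun _ : κ₀ => lftM p q (f.1 0)) 0 0
    (Matrix.fromBlocks (Matrix.blockDiagonal fun _ : κ₁ => rgtM p q (f.1 1)) 0 0
      (Matrix.blockDiagonal fun k : κ => f.1 (x k)))

/-- The standard representation: `κ₀` copies of the left end point representation, `κ₁` copies of
the right end point representation, and the evaluations at the points `x k`. -/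
noncomputable def stdRep {p q : ℕ} (hp : 0 < p) (hq : 0 < q) (κ₀ κ₁ : Type) {κ : Type}
    [Fintype κ₀] [DecidableEq κ₀] [Fintype κ₁] [DecidableEq κ₁] [Fintype κ] [DecidableEq κ]
    (x : κ → unitInterval) :
    dimDrop p q →⋆ₐ[ℂ] Matrix (SIx p q κ₀ κ₁ κ) (SIx p q κ₀ κ₁ κ) ℂ where
  toFun f := stdM κ₀ κ₁ x f
  map_one' := by
    have h0 : lftM p q ((1 : dimDrop p q).1 0) = 1 := map_one (repZ p q hq)
    have h1 : rgtM p q ((1 : dimDrop p q).1 1) = 1 := map_one (repO p q hp)
    have h2 : ∀ k, (1 : dimDrop p q).1 (x k) = 1 := fun k => rfl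
    simp only [stdM, h0, h1, h2]
    rw [← Pi.one_def, ← Pi.one_def, ← Pi.one_def, Matrix.blockDiagonal_one,
      Matrix.blockDiagonal_one, Matrix.blockDiagonal_one, Matrix.fromBlocks_one,
      Matrix.fromBlocks_one]
  map_mul' f g := by
    have h0 : lftM p q ((f * g).1 0) = lftM p q (f.1 0) * lftM p q (g.1 0) :=
      map_mul (repZ p q hq) f g
    have h1 : rgtM p q ((f * g).1 1) = rgtM p q (f.1 1) * rgtM p q (g.1 1) :=
      map_mul (repO p q hp) f g
    have h2 : ∀ k, (f * g).1 (x k) = f.1 (x k) * g.1 (x k) := fun k => rfl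
    simp only [stdM, h0, h1, h2, Matrix.fromBlocks_multiply, Matrix.mul_zero, Matrix.zero_mul,
      add_zero, zero_add, Matrix.blockDiagonal_mul]
  map_zero' := by
    have h0 : lftM p q ((0 : dimDrop p q).1 0) = 0 := map_zero (repZ p q hq)
    have h1 : rgtM p q ((0 : dimDrop p q).1 1) = 0 := map_zero (repO p q hp)
    have h2 : ∀ k, (0 : dimDrop p q).1 (x k) = 0 := fun k => rfl
    simp only [stdM, h0, h1, h2]
    rw [← Pi.zero_def, ← Pi.zero_def, ← Pi.zero_def, Matrix.blockDiagonal_zero,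
      Matrix.blockDiagonal_zero, Matrix.blockDiagonal_zero, Matrix.fromBlocks_zero,
      Matrix.fromBlocks_zero]
  map_add' f g := by
    have h0 : lftM p q ((f + g).1 0) = lftM p q (f.1 0) + lftM p q (g.1 0) :=
      map_add (repZ p q hq) f g
    have h1 : rgtM p q ((f + g).1 1) = rgtM p q (f.1 1) + rgtM p q (g.1 1) :=
      map_add (repO p q hp) f g
    have h2 : ∀ k, (f + g).1 (x k) = f.1 (x k) + g.1 (x k) := fun k => rfl
    simp only [stdM, h0, h1, h2, Matrix.fromBlocks_add, add_zero, ← Matrix.blockDiagonal_add]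
    rfl
  commutes' c := by
    have h0 : lftM p q ((algebraMap ℂ (dimDrop p q) c).1 0) = c • 1 := by
      rw [← Algebra.algebraMap_eq_smul_one]; exact (repZ p q hq).commutes c
    have h1 : rgtM p q ((algebraMap ℂ (dimDrop p q) c).1 1) = c • 1 := by
      rw [← Algebra.algebraMap_eq_smul_one]; exact (repO p q hp).commutes c
    have h2 : ∀ k, (algebraMap ℂ (dimDrop p q) c).1 (x k) = c • 1 := by
      intro k
      rw [← Algebra.algebraMap_eq_smul_one]; exact (evD p q (x k)).commutes c
    simp only [stdM, h0, h1, h2]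
    have e0 : (Matrix.blockDiagonal fun _ : κ₀ => c • (1 : Matrix (Fin p) (Fin p) ℂ)) = c • 1 := by
      have := Matrix.blockDiagonal_smul c (fun _ : κ₀ => (1 : Matrix (Fin p) (Fin p) ℂ))
      rw [← Pi.one_def, Matrix.blockDiagonal_one] at this
      rw [← this]; rfl
    have e1 : (Matrix.blockDiagonal fun _ : κ₁ => c • (1 : Matrix (Fin q) (Fin q) ℂ)) = c • 1 := by
      have := Matrix.blockDiagonal_smul c (fun _ : κ₁ => (1 : Matrix (Fin q) (Fin q) ℂ))
      rw [← Pi.one_def, Matrix.blockDiagonal_one] at this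
      rw [← this]; rfl
    have e2 : (Matrix.blockDiagonal fun _ : κ =>
        c • (1 : Matrix (Fin p × Fin q) (Fin p × Fin q) ℂ)) = c • 1 := by
      have := Matrix.blockDiagonal_smul c
        (fun _ : κ => (1 : Matrix (Fin p × Fin q) (Fin p × Fin q) ℂ))
      rw [← Pi.one_def, Matrix.blockDiagonal_one] at this
      rw [← this]; rfl
    rw [e0, e1, e2, Algebra.algebraMap_eq_smul_one, ← Matrix.fromBlocks_one,
      ← Matrix.fromBlocks_one, Matrix.fromBlocks_smul, Matrix.fromBlocks_smul, smul_zero,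
      smul_zero, smul_zero, smul_zero]
  map_star' f := by
    have h0 : lftM p q ((star f).1 0) = star (lftM p q (f.1 0)) :=
      map_star (repZ p q hq) f
    have h1 : rgtM p q ((star f).1 1) = star (rgtM p q (f.1 1)) :=
      map_star (repO p q hp) f
    have h2 : ∀ k, (star f).1 (x k) = star (f.1 (x k)) := fun k => rfl
    simp only [stdM, h0, h1, h2, Matrix.star_eq_conjTranspose, Matrix.fromBlocks_conjTranspose,
      Matrix.conjTranspose_zero, Matrix.blockDiagonal_conjTranspose]

@[simp] theorem stdRep_apply {p q : ℕ} (hp : 0 < p) (hq : 0 < q) (κ₀ κ₁ : Type) {κ : Type}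
    [Fintype κ₀] [DecidableEq κ₀] [Fintype κ₁] [DecidableEq κ₁] [Fintype κ] [DecidableEq κ]
    (x : κ → unitInterval) (f : dimDrop p q) :
    stdRep hp hq κ₀ κ₁ x f = stdM κ₀ κ₁ x f := rfl

/-- Trace of the standard representation at a scalar function.  (`Matrix.trace_fromBlocks`,
`Matrix.trace_blockDiagonal`.) -/
theorem trace_stdRep_scalD {p q : ℕ} (hp : 0 < p) (hq : 0 < q) (κ₀ κ₁ : Type) {κ : Type}
    [Fintype κ₀] [DecidableEq κ₀] [Fintype κ₁] [DecidableEq κ₁] [Fintype κ] [DecidableEq κ]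
    (x : κ → unitInterval) (g : C(unitInterval, ℂ)) :
    (stdRep hp hq κ₀ κ₁ x (scalD p q g)).trace =
      p * Fintype.card κ₀ * g 0 + (q * Fintype.card κ₁ * g 1 + p * q * ∑ k, g (x k)) := by
  sorry

/-- The difference of two standard representations.  Proof: the map
`(A, B, C) ↦ fromBlocks (blockDiagonal A) 0 0 (fromBlocks (blockDiagonal B) 0 0 (blockDiagonal C))`
is a *-homomorphism of C*-algebras from `(κ₀ → M_p) × (κ₁ → M_q) × (κ → M_pq)` (Mathlib: products
of C*-algebras are C*-algebras with the sup norm), hence contractive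
(`NonUnitalStarAlgHom.norm_apply_le`), and the difference is the image of
`(0, 0, fun k => f.1 (x k) - f.1 (y k))`. -/
theorem stdRep_sub_norm_le {p q : ℕ} (hp : 0 < p) (hq : 0 < q) (κ₀ κ₁ : Type) {κ : Type}
    [Fintype κ₀] [DecidableEq κ₀] [Fintype κ₁] [DecidableEq κ₁] [Fintype κ] [DecidableEq κ]
    (x y : κ → unitInterval) (f : dimDrop p q) {ε : ℝ} (hε : 0 ≤ ε)
    (h : ∀ k, ‖f.1 (x k) - f.1 (y k)‖ ≤ ε) :
    ‖stdRep hp hq κ₀ κ₁ x f - stdRep hp hq κ₀ κ₁ y f‖ ≤ ε := by
  sorry

/-- Continuity of the standard representation in the evaluation points (entrywise). -/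
theorem stdRep_continuous {p q : ℕ} (hp : 0 < p) (hq : 0 < q) (κ₀ κ₁ : Type) {κ : Type}
    [Fintype κ₀] [DecidableEq κ₀] [Fintype κ₁] [DecidableEq κ₁] [Fintype κ] [DecidableEq κ]
    {X : Type*} [TopologicalSpace X] (x : X → κ → unitInterval) (hx : Continuous x)
    (f : dimDrop p q) : Continuous fun s => stdRep hp hq κ₀ κ₁ (x s) f := by
  sorry

end Crest.Agent.JS
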