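import Crest.Agent.JS.F.Basic

/-!
# Row 117, Part F, chunks TRACE, TRACEPOS, FAITHFUL: traces on a Jiang-Su algebra
-/

set_option autoImplicit false

namespace Crest.Agent.JS

open Crest.AnalysisR.CStar
open scoped Kronecker Matrix.Norms.L2Operator

universe v

/-- normalised trace -/
noncomputable def ntr {ι : Type} [Fintype ι] (A : Matrix ι ι ℂ) : ℂ :=
  (Fintype.card ι : ℂ)⁻¹ * A.trace

/-- entries are bounded by the operator norm -/
private theorem entry_le {ι : Type} [Fintype ι] [DecidableEq ι] (A : Matrix ι ι ℂ) (i j : ι) :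
    ‖A i j‖ ≤ ‖A‖ := by
  have h := Matrix.l2_opNorm_mulVec A (EuclideanSpace.single j (1 : ℂ))
  rw [PiLp.norm_single, norm_one, mul_one] at h
  refine le_trans ?_ h
  have h2 := PiLp.norm_apply_le ((EuclideanSpace.equiv ι ℂ).symm
    (A.mulVec (EuclideanSpace.single j (1 : ℂ)))) i
  refine le_trans (le_of_eq ?_) h2
  congr 1
  simp

/-- (TRACENORM) The normalised trace is contractive for the operator norm:
`|A i i| ≤ ‖A‖` (apply `Matrix.l2_opNorm_mulVec` to a unit vector), sum and divide. -/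
theorem ntr_norm_le {ι : Type} [Fintype ι] [DecidableEq ι] (A : Matrix ι ι ℂ) :
    ‖ntr A‖ ≤ ‖A‖ := by
  unfold ntr
  rcases Nat.eq_zero_or_pos (Fintype.card ι) with h0 | h0
  · rw [h0]; simp
  · rw [norm_mul, norm_inv, Complex.norm_natCast, inv_mul_le_iff₀ (by exact_mod_cast h0)]
    refine (norm_sum_le _ _).trans ?_
    refine (Finset.sum_le_sum fun i _ => entry_le A i i).trans ?_
    rw [Finset.sum_const, nsmul_eq_mul, Finset.card_univ]

/-- normalised trace as a linear map -/
private noncomputable def ntrL (ι : Type) [Fintype ι] : Matrix ι ι ℂ →ₗ[ℂ] ℂ where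
  toFun := ntr
  map_add' A B := by simp [ntr, Matrix.trace_add, mul_add]
  map_smul' c A := by simp [ntr, Matrix.trace_smul]; ring

private theorem ntr_comm {ι : Type} [Fintype ι] (A B : Matrix ι ι ℂ) : ntr (A * B) = ntr (B * A) := by
  unfold ntr
  rw [Matrix.trace_mul_comm]

private theorem ntr_one {ι : Type} [Fintype ι] [DecidableEq ι] (h : 0 < Fintype.card ι) :
    ntr (1 : Matrix ι ι ℂ) = 1 := by
  unfold ntr
  rw [Matrix.trace_one, inv_mul_cancel₀]
  exact_mod_cast h.ne'

private theorem ntr_pos {ι : Type} [Fintype ι] (A : Matrix ι ι ℂ) :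
    ∃ r : ℝ, 0 ≤ r ∧ ntr (star A * A) = (r : ℂ) := by
  refine ⟨(Fintype.card ι : ℝ)⁻¹ * ∑ j, ∑ i, ‖A i j‖ ^ 2, by positivity, ?_⟩
  unfold ntr
  push_cast
  congr 1
  rw [Matrix.trace]
  refine Finset.sum_congr rfl fun j _ => ?_
  rw [Matrix.diag_apply, Matrix.mul_apply]
  refine Finset.sum_congr rfl fun i _ => ?_
  rw [Matrix.star_apply]
  have := Complex.conj_mul' (A i j)
  simpa using this

/-- nonnegative real numbers in `ℂ` -/
private def RP : Set ℂ := {z | ∃ r : ℝ, 0 ≤ r ∧ z = (r : ℂ)}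

private theorem RP_eq : RP = {z | 0 ≤ z.re ∧ z.im = 0} := by
  ext z
  constructor
  · rintro ⟨r, hr, rfl⟩
    exact ⟨by simpa using hr, by simp⟩
  · rintro ⟨h1, h2⟩
    exact ⟨z.re, h1, Complex.ext (by simp) (by simp [h2])⟩

private theorem RP_closed : IsClosed RP := by
  rw [RP_eq]
  exact (isClosed_le continuous_const Complex.continuous_re).inter
    (isClosed_eq Complex.continuous_im continuous_const)

/-- (TRACE) Uniform convergence of the traces of the building blocks to the unique trace.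

Proof.  Suppose not: for every `m₀ ≥ n` there are `m ≥ m₀` and `s` with
`‖ntr ((e m x).1 s) - τ x‖ > c`.  Choose a strictly increasing sequence (or just
`m j ≥ max n j`) `m j` and `s j`, `j : ℕ`.  Define `φ_j : B (m j) → ℂ`,
`φ_j b = ntr ((e (m j) b).1 (s j))`: a linear functional, `‖φ_j b‖ ≤ ‖(b : Z)‖`
(`ntr_norm_le`, `norm_equiv_apply_le`), tracial (`Matrix.trace_mul_comm`), `φ_j 1 = 1`
(`p, q > 0`), `φ_j (star b * b) ≥ 0` (trace of a positive semidefinite matrix).
For `z : Z` choose `a_j(z) ∈ B (m j)` with `a_j(z) → z` in norm (possible since `⋃ B m` is dense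
and `B` is monotone and `m j ≥ j`: e.g. choose `a_j(z)` with
`‖z - a_j(z)‖ ≤ infDist z (B (m j)) + 1/(j+1)`).  Let `ω` be the ultrafilter `Filter.hyperfilter ℕ`;
the bounded sequence `φ_j (a_j(z))` converges along `ω` to some `τ'(z)`
(e.g. `Ultrafilter` + compactness of closed balls of `ℂ`: `IsCompact.ultrafilter_le_nhds'`).
Two choices of approximating sequences give the same limit (contractivity), hence `τ'` is linear,
`τ'(1) = 1`, `τ'(z w) = τ'(w z)` (use `a_j(z) a_j(w) → z w`), `τ'(star z * z) ≥ 0`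
(use `star (a_j z) * a_j z → star z * z`; limits of nonnegative reals).  So `IsTracialState τ'`,
`τ' = τ` by uniqueness.  But for `x ∈ B n` we may use the constant sequence (`n ≤ m j`), so
`φ_j (x) → τ' x = τ x` along `ω`, contradicting `‖φ_j x - τ x‖ > c` for all `j`. -/
theorem trace_conv (Z : Type v) [CStarAlgebra Z] (τ : Z →ₗ[ℂ] ℂ)
    (huniq : ∀ τ' : Z →ₗ[ℂ] ℂ, IsTracialState τ' → τ' = τ)
    (B : ℕ → StarSubalgebra ℂ Z) (hB : Monotone B) (hd : Dense (⋃ n, (B n : Set Z)))
    (p q : ℕ → ℕ) (hp : ∀ n, 2 ≤ p n) (hq : ∀ n, 2 ≤ q n)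
    (e : ∀ n, B n ≃⋆ₐ[ℂ] dimDrop (p n) (q n)) (n : ℕ) (x : B n) (c : ℝ) (hc : 0 < c) :
    ∃ m₀, ∀ m, m₀ ≤ m → ∀ h : n ≤ m, ∀ s,
      ‖ntr ((e m (StarSubalgebra.inclusion (hB h) x)).1 s) - τ (x : Z)‖ ≤ c := by
  by_contra hcon
  push Not at hcon
  -- a sequence of bad levels
  choose m hm hn s hs using fun j : ℕ => hcon (max n j)
  have hmj : ∀ j, j ≤ m j := fun j => (le_max_right n j).trans (hm j)
  -- the functionals on the building blocks
  have hex : ∀ j, ∃ g : StrongDual ℂ Z, ‖g‖ ≤ 1 ∧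
      ∀ b : B (m j), g (b : Z) = ntr ((e (m j) b).1 (s j)) := by
    intro j
    let f0 : ((B (m j)).toSubalgebra.toSubmodule) →ₗ[ℂ] ℂ :=
      { toFun := fun b => ntr ((e (m j) ⟨b.1, b.2⟩).1 (s j))
        map_add' := by
          intro a b
          have h1 : (⟨(a + b).1, (a + b).2⟩ : B (m j)) = ⟨a.1, a.2⟩ + ⟨b.1, b.2⟩ := rfl
          rw [h1, map_add]
          exact (ntrL _).map_add _ _
        map_smul' := by
          intro c a
          have h1 : (⟨(c • a).1, (c • a).2⟩ : B (m j)) = c • ⟨a.1, a.2⟩ := rfl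
          rw [h1, map_smul]
          exact (ntrL _).map_smul _ _ }
    have hb : ∀ b, ‖f0 b‖ ≤ 1 * ‖b‖ := by
      intro b
      rw [one_mul]
      exact (ntr_norm_le _).trans (norm_equiv_apply_le (B (m j)) (e (m j)) ⟨b.1, b.2⟩ (s j))
    obtain ⟨g, hg1, hg2⟩ := exists_extension_norm_eq ((B (m j)).toSubalgebra.toSubmodule)
      (f0.mkContinuous 1 hb)
    refine ⟨g, ?_, fun b => hg1 ⟨b.1, b.2⟩⟩
    rw [hg2]
    exact f0.mkContinuous_norm_le zero_le_one hb
  choose g hg1 hg2 using hex
  -- weak-* cluster point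
  set Φ : ℕ → WeakDual ℂ Z := fun j => StrongDual.toWeakDual (g j) with hΦ
  have hK : IsCompact (WeakDual.toStrongDual ⁻¹' Metric.closedBall (0 : StrongDual ℂ Z) 1) :=
    WeakDual.isCompact_closedBall 0 1
  obtain ⟨T, -, hT⟩ := hK.ultrafilter_le_nhds ((Filter.hyperfilter ℕ).map Φ) (by
    rw [Ultrafilter.coe_map, Filter.map_le_iff_le_comap, Filter.comap_principal]
    rw [Filter.le_principal_iff]
    filter_upwards with j
    simpa [hΦ] using hg1 j)
  have hlim : Filter.Tendsto Φ (Filter.hyperfilter ℕ) (nhds T) := hT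
  have hev : ∀ k : ℕ, ∀ᶠ j in (Filter.hyperfilter ℕ : Filter ℕ), k ≤ m j := by
    intro k
    have : ∀ᶠ j in (Filter.cofinite : Filter ℕ), k ≤ m j := by
      rw [Nat.cofinite_eq_atTop]
      filter_upwards [Filter.eventually_ge_atTop k] with j hj
      exact hj.trans (hmj j)
    exact Filter.hyperfilter_le_cofinite this
  have hval : ∀ z : Z, Filter.Tendsto (fun j => g j z) (Filter.hyperfilter ℕ) (nhds (T z)) := by
    intro z
    exact ((WeakDual.eval_continuous z).tendsto T).comp hlim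
  have hTc : Continuous fun z : Z => T z := (WeakDual.toStrongDual T).continuous
  have hcl : closure (⋃ n, (B n : Set Z)) = Set.univ := hd.closure_eq
  -- tracial
  have htr0 : ∀ a ∈ (⋃ n, (B n : Set Z)), ∀ b ∈ (⋃ n, (B n : Set Z)), T (a * b) = T (b * a) := by
    intro a ha b hb
    obtain ⟨k, hk⟩ := Set.mem_iUnion.1 ha
    obtain ⟨l, hl⟩ := Set.mem_iUnion.1 hb
    refine tendsto_nhds_unique ((hval (a * b)).congr' ?_) (hval (b * a))
    filter_upwards [hev k, hev l] with j hj1 hj2
    have ha' : a ∈ B (m j) := hB hj1 hk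
    have hb' : b ∈ B (m j) := hB hj2 hl
    have h1 := hg2 j (⟨a, ha'⟩ * ⟨b, hb'⟩)
    have h2 := hg2 j (⟨b, hb'⟩ * ⟨a, ha'⟩)
    rw [map_mul] at h1 h2
    have h3 := ntr_comm ((e (m j) ⟨a, ha'⟩).1 (s j)) ((e (m j) ⟨b, hb'⟩).1 (s j))
    calc g j (a * b) = _ := h1
      _ = _ := h3
      _ = g j (b * a) := h2.symm
  have htr : ∀ a b : Z, T (a * b) = T (b * a) := by
    have h1 : ∀ a ∈ (⋃ n, (B n : Set Z)), ∀ b, T (a * b) = T (b * a) := by
      intro a ha b
      have hc : IsClosed {b : Z | T (a * b) = T (b * a)} :=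
        isClosed_eq (hTc.comp (by fun_prop)) (hTc.comp (by fun_prop))
      have := closure_minimal (htr0 a ha) hc
      rw [hcl] at this
      exact this (Set.mem_univ b)
    intro a b
    have hc : IsClosed {a : Z | T (a * b) = T (b * a)} :=
      isClosed_eq (hTc.comp (by fun_prop)) (hTc.comp (by fun_prop))
    have := closure_minimal (fun a ha => h1 a ha b) hc
    rw [hcl] at this
    exact this (Set.mem_univ a)
  -- positive
  have hpos0 : ∀ a ∈ (⋃ n, (B n : Set Z)), T (star a * a) ∈ RP := by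
    intro a ha
    obtain ⟨k, hk⟩ := Set.mem_iUnion.1 ha
    refine RP_closed.mem_of_tendsto (hval (star a * a)) ?_
    filter_upwards [hev k] with j hj1
    have ha' : a ∈ B (m j) := hB hj1 hk
    have h1 := hg2 j (star ⟨a, ha'⟩ * ⟨a, ha'⟩)
    rw [map_mul, map_star] at h1
    obtain ⟨r, hr, hr2⟩ := ntr_pos ((e (m j) ⟨a, ha'⟩).1 (s j))
    refine ⟨r, hr, ?_⟩
    calc g j (star a * a) = _ := h1
      _ = _ := hr2
  have hpos : ∀ a : Z, T (star a * a) ∈ RP := by
    intro a
    have hc : IsClosed {a : Z | T (star a * a) ∈ RP} :=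
      RP_closed.preimage (hTc.comp (by fun_prop))
    have := closure_minimal hpos0 hc
    rw [hcl] at this
    exact this (Set.mem_univ a)
  -- unital
  have hone : T 1 = 1 := by
    refine tendsto_nhds_unique ((hval 1).congr' ?_) tendsto_const_nhds
    filter_upwards with j
    have h1 := hg2 j 1
    rw [map_one] at h1
    calc g j 1 = _ := h1
      _ = 1 := by
        refine ntr_one ?_
        rw [Fintype.card_prod, Fintype.card_fin, Fintype.card_fin]
        exact Nat.mul_pos (by have := hp (m j); omega) (by have := hq (m j); omega)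
  have hTτ : (WeakDual.toStrongDual T : Z →ₗ[ℂ] ℂ) = τ := by
    apply huniq
    exact ⟨hone, hpos, htr⟩
  -- contradiction
  have hx : ‖T (x : Z) - τ (x : Z)‖ ≥ c := by
    refine ge_of_tendsto (((hval (x : Z)).sub_const (τ (x : Z))).norm) ?_
    filter_upwards with j
    have h1 := hg2 j (StarSubalgebra.inclusion (hB (hn j)) x)
    have h2 : ((StarSubalgebra.inclusion (hB (hn j)) x : B (m j)) : Z) = (x : Z) := rfl
    rw [h2] at h1
    rw [h1]
    exact (hs j).le
  have hx2 : T (x : Z) = τ (x : Z) := by rw [← hTτ]; rfl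
  rw [hx2, sub_self, norm_zero] at hx
  linarith

/-- (FAITHFUL) The trace of a simple algebra is faithful.

Proof.  `N = {z | τ (star z * z) = 0}` is a two-sided ideal: by the Cauchy-Schwarz inequality for
the positive form `(a, b) ↦ τ (star a * b)`, `z ∈ N` iff `τ (star a * z) = 0` for all `a`
(so `N` is a subspace and a left ideal: `τ (star a * (b * z)) = τ (star (star b * a) * z) = 0`),
and `τ (star a * (z * b)) = τ ((b * star a) * z) = 0`, so it is a right ideal too.
`1 ∉ N`.  `IsSimpleRing` gives `N = ⊥`.  (Cauchy-Schwarz: `|τ(star a * z)|² ≤ τ(star a * a)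
τ(star z * z)`; only the case `τ (star z * z) = 0` is needed: for all complex `λ`,
`0 ≤ τ (star (a + λ z) (a + λ z)) = τ(a* a) + 2 Re (λ τ(a* z))`.) -/
theorem trace_faithful (Z : Type v) [CStarAlgebra Z] (hs : IsSimpleRing Z) (τ : Z →ₗ[ℂ] ℂ)
    (hτ : IsTracialState τ) (x : Z) (hx : x ≠ 0) : 0 < (τ (star x * x)).re := by
  obtain ⟨h1, hpos, htr⟩ := hτ
  obtain ⟨r, hr, hxr⟩ := hpos x
  rw [hxr, Complex.ofReal_re]
  refine lt_of_le_of_ne hr fun hr0 => hx ?_
  rw [← hr0, Complex.ofReal_zero] at hxr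
  -- Cauchy-Schwarz
  have hCS : ∀ a : Z, τ (star a * x) = 0 := by
    intro a
    set u := τ (star a * x) with hu
    set w := τ (star x * a) with hw
    have key : ∀ l : ℂ, ∃ r : ℝ, 0 ≤ r ∧
        τ (star a * a) + l * u + (starRingEnd ℂ) l * w = (r : ℂ) := by
      intro l
      obtain ⟨r, hr, h⟩ := hpos (a + l • x)
      refine ⟨r, hr, ?_⟩
      rw [← h]
      have e : star (a + l • x) * (a + l • x) = star a * a + l • (star a * x) +
          (starRingEnd ℂ) l • (star x * a) + ((starRingEnd ℂ) l * l) • (star x * x) := by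
        rw [star_add, star_smul, add_mul, mul_add, mul_add, smul_mul_assoc, mul_smul_comm,
          smul_mul_assoc, mul_smul_comm, smul_smul]
        simp only [starRingEnd_apply]
        abel
      rw [e, map_add, map_add, map_add, map_smul, map_smul, map_smul, hxr]
      simp [hu, hw]
    obtain ⟨r0, hr0, h0⟩ := hpos a
    obtain ⟨r1, -, e1⟩ := key 1
    obtain ⟨r2, -, e2⟩ := key Complex.I
    rw [h0] at e1 e2
    have i1 : u.im + w.im = 0 := by
      have := congrArg Complex.im e1
      simpa using this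
    have i2 : u.re - w.re = 0 := by
      have := congrArg Complex.im e2
      simp at this
      linarith
    by_contra hne
    have hN : 0 < Complex.normSq u := Complex.normSq_pos.2 hne
    obtain ⟨r3, hr3, e3⟩ := key (-(((r0 + 1) / Complex.normSq u : ℝ) : ℂ) * (starRingEnd ℂ) u)
    rw [h0] at e3
    have hw' : w = (starRingEnd ℂ) u := by
      apply Complex.ext
      · simp; linarith
      · simp; linarith
    rw [hw'] at e3
    have e4 : (r0 : ℂ) + -(((r0 + 1) / Complex.normSq u : ℝ) : ℂ) * (starRingEnd ℂ) u * u +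
        (starRingEnd ℂ) (-(((r0 + 1) / Complex.normSq u : ℝ) : ℂ) * (starRingEnd ℂ) u) *
          (starRingEnd ℂ) u = ((r0 - 2 * ((r0 + 1) / Complex.normSq u) * Complex.normSq u : ℝ) : ℂ) := by
      rw [map_mul, map_neg, Complex.conj_ofReal, Complex.conj_conj]
      have e5 : (starRingEnd ℂ) u * u = ((Complex.normSq u : ℝ) : ℂ) := by
        rw [mul_comm, Complex.mul_conj]
      have e6 : u * (starRingEnd ℂ) u = ((Complex.normSq u : ℝ) : ℂ) := Complex.mul_conj u
      rw [mul_assoc, mul_assoc, e5, e6]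
      push_cast
      ring
    rw [e4] at e3
    have e7 : r0 - 2 * ((r0 + 1) / Complex.normSq u) * Complex.normSq u = r3 := by
      exact_mod_cast e3
    have e8 : (r0 + 1) / Complex.normSq u * Complex.normSq u = r0 + 1 :=
      div_mul_cancel₀ _ hN.ne'
    nlinarith
  -- the ideal
  let N : TwoSidedIdeal Z := TwoSidedIdeal.mk' {z | ∀ a : Z, τ (a * z) = 0}
    (by intro a; simp)
    (by
      intro y z hy hz a
      rw [mul_add, map_add, hy a, hz a, add_zero])
    (by
      intro y hy a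
      rw [mul_neg, map_neg, hy a, neg_zero])
    (by
      intro y z hz a
      rw [← mul_assoc]
      exact hz (a * y))
    (by
      intro y z hy a
      rw [← mul_assoc, htr, ← mul_assoc]
      exact hy (z * a))
  have hmem : ∀ z, z ∈ N ↔ ∀ a : Z, τ (a * z) = 0 := fun z => by
    rw [TwoSidedIdeal.mem_mk']
    rfl
  have hN : N ≠ ⊤ := by
    intro h
    have : (1 : Z) ∈ N := by rw [h]; trivial
    have h2 := (hmem 1).1 this 1
    rw [mul_one, h1] at h2
    exact one_ne_zero h2
  have hb : N = ⊥ := (hs.simple.eq_bot_or_eq_top N).resolve_right hN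
  have hxN : x ∈ N := (hmem x).2 fun a => by
    have := hCS (star a)
    rwa [star_star] at this
  rw [hb] at hxN
  exact (TwoSidedIdeal.mem_bot Z).1 hxN

end Crest.Agent.JS
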