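import Crest.Agent.JS.F.NormalForm
import Crest.Agent.JS.F.Lists
import Crest.Agent.JS.F.PathLift

/-!
# Row 117, Part F: a path of representations of `I[p,q]` with nearly constant lists is
approximately unitarily trivial
-/

set_option autoImplicit false

namespace Crest.Agent.JS

open Crest.AnalysisR.CStar
open scoped Kronecker Matrix.Norms.L2Operator

/-- uniform continuity of finitely many elements -/
theorem exists_modulus {p q : ℕ} (F : Finset (dimDrop p q)) (ε : ℝ) (hε : 0 < ε) :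
    ∃ K : ℕ, 0 < K ∧ ∀ f ∈ F, ∀ x y : unitInterval, |(x : ℝ) - y| ≤ 2 / K →
      ‖f.1 x - f.1 y‖ ≤ ε := by
  classical
  induction F using Finset.induction_on with
  | empty => exact ⟨1, one_pos, fun f hf => by simp at hf⟩
  | insert f F _ ih =>
    obtain ⟨K, hK, hKF⟩ := ih
    have hu : UniformContinuous f.1 := CompactSpace.uniformContinuous_of_continuous f.1.continuous
    obtain ⟨δ, hδ, hδf⟩ := Metric.uniformContinuous_iff.1 hu ε hε
    obtain ⟨K', hK'⟩ := exists_nat_gt (2 / δ)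
    have hK'0 : (0 : ℝ) < K' := lt_of_le_of_lt (by positivity) hK'
    refine ⟨K + K', by omega, ?_⟩
    intro g hg x y hxy
    rcases Finset.mem_insert.1 hg with rfl | hg
    · have h1 : (2 : ℝ) / ((K + K' : ℕ) : ℝ) ≤ 2 / K' := by
        push_cast
        gcongr
        linarith [(Nat.cast_nonneg K : (0 : ℝ) ≤ K)]
      have h2 : (2 : ℝ) / K' < δ := by
        rw [div_lt_iff₀ hK'0]
        rw [div_lt_iff₀ hδ] at hK'
        linarith
      have h3 : dist x y < δ := by
        rw [Subtype.dist_eq, Real.dist_eq]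
        linarith
      have h4 := hδf h3
      rw [dist_eq_norm] at h4
      exact h4.le
    · refine hKF g hg x y (hxy.trans ?_)
      push_cast
      have hK0 : (0 : ℝ) < K := by exact_mod_cast hK
      gcongr
      linarith

theorem norm_le_one_of_mem_unitary' {M : Type*} [CStarAlgebra M] {U : M} (h : U ∈ unitary M) :
    ‖U‖ ≤ 1 := by
  have h1 : star U * U = 1 := h.1
  have h2 : ‖U‖ * ‖U‖ = ‖(1 : M)‖ := by rw [← CStarRing.norm_star_mul_self, h1]
  have h3 : ‖(1 : M)‖ ≤ 1 := by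
    rcases subsingleton_or_nontrivial M with hs | hn
    · rw [Subsingleton.elim (1 : M) 0, norm_zero]; norm_num
    · rw [CStarRing.norm_one]
  nlinarith [norm_nonneg U]

open Filter Topology in
/-- sorted lists whose ramp sums depend continuously on a parameter are continuous -/
theorem lists_continuous {L : ℕ} (x : unitInterval → Fin L → unitInterval)
    (hm : ∀ s, Monotone (x s))
    (hcont : ∀ K k : ℕ, Continuous fun s => ∑ j, rampR K k (x s j)) : Continuous x := by
  rw [continuous_pi_iff]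
  intro j
  rw [continuous_iff_continuousAt]
  intro s₀
  unfold ContinuousAt
  rw [Metric.tendsto_nhds]
  intro ε hε
  obtain ⟨K, hK⟩ := exists_nat_gt (2 / ε)
  have hK0 : (0 : ℝ) < K := lt_of_le_of_lt (by positivity) hK
  have hK0' : 0 < K := by exact_mod_cast hK0
  have h2 : (2 : ℝ) / K < ε := by
    rw [div_lt_iff₀ hK0]
    rw [div_lt_iff₀ hε] at hK
    linarith
  have hev : ∀ᶠ s in 𝓝 s₀, ∀ k ∈ Finset.range K,
      |∑ j, rampR K k (x s j) - ∑ j, rampR K k (x s₀ j)| < 1 := by
    rw [Finset.eventually_all]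
    intro k _
    have h := (hcont K k).continuousAt (x := s₀)
    unfold ContinuousAt at h
    rw [Metric.tendsto_nhds] at h
    have := h 1 one_pos
    simpa [Real.dist_eq] using this
  filter_upwards [hev] with s hs
  have h3 := lists_le hK0' (x s) (x s₀) (hm s) (hm s₀) (fun k hk => count_le' (x s) (x s₀)
    (lt_of_le_of_lt (le_abs_self _) (hs k (Finset.mem_range.2 hk)))) j
  have h4 := lists_le hK0' (x s₀) (x s) (hm s₀) (hm s) (fun k hk => count_le' (x s₀) (x s)
    (lt_of_le_of_lt (le_abs_self _) (by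
      rw [abs_sub_comm]; exact hs k (Finset.mem_range.2 hk)))) j
  rw [Subtype.dist_eq, Real.dist_eq]
  refine lt_of_le_of_lt ?_ h2
  rw [abs_le]
  constructor <;> linarith

/-- reindexing of matrices as a star homomorphism -/
noncomputable def rindex {κ ι : Type} [Fintype κ] [DecidableEq κ] [Fintype ι] [DecidableEq ι]
    (σ : ι ≃ κ) : Matrix κ κ ℂ →⋆ₐ[ℂ] Matrix ι ι ℂ where
  toFun A := A.submatrix σ σ
  map_one' := Matrix.submatrix_one_equiv σ
  map_mul' A B := (Matrix.submatrix_mul_equiv A B σ σ σ).symm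
  map_zero' := rfl
  map_add' A B := rfl
  commutes' c := by
    ext i j
    simp [Matrix.algebraMap_matrix_apply]
  map_star' A := by
    ext i j
    simp [Matrix.star_eq_conjTranspose]

@[simp] theorem rindex_apply {κ ι : Type} [Fintype κ] [DecidableEq κ] [Fintype ι] [DecidableEq ι]
    (σ : ι ≃ κ) (A : Matrix κ κ ℂ) : rindex σ A = A.submatrix σ σ := rfl

theorem card_eq_of_unitary {κ ι : Type} [Fintype κ] [DecidableEq κ] [Fintype ι] [DecidableEq ι]
    (U : Matrix ι κ ℂ) (h1 : U.conjTranspose * U = 1) (h2 : U * U.conjTranspose = 1) :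
    Fintype.card ι = Fintype.card κ := by
  have h : (U.conjTranspose * U).trace = (U * U.conjTranspose).trace := Matrix.trace_mul_comm _ _
  rw [h1, h2, Matrix.trace_one, Matrix.trace_one] at h
  exact_mod_cast h.symm

/-- A path of representations of `I[p,q]` whose ramp traces are nearly constant is approximately
implemented by a path of unitaries. -/
theorem exists_unitary_path {p q : ℕ} (hp : 0 < p) (hq : 0 < q) (hc : Nat.Coprime p q)
    (F : Finset (dimDrop p q)) (ε : ℝ) (hε : 0 < ε) :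
    ∃ K : ℕ, 0 < K ∧ ∀ (ι : Type) [Fintype ι] [DecidableEq ι]
      (γ : unitInterval → (dimDrop p q →⋆ₐ[ℂ] Matrix ι ι ℂ)), (∀ f, Continuous fun s => γ s f) →
      (∀ k < K, ∀ s t, |((γ s (scalD p q (rampC K k))).trace).re -
          ((γ t (scalD p q (rampC K k))).trace).re| ≤
          ((γ t (scalD p q (bmpC K k))).trace).re) →
      ∃ v : C(unitInterval, Matrix ι ι ℂ), (∀ s, v s ∈ unitary (Matrix ι ι ℂ)) ∧ v 0 = 1 ∧
        ∀ s, ∀ f ∈ F, ‖γ s f - v s * γ 0 f * star (v s)‖ ≤ ε := by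
  obtain ⟨K, hK, hmod⟩ := exists_modulus F (ε / 4) (by positivity)
  refine ⟨K, hK, ?_⟩
  intro ι _ _ γ hγ hH
  -- normal forms
  obtain ⟨r₀, r₁, L, x0, U0, hr0, hr1, hm0, hU0, hU0', hf0⟩ := exists_std hp hq (γ 0)
  have hcard0 := card_eq_of_unitary U0 hU0 hU0'
  have hnf : ∀ s, ∃ (x : Fin L → unitInterval)
      (U : Matrix ι (SIx p q (Fin r₀) (Fin r₁) (Fin L)) ℂ), Monotone x ∧
      U.conjTranspose * U = 1 ∧ U * U.conjTranspose = 1 ∧
      ∀ f, γ s f = U * stdRep hp hq (Fin r₀) (Fin r₁) x f * U.conjTranspose := by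
    intro s
    obtain ⟨r₀', r₁', L', x, U, hr0', hr1', hm, hU, hU', hf⟩ := exists_std hp hq (γ s)
    have hcard := card_eq_of_unitary U hU hU'
    have := mult_unique hp hq hc hr0 hr1 hr0' hr1' (by
      rw [hcard0] at hcard
      simpa [SIx, Fintype.card_sum, Fintype.card_prod, Fintype.card_fin] using hcard)
    obtain ⟨rfl, rfl, rfl⟩ := this
    exact ⟨x, U, hm, hU, hU', hf⟩
  choose x U hm hU hU' hf using hnf
  -- traces
  have htr : ∀ s (g : C(unitInterval, ℂ)), (γ s (scalD p q g)).trace =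
      p * Fintype.card (Fin r₀) * g 0 + (q * Fintype.card (Fin r₁) * g 1 +
        p * q * ∑ k, g (x s k)) := by
    intro s g
    rw [hf, Matrix.trace_mul_comm, ← Matrix.mul_assoc, hU, Matrix.one_mul, trace_stdRep_scalD]
  have hpq : (0 : ℝ) < p * q := by
    have h1 : (0 : ℝ) < p := by exact_mod_cast hp
    have h2 : (0 : ℝ) < q := by exact_mod_cast hq
    positivity
  have htrR : ∀ s (K k : ℕ), ((γ s (scalD p q (rampC K k))).trace).re =
      p * r₀ * rampR K k 0 + (q * r₁ * rampR K k 1 + p * q * ∑ j, rampR K k (x s j)) := by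
    intro s K k
    rw [htr]
    have : (p * (Fintype.card (Fin r₀) : ℕ) * rampC K k 0 + (q * (Fintype.card (Fin r₁) : ℕ) *
        rampC K k 1 + p * q * ∑ j, rampC K k (x s j)) : ℂ) =
        ((p * r₀ * rampR K k 0 + (q * r₁ * rampR K k 1 + p * q * ∑ j, rampR K k (x s j)) : ℝ) :
          ℂ) := by
      push_cast
      simp
    rw [this, Complex.ofReal_re]
  have htrB : ∀ s (k : ℕ), k < K → ((γ s (scalD p q (bmpC K k))).trace).re =
      p * q * ∑ j, bmpR K k (x s j) := by
    intro s k hk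
    rw [htr]
    have : (p * (Fintype.card (Fin r₀) : ℕ) * bmpC K k 0 + (q * (Fintype.card (Fin r₁) : ℕ) *
        bmpC K k 1 + p * q * ∑ j, bmpC K k (x s j)) : ℂ) =
        ((p * q * ∑ j, bmpR K k (x s j) : ℝ) : ℂ) := by
      push_cast
      simp [bmpR_zero, bmpR_one hk]
    rw [this, Complex.ofReal_re]
  -- the lists are nearly constant
  have hclose : ∀ s t j, |(x s j : ℝ) - x t j| ≤ 2 / K := by
    have hone : ∀ s t j, (x t j : ℝ) ≤ x s j + 2 / K := by
      intro s t j
      refine lists_le hK (x s) (x t) (hm s) (hm t) (fun k hk => count_le (x s) (x t) ?_) j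
      have h1 := hH k hk s t
      rw [htrR, htrR, htrB t k hk] at h1
      have h2 := (le_abs_self _).trans h1
      have h3 : (p * q : ℝ) * (∑ j, rampR K k (x s j) - ∑ j, rampR K k (x t j)) ≤
          p * q * ∑ j, bmpR K k (x t j) := by linarith
      exact le_of_mul_le_mul_left h3 hpq
    intro s t j
    rw [abs_le]
    constructor <;> linarith [hone s t j, hone t s j]
  -- continuity of the lists
  have hxc : Continuous x := by
    refine lists_continuous x hm fun K' k => ?_
    have h1 : Continuous fun s => ((γ s (scalD p q (rampC K' k))).trace).re :=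
      Complex.continuous_re.comp ((hγ _).matrix_trace)
    have h2 : (fun s => ∑ j, rampR K' k (x s j)) = fun s =>
        (((γ s (scalD p q (rampC K' k))).trace).re - p * r₀ * rampR K' k 0 -
          q * r₁ * rampR K' k 1) / (p * q) := by
      funext s
      rw [htrR]
      field_simp
      ring
    rw [h2]
    fun_prop
  -- the reindexed standard representations
  let σ : ι ≃ SIx p q (Fin r₀) (Fin r₁) (Fin L) := Fintype.equivOfCardEq hcard0
  let D : unitInterval → (dimDrop p q →⋆ₐ[ℂ] Matrix ι ι ℂ) := fun s =>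
    (rindex σ).comp (stdRep hp hq (Fin r₀) (Fin r₁) (x s))
  have hD : ∀ f, Continuous fun s => D s f := by
    intro f
    exact (stdRep_continuous hp hq (Fin r₀) (Fin r₁) x hxc f).matrix_submatrix σ σ
  have hu1 : ∀ s, (U s).submatrix id σ ∈ unitary (Matrix ι ι ℂ) := by
    intro s
    rw [Unitary.mem_iff, Matrix.star_eq_conjTranspose, Matrix.conjTranspose_submatrix]
    constructor
    · rw [← Matrix.submatrix_mul _ _ σ id σ Function.bijective_id, hU,
        Matrix.submatrix_one_equiv]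
    · rw [Matrix.submatrix_mul_equiv, hU']
      exact Matrix.submatrix_one _ Function.injective_id
  let u : unitInterval → unitary (Matrix ι ι ℂ) := fun s => ⟨(U s).submatrix id σ, hu1 s⟩
  have hu : ∀ s f, γ s f = u s * D s f * star (u s : Matrix ι ι ℂ) := by
    intro s f
    show γ s f = (U s).submatrix id σ * (stdRep hp hq (Fin r₀) (Fin r₁) (x s) f).submatrix σ σ *
      star ((U s).submatrix id σ)
    rw [Matrix.star_eq_conjTranspose, Matrix.conjTranspose_submatrix, Matrix.submatrix_mul_equiv,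
      Matrix.submatrix_mul_equiv, hf s f]
    rfl
  obtain ⟨w, hw⟩ := path_lift γ D hγ hD u hu F (ε / 4) (by positivity)
  have hD0 : ∀ s, ∀ f ∈ F, ‖D s f - D 0 f‖ ≤ ε / 4 := by
    intro s f hfF
    have h1 := stdRep_sub_norm_le hp hq (Fin r₀) (Fin r₁) (x s) (x 0) f (ε := ε / 4) (by positivity)
      (fun k => hmod f hfF _ _ (hclose s 0 k))
    have h2 : D s f - D 0 f = rindex σ (stdRep hp hq (Fin r₀) (Fin r₁) (x s) f -
        stdRep hp hq (Fin r₀) (Fin r₁) (x 0) f) := by
      rw [map_sub]; rfl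
    rw [h2]
    exact (NonUnitalStarAlgHom.norm_apply_le _ _).trans h1
  have hcv : Continuous fun s => (w s : Matrix ι ι ℂ) * star (w 0 : Matrix ι ι ℂ) :=
    (continuous_subtype_val.comp w.continuous).mul continuous_const
  refine ⟨⟨fun s => (w s : Matrix ι ι ℂ) * star (w 0 : Matrix ι ι ℂ), hcv⟩, ?_, ?_, ?_⟩
  · intro s
    exact mul_mem (w s).2 (Unitary.star_mem (w 0).2)
  · exact (w 0).2.2
  · intro s f hfF
    show ‖γ s f - (w s : Matrix ι ι ℂ) * star (w 0 : Matrix ι ι ℂ) * γ 0 f *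
      star ((w s : Matrix ι ι ℂ) * star (w 0 : Matrix ι ι ℂ))‖ ≤ ε
    have hw0 : star (w 0 : Matrix ι ι ℂ) * (w 0 : Matrix ι ι ℂ) = 1 := (w 0).2.1
    have e : γ s f - (w s : Matrix ι ι ℂ) * star (w 0 : Matrix ι ι ℂ) * γ 0 f *
        star ((w s : Matrix ι ι ℂ) * star (w 0 : Matrix ι ι ℂ)) =
        (γ s f - (w s : Matrix ι ι ℂ) * D s f * star (w s : Matrix ι ι ℂ)) +
        (w s : Matrix ι ι ℂ) * (D s f - D 0 f) * star (w s : Matrix ι ι ℂ) -
        ((w s : Matrix ι ι ℂ) * star (w 0 : Matrix ι ι ℂ)) *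
          (γ 0 f - (w 0 : Matrix ι ι ℂ) * D 0 f * star (w 0 : Matrix ι ι ℂ)) *
          star ((w s : Matrix ι ι ℂ) * star (w 0 : Matrix ι ι ℂ)) := by
      have e1 : ((w s : Matrix ι ι ℂ) * star (w 0 : Matrix ι ι ℂ)) *
          ((w 0 : Matrix ι ι ℂ) * D 0 f * star (w 0 : Matrix ι ι ℂ)) *
          star ((w s : Matrix ι ι ℂ) * star (w 0 : Matrix ι ι ℂ)) =
          (w s : Matrix ι ι ℂ) * D 0 f * star (w s : Matrix ι ι ℂ) := by
        rw [star_mul, star_star]
        calc ((w s : Matrix ι ι ℂ) * star (w 0 : Matrix ι ι ℂ)) *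
            ((w 0 : Matrix ι ι ℂ) * D 0 f * star (w 0 : Matrix ι ι ℂ)) *
            ((w 0 : Matrix ι ι ℂ) * star (w s : Matrix ι ι ℂ))
            = (w s : Matrix ι ι ℂ) * (star (w 0 : Matrix ι ι ℂ) * (w 0 : Matrix ι ι ℂ)) * D 0 f *
              (star (w 0 : Matrix ι ι ℂ) * (w 0 : Matrix ι ι ℂ)) * star (w s : Matrix ι ι ℂ) := by
              noncomm_ring
          _ = _ := by rw [hw0, mul_one, mul_one]
      rw [mul_sub (((w s : Matrix ι ι ℂ) * star (w 0 : Matrix ι ι ℂ))), sub_mul, e1]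
      noncomm_ring
    rw [e]
    have n1 : ‖(w s : Matrix ι ι ℂ)‖ ≤ 1 := norm_le_one_of_mem_unitary' (w s).2
    have n2 : ‖star (w s : Matrix ι ι ℂ)‖ ≤ 1 :=
      norm_le_one_of_mem_unitary' (Unitary.star_mem (w s).2)
    have n3 : ‖(w s : Matrix ι ι ℂ) * star (w 0 : Matrix ι ι ℂ)‖ ≤ 1 :=
      norm_le_one_of_mem_unitary' (mul_mem (w s).2 (Unitary.star_mem (w 0).2))
    have n4 : ‖star ((w s : Matrix ι ι ℂ) * star (w 0 : Matrix ι ι ℂ))‖ ≤ 1 :=
      norm_le_one_of_mem_unitary' (Unitary.star_mem (mul_mem (w s).2 (Unitary.star_mem (w 0).2)))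
    have b1 : ∀ A B C : Matrix ι ι ℂ, ‖A‖ ≤ 1 → ‖C‖ ≤ 1 → ‖A * B * C‖ ≤ ‖B‖ := by
      intro A B C hA hC
      calc ‖A * B * C‖ ≤ ‖A‖ * ‖B‖ * ‖C‖ :=
            (norm_mul_le _ _).trans (mul_le_mul_of_nonneg_right (norm_mul_le _ _) (norm_nonneg _))
        _ ≤ 1 * ‖B‖ * 1 := by gcongr
        _ = ‖B‖ := by ring
    calc _ ≤ ‖γ s f - (w s : Matrix ι ι ℂ) * D s f * star (w s : Matrix ι ι ℂ)‖ +
          ‖(w s : Matrix ι ι ℂ) * (D s f - D 0 f) * star (w s : Matrix ι ι ℂ)‖ +
          ‖((w s : Matrix ι ι ℂ) * star (w 0 : Matrix ι ι ℂ)) *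
          (γ 0 f - (w 0 : Matrix ι ι ℂ) * D 0 f * star (w 0 : Matrix ι ι ℂ)) *
          star ((w s : Matrix ι ι ℂ) * star (w 0 : Matrix ι ι ℂ))‖ :=
          (norm_sub_le _ _).trans (add_le_add_left (norm_add_le _ _) _)
      _ ≤ ε / 4 + ε / 4 + ε / 4 := by
          refine add_le_add (add_le_add (hw s f hfF) ?_) ?_
          · exact (b1 _ _ _ n1 n2).trans (hD0 s f hfF)
          · exact (b1 _ _ _ n3 n4).trans (hw 0 f hfF)
      _ ≤ ε := by linarith

end Crest.Agent.JS
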